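import Vale.Agent.P146.H605.Defs
import Vale.Agent.P146.Bdl.B37
import Vale.Agent.P146.Bdl.B25

/-!
# P146: the variance of the free energy controls the overlap of correlated copies
-/

open MeasureTheory ProbabilityTheory

namespace Vale.Agent.P146.H605

open Vale.Agent.P146.Ub.Cv

section bessel

variable {ι : Type*} [Fintype ι] [DecidableEq ι] {F : (ι → ℝ) → ℝ} {G : ι → (ι → ℝ) → ℝ}

omit [DecidableEq ι] in
lemma Lin.mul_dom {f h : (ι → ℝ) → ℝ} (hf : Lin f) (hh : Lin h) : Dom (fun g => f g * h g) :=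
  hf.dom.mul hh.dom

/-- Bessel's inequality for one Gaussian vector -/
lemma bessel_one (hF : Lin F) (hG : ∀ i, Lin (G i))
    (hd : ∀ (g : ι → ℝ) (i : ι) (t : ℝ), HasDerivAt (fun t => F (Function.update g i t))
      (G i (Function.update g i t)) t)
    {c s : ℝ} (hc : |c| ≤ 1) (hs : |s| ≤ 1) (z : ι → ℝ) :
    (∫ y, F (mix c s z y) ∂(gpi ι)) ^ 2 +
        s ^ 2 * ∑ i, (∫ y, G i (mix c s z y) ∂(gpi ι)) ^ 2 ≤
      ∫ y, F (mix c s z y) ^ 2 ∂(gpi ι) := by
  obtain ⟨m, hm⟩ : ∃ m, m = ∫ y, F (mix c s z y) ∂(gpi ι) := ⟨_, rfl⟩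
  obtain ⟨Γ, hΓ⟩ : ∃ Γ : ι → ℝ, Γ = fun i => s * ∫ y, G i (mix c s z y) ∂(gpi ι) := ⟨_, rfl⟩
  have lF : Lin (fun y => F (mix c s z y)) := hF.fix hc hs z
  have lG : ∀ i, Lin (fun y => G i (mix c s z y)) := fun i => (hG i).fix hc hs z
  have lL : Lin (fun y : ι → ℝ => ∑ i, Γ i * y i) :=
    Lin.sum _ fun i _ => (Lin.coord i).const_mul _
  have hF1 : ∀ i, ∫ y, y i * F (mix c s z y) ∂(gpi ι) = Γ i := by
    intro i
    have h := ibp (ι := ι) i (Φ := fun y => F (mix c s z y))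
      (Φ' := fun y => s * G i (mix c s z y)) lF.dom ((lG i).dom.const_mul s) (fun g t => by
        simp only [mix_upd_right]
        have d2 := comp_upd (f := F) (f' := G i) (i := i) (z := mix c s z g)
          (fun t => hd _ i t) (lin_deriv' s (c * z i) t)
        refine d2.congr_deriv ?_
        ring)
    rw [h, integral_const_mul, hΓ]
  have hL1 : ∀ i, ∫ y, y i * (∑ j, Γ j * y j) ∂(gpi ι) = Γ i := by
    intro i
    have h := ibp (ι := ι) i (Φ := fun y => ∑ j, Γ j * y j)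
      (Φ' := fun _ => Γ i) lL.dom (Dom.const _) (fun g t => by
        have h1 : ∀ j, HasDerivAt (fun t => Γ j * Function.update g i t j)
            (Γ j * (Pi.single i (1 : ℝ) : ι → ℝ) j) t := by
          intro j
          refine HasDerivAt.const_mul _ ?_
          exact (hasDerivAt_pi.1 (hasDerivAt_update g i t)) j
        refine (HasDerivAt.fun_sum fun j _ => h1 j).congr_deriv ?_
        rw [Finset.sum_eq_single i]
        · simp
        · intro j _ hj
          simp [Pi.single_eq_of_ne hj]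
        · intro hi
          exact absurd (Finset.mem_univ i) hi)
    rw [h]
    simp
  have eFL : ∫ y, F (mix c s z y) * (∑ j, Γ j * y j) ∂(gpi ι) = ∑ i, Γ i ^ 2 := by
    have e : ∀ y : ι → ℝ, F (mix c s z y) * (∑ j, Γ j * y j) =
        ∑ j, Γ j * (y j * F (mix c s z y)) := by
      intro y
      rw [Finset.mul_sum]
      exact Finset.sum_congr rfl fun j _ => by ring
    simp_rw [e]
    rw [int_sum _ fun i _ => ((Dom.coord i).mul lF.dom).const_mul _]
    refine Finset.sum_congr rfl fun i _ => ?_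
    rw [integral_const_mul, hF1 i]
    ring
  have eLL : ∫ y, (∑ j, Γ j * y j) * (∑ j, Γ j * y j) ∂(gpi ι) = ∑ i, Γ i ^ 2 := by
    have e : ∀ y : ι → ℝ, (∑ j, Γ j * y j) * (∑ j, Γ j * y j) =
        ∑ j, Γ j * (y j * (∑ j, Γ j * y j)) := by
      intro y
      rw [Finset.sum_mul]
      exact Finset.sum_congr rfl fun j _ => by ring
    simp_rw [e]
    rw [int_sum _ fun i _ => ((Dom.coord i).mul lL.dom).const_mul _]
    refine Finset.sum_congr rfl fun i _ => ?_
    rw [integral_const_mul, hL1 i]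
    ring
  have eL : ∫ y, (∑ j, Γ j * y j) ∂(gpi ι) = 0 := by
    rw [int_sum _ fun i _ => (Dom.coord i).const_mul _]
    refine Finset.sum_eq_zero fun i _ => ?_
    rw [integral_const_mul, int_coord_zero, mul_zero]
  have hpos : 0 ≤ ∫ y, (F (mix c s z y) - m - ∑ j, Γ j * y j) ^ 2 ∂(gpi ι) :=
    integral_nonneg fun y => sq_nonneg _
  have e : ∀ y : ι → ℝ, (F (mix c s z y) - m - ∑ j, Γ j * y j) ^ 2 =
      (F (mix c s z y) ^ 2 + ((-2 * m) * F (mix c s z y) + m ^ 2)) +
      ((-2) * (F (mix c s z y) * (∑ j, Γ j * y j)) +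
        (2 * m * (∑ j, Γ j * y j) + (∑ j, Γ j * y j) * (∑ j, Γ j * y j))) := by
    intro y; ring
  simp_rw [e] at hpos
  rw [int_add ((lF.dom.pow 2).add ((lF.dom.const_mul _).add (Dom.const _)))
      (((lF.dom.mul lL.dom).const_mul _).add ((lL.dom.const_mul _).add (lL.dom.mul lL.dom))),
    int_add (lF.dom.pow 2) ((lF.dom.const_mul _).add (Dom.const _)),
    int_add (lF.dom.const_mul _) (Dom.const _),
    int_add ((lF.dom.mul lL.dom).const_mul _) ((lL.dom.const_mul _).add (lL.dom.mul lL.dom)),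
    int_add (lL.dom.const_mul _) (lL.dom.mul lL.dom),
    integral_const_mul, integral_const_mul, integral_const_mul, eFL, eLL, eL, ← hm] at hpos
  have e2 : s ^ 2 * ∑ i, (∫ y, G i (mix c s z y) ∂(gpi ι)) ^ 2 = ∑ i, Γ i ^ 2 := by
    rw [Finset.mul_sum, hΓ]
    exact Finset.sum_congr rfl fun i _ => by ring
  rw [e2, ← hm]
  simp at hpos
  linarith

/-- the variance dominates the averaged squared conditional gradients -/
lemma bessel_mix (hF : Lin F) (hG : ∀ i, Lin (G i)) {B : ℝ} (hB : ∀ i g, |G i g| ≤ B)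
    (hd : ∀ (g : ι → ℝ) (i : ι) (t : ℝ), HasDerivAt (fun t => F (Function.update g i t))
      (G i (Function.update g i t)) t)
    {c s : ℝ} (hcs : c ^ 2 + s ^ 2 = 1) :
    (∫ g, F g ∂(gpi ι)) ^ 2 +
        s ^ 2 * ∑ i, ∫ z, (∫ y, G i (mix c s z y) ∂(gpi ι)) ^ 2 ∂(gpi ι) ≤
      ∫ g, F g ^ 2 ∂(gpi ι) := by
  have hc : |c| ≤ 1 := by
    rw [abs_le]; constructor <;> nlinarith [sq_nonneg s]
  have hs : |s| ≤ 1 := by
    rw [abs_le]; constructor <;> nlinarith [sq_nonneg c]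
  have mF := (hF.mix2 hcs).1
  have mF2 : Integrable (fun q : (ι → ℝ) × (ι → ℝ) => F (mix c s q.1 q.2) ^ 2)
      ((gpi ι).prod (gpi ι)) :=
    (mp_mix hcs).integrable_comp_of_integrable (g := fun z => F z ^ 2) (hF.dom.pow 2).integrable
  have mG := fun i => ((hG i).mix2 hcs).1
  have iF : Integrable (fun z => ∫ y, F (mix c s z y) ∂(gpi ι)) (gpi ι) := mF.integral_prod_left
  have iF2 : Integrable (fun z => ∫ y, F (mix c s z y) ^ 2 ∂(gpi ι)) (gpi ι) :=
    mF2.integral_prod_left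
  have iG : ∀ i, Integrable (fun z => ∫ y, G i (mix c s z y) ∂(gpi ι)) (gpi ι) :=
    fun i => (mG i).integral_prod_left
  have iG2 : ∀ i, Integrable (fun z => (∫ y, G i (mix c s z y) ∂(gpi ι)) ^ 2) (gpi ι) := by
    intro i
    refine Integrable.mono' (integrable_const (B ^ 2)) ((iG i).1.pow 2)
      (Filter.Eventually.of_forall fun z => ?_)
    rw [Real.norm_eq_abs, abs_pow]
    have h1 : |∫ y, G i (mix c s z y) ∂(gpi ι)| ≤ B := by
      have h2 := norm_integral_le_of_norm_le_const (μ := gpi ι)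
        (f := fun y => G i (mix c s z y)) (C := B)
        (Filter.Eventually.of_forall fun y => by rw [Real.norm_eq_abs]; exact hB i _)
      simpa using h2
    exact pow_le_pow_left₀ (abs_nonneg _) h1 2
  have iS : Integrable (fun z => s ^ 2 * ∑ i, (∫ y, G i (mix c s z y) ∂(gpi ι)) ^ 2) (gpi ι) :=
    (integrable_finsetSum _ fun i _ => iG2 i).const_mul _
  have ib := fun z => bessel_one hF hG hd hc hs z
  have iFs : Integrable (fun z => (∫ y, F (mix c s z y) ∂(gpi ι)) ^ 2) (gpi ι) := by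
    refine Integrable.mono' iF2 (iF.1.pow 2) (Filter.Eventually.of_forall fun z => ?_)
    rw [Real.norm_eq_abs, abs_of_nonneg (sq_nonneg _)]
    have h1 := ib z
    have h2 : 0 ≤ s ^ 2 * ∑ i, (∫ y, G i (mix c s z y) ∂(gpi ι)) ^ 2 :=
      mul_nonneg (sq_nonneg _) (Finset.sum_nonneg fun i _ => sq_nonneg _)
    linarith
  have h1 := integral_mono (iFs.add iS) iF2 ib
  simp only [Pi.add_apply] at h1
  rw [integral_add iFs iS, integral_const_mul, integral_finsetSum _ fun i _ => iG2 i] at h1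
  have e1 : ∫ z, (∫ y, F (mix c s z y) ^ 2 ∂(gpi ι)) ∂(gpi ι) = ∫ g, F g ^ 2 ∂(gpi ι) := by
    rw [← integral_prod _ mF2]
    exact int_mix hcs (hF.cont.pow 2)
  have e2 : ∫ z, (∫ y, F (mix c s z y) ∂(gpi ι)) ∂(gpi ι) = ∫ g, F g ∂(gpi ι) := by
    rw [← integral_prod _ mF]
    exact int_mix hcs hF.cont
  have h2 : (∫ g, F g ∂(gpi ι)) ^ 2 ≤ ∫ z, (∫ y, F (mix c s z y) ∂(gpi ι)) ^ 2 ∂(gpi ι) := by
    obtain ⟨m, hm⟩ : ∃ m, m = ∫ g, F g ∂(gpi ι) := ⟨_, rfl⟩
    have h3 : 0 ≤ ∫ z, ((∫ y, F (mix c s z y) ∂(gpi ι)) - m) ^ 2 ∂(gpi ι) :=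
      integral_nonneg fun z => sq_nonneg _
    have e : ∀ z : ι → ℝ, ((∫ y, F (mix c s z y) ∂(gpi ι)) - m) ^ 2 =
        (∫ y, F (mix c s z y) ∂(gpi ι)) ^ 2 +
          ((-2 * m) * (∫ y, F (mix c s z y) ∂(gpi ι)) + m ^ 2) := fun z => by ring
    simp_rw [e] at h3
    have hI : Integrable (fun z => (-2 * m) * (∫ y, F (mix c s z y) ∂(gpi ι)) + m ^ 2) (gpi ι) :=
      (iF.const_mul _).add (integrable_const _)
    rw [integral_add iFs hI,
      integral_add (iF.const_mul _) (integrable_const _), integral_const_mul, e2, ← hm] at h3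
    rw [← hm]
    simp at h3
    linarith
  rw [e1] at h1
  linarith

end bessel

section sk

variable (n : ℕ) (β : ℝ)

lemma disorder_eq : disorder n = gpi (Pair n) := rfl

lemma mixed_eq (a : ℝ) (z g : Pair n → ℝ) :
    mixed n a z g = mix (Real.sqrt a) (Real.sqrt (1 - a)) z g := rfl

lemma overlap_sq (hn : 1 ≤ n) (σ τ : Fin n → ℤˣ) :
    overlap n σ τ ^ 2 = 1 / n + 2 / (n : ℝ) ^ 2 * ∑ p : Pair n, chi (ps p) σ * chi (ps p) τ := by
  have hn0 : (0 : ℝ) < n := by exact_mod_cast hn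
  have h1 : ∑ p : Pair n, chi (ps p) σ * chi (ps p) τ =
      ∑ p : Pair n, (sp σ p.1.1 * sp τ p.1.1) * (sp σ p.1.2 * sp τ p.1.2) := by
    refine Finset.sum_congr rfl fun p _ => ?_
    rw [chi_ps, chi_ps]
    ring
  have h2 := Vale.Agent.P146.Ub.rc_pair_sq (fun i => sp σ i * sp τ i)
  have h3 : ∑ i, (sp σ i * sp τ i) * (sp σ i * sp τ i) = n := by
    have : ∀ i, (sp σ i * sp τ i) * (sp σ i * sp τ i) = 1 := by
      intro i
      have e : (sp σ i * sp τ i) * (sp σ i * sp τ i) =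
        (sp σ i * sp σ i) * (sp τ i * sp τ i) := by ring
      rw [e, sp_sq, sp_sq, one_mul]
    simp [this]
  rw [h3] at h2
  rw [h1, h2]
  unfold overlap
  have h4 : (∑ i, ((σ i : ℤ) : ℝ) * ((τ i : ℤ) : ℝ)) = ∑ i, sp σ i * sp τ i := rfl
  rw [h4]
  field_simp
  ring

lemma gibbs_sum (g : Pair n → ℝ) (f : (Fin n → ℤˣ) → ℝ) :
    ∑ σ, f σ * gibbs n β g σ = avf n β f g := by
  unfold avf gav gibbs
  rw [Finset.sum_div]
  refine Finset.sum_congr rfl fun σ _ => ?_
  rw [← partitionFn_eq]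
  unfold wt
  rw [ska_sum, add_zero]
  ring

lemma gibbs_one (g : Pair n → ℝ) : ∑ σ, gibbs n β g σ = 1 := by
  have h := gibbs_sum n β g (fun _ => 1)
  simp only [one_mul] at h
  rw [h]
  exact gav_const _ _ 1 g

lemma pair_overlap (hn : 1 ≤ n) (g g' : Pair n → ℝ) :
    ∑ σ : Fin n → ℤˣ, ∑ τ : Fin n → ℤˣ,
        overlap n σ τ ^ 2 * gibbs n β g σ * gibbs n β g' τ =
      1 / n + 2 / (n : ℝ) ^ 2 * ∑ p : Pair n, av n β (ps p) g * av n β (ps p) g' := by
  have h1 : ∀ σ τ : Fin n → ℤˣ, overlap n σ τ ^ 2 * gibbs n β g σ * gibbs n β g' τ =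
      1 / n * (gibbs n β g σ * gibbs n β g' τ) + 2 / (n : ℝ) ^ 2 * ∑ p : Pair n,
        (chi (ps p) σ * gibbs n β g σ) * (chi (ps p) τ * gibbs n β g' τ) := by
    intro σ τ
    rw [overlap_sq n hn, add_mul, add_mul, Finset.mul_sum, Finset.mul_sum, Finset.sum_mul,
      Finset.sum_mul]
    congr 1
    · ring
    · exact Finset.sum_congr rfl fun p _ => by ring
  simp_rw [h1, Finset.sum_add_distrib, ← Finset.mul_sum]
  congr 1
  · rw [gibbs_one n β g']
    simp [gibbs_one]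
  · congr 1
    have h2 : ∀ p : Pair n, av n β (ps p) g * av n β (ps p) g' =
        ∑ σ, ∑ τ, (chi (ps p) σ * gibbs n β g σ) * (chi (ps p) τ * gibbs n β g' τ) := by
      intro p
      unfold av
      rw [← gibbs_sum, ← gibbs_sum, Finset.sum_mul_sum]
    simp_rw [h2]
    symm
    rw [Finset.sum_comm]
    refine Finset.sum_congr rfl fun σ _ => ?_
    rw [Finset.sum_comm]

lemma lin_av (A : Finset (Fin n)) : Lin (av n β A) :=
  Lin.of_bounded (av_dom n β A).cont 1 (abs_av_le n β A)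

/-- the conditional mean of a Gibbs average of a spin product -/
noncomputable def cm (a : ℝ) (p : Pair n) (z : Pair n → ℝ) : ℝ :=
  ∫ y, av n β (ps p) (mixed n a z y) ∂(disorder n)

lemma sqrt_sq_add {a : ℝ} (ha : 0 ≤ a) (ha1 : a ≤ 1) :
    Real.sqrt a ^ 2 + Real.sqrt (1 - a) ^ 2 = 1 := by
  rw [Real.sq_sqrt ha, Real.sq_sqrt (by linarith)]
  ring

lemma sqrt_abs_le {a : ℝ} (ha1 : a ≤ 1) : |Real.sqrt a| ≤ 1 := by
  rw [abs_of_nonneg (Real.sqrt_nonneg _)]
  exact Real.sqrt_le_one.2 ha1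

lemma int_cm_sq {a : ℝ} (ha : 0 ≤ a) (ha1 : a ≤ 1) (p : Pair n) :
    Integrable (fun z => cm n β a p z ^ 2) (disorder n) := by
  rw [disorder_eq]
  have mG := ((lin_av n β (ps p)).mix2 (sqrt_sq_add ha ha1)).1
  have iG : Integrable (fun z => cm n β a p z) (gpi (Pair n)) := mG.integral_prod_left
  refine Integrable.mono' (integrable_const (1 : ℝ)) (iG.1.pow 2)
    (Filter.Eventually.of_forall fun z => ?_)
  rw [Real.norm_eq_abs, abs_pow]
  have h1 : |cm n β a p z| ≤ 1 := by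
    have h2 := norm_integral_le_of_norm_le_const (μ := gpi (Pair n))
      (f := fun y => av n β (ps p) (mixed n a z y)) (C := 1)
      (Filter.Eventually.of_forall fun y => by rw [Real.norm_eq_abs]; exact abs_av_le n β _ _)
    unfold cm
    rw [disorder_eq]
    simpa using h2
  exact pow_le_one₀ (abs_nonneg _) h1

theorem crossOverlap_eq (hn : 1 ≤ n) {a : ℝ} (ha : 0 ≤ a) (ha1 : a ≤ 1) :
    crossOverlap n β a = 1 / n + 2 / (n : ℝ) ^ 2 *
      ∑ p : Pair n, ∫ z, cm n β a p z ^ 2 ∂(disorder n) := by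
  have hc := sqrt_abs_le ha1
  have hs := sqrt_abs_le (a := 1 - a) (by linarith)
  have lA : ∀ (z : Pair n → ℝ) (p : Pair n), Lin (fun y => av n β (ps p) (mixed n a z y)) :=
    fun z p => (lin_av n β (ps p)).fix hc hs z
  unfold crossOverlap
  simp_rw [pair_overlap n β hn]
  have e1 : ∀ z g : Pair n → ℝ, ∫ g', (1 / (n : ℝ) + 2 / (n : ℝ) ^ 2 *
      ∑ p : Pair n, av n β (ps p) (mixed n a z g) * av n β (ps p) (mixed n a z g'))
        ∂(disorder n) = 1 / (n : ℝ) + 2 / (n : ℝ) ^ 2 *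
      ∑ p : Pair n, av n β (ps p) (mixed n a z g) * cm n β a p z := by
    intro z g
    have h1 := int_add (f := fun _ : Pair n → ℝ => 1 / (n : ℝ))
      (h := fun g' => 2 / (n : ℝ) ^ 2 * ∑ p : Pair n, av n β (ps p) (mixed n a z g) *
        av n β (ps p) (mixed n a z g')) (Dom.const _)
      ((Dom.sum _ fun p _ => (lA z p).dom.const_mul _).const_mul _)
    rw [disorder_eq, h1, integral_const_mul, int_sum _ fun p _ => (lA z p).dom.const_mul _]
    simp only [integral_const, probReal_univ, one_smul, integral_const_mul]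
    rfl
  have e2 : ∀ z : Pair n → ℝ, ∫ g, (1 / (n : ℝ) + 2 / (n : ℝ) ^ 2 *
      ∑ p : Pair n, av n β (ps p) (mixed n a z g) * cm n β a p z) ∂(disorder n) =
      1 / (n : ℝ) + 2 / (n : ℝ) ^ 2 * ∑ p : Pair n, cm n β a p z ^ 2 := by
    intro z
    have dA : ∀ p : Pair n, Dom (fun y => av n β (ps p) (mixed n a z y) * cm n β a p z) :=
      fun p => (lA z p).dom.mul (Dom.const _)
    have h1 := int_add (f := fun _ : Pair n → ℝ => 1 / (n : ℝ))
      (h := fun g => 2 / (n : ℝ) ^ 2 * ∑ p : Pair n, av n β (ps p) (mixed n a z g) *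
        cm n β a p z) (Dom.const _)
      ((Dom.sum _ fun p _ => dA p).const_mul _)
    rw [disorder_eq, h1, integral_const_mul, int_sum _ fun p _ => dA p]
    simp only [integral_const, probReal_univ, one_smul, integral_mul_const]
    congr 2
    refine Finset.sum_congr rfl fun p _ => ?_
    rw [sq]
    rfl
  simp_rw [e1, e2]
  have i2 : ∀ p : Pair n, Integrable (fun z => cm n β a p z ^ 2) (gpi (Pair n)) :=
    fun p : Pair n => int_cm_sq n β ha ha1 p
  have i3 : Integrable (fun z => 2 / (n : ℝ) ^ 2 * ∑ p : Pair n, cm n β a p z ^ 2) (gpi (Pair n)) :=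
    (integrable_finsetSum _ fun p _ => i2 p).const_mul _
  rw [disorder_eq, integral_add (integrable_const _) i3, integral_const_mul,
    integral_finsetSum _ fun p _ => i2 p]
  simp only [integral_const, probReal_univ, one_smul]

/-- **The variance of the free energy dominates the overlap of correlated copies.** -/
theorem var_ge_crossOverlap (hn : 1 ≤ n) {a : ℝ} (ha : 0 ≤ a) (ha1 : a ≤ 1) :
    (1 - a) * (β ^ 2 / 2) * (n * crossOverlap n β a - 1) ≤ Var[freeEnergy n β; disorder n] := by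
  have hn0 : (0 : ℝ) < n := by exact_mod_cast hn
  have hr := reg_freeEnergy n β
  have h1 := bessel_mix (lin_freeEnergy n β)
    (fun p => Lin.of_bounded (hr.G_dom p).cont _ (hr.G_bd p)) hr.G_bd
    (fun g i t => hr.coord g i t) (sqrt_sq_add ha ha1)
  have hd := freeEnergy_dom n β
  have hm : MemLp (freeEnergy n β) 2 (gpi (Pair n)) := by
    rw [memLp_two_iff_integrable_sq hd.cont.aestronglyMeasurable]
    exact (hd.pow 2).integrable
  have e : Var[freeEnergy n β; disorder n] =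
      ∫ g, freeEnergy n β g ^ 2 ∂(gpi (Pair n)) - (∫ g, freeEnergy n β g ∂(gpi (Pair n))) ^ 2 :=
    variance_eq_sub (μ := gpi (Pair n)) hm
  have e2 : ∀ p : Pair n, ∫ z, (∫ y, gradF n β p (mix (Real.sqrt a) (Real.sqrt (1 - a)) z y)
      ∂(gpi (Pair n))) ^ 2 ∂(gpi (Pair n)) = β ^ 2 / n * ∫ z, cm n β a p z ^ 2 ∂(disorder n) := by
    intro p
    rw [← integral_const_mul]
    refine integral_congr_ae (Filter.Eventually.of_forall fun z => ?_)
    simp only
    unfold gradF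
    rw [integral_const_mul, mul_pow, div_pow, Real.sq_sqrt hn0.le]
    rfl
  simp_rw [e2] at h1
  rw [← Finset.mul_sum, Real.sq_sqrt (by linarith)] at h1
  rw [e, crossOverlap_eq n β hn ha ha1]
  have e3 : (1 - a) * (β ^ 2 / 2) * (n * (1 / n + 2 / (n : ℝ) ^ 2 *
      ∑ p : Pair n, ∫ z, cm n β a p z ^ 2 ∂(disorder n)) - 1) =
      (1 - a) * (β ^ 2 / n * ∑ p : Pair n, ∫ z, cm n β a p z ^ 2 ∂(disorder n)) := by
    field_simp
    ring
  rw [e3]
  linarith

end sk

end Vale.Agent.P146.H605
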