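import Vale.Agent.P146.H605.Defs

/-!
# P146: the covariance of the free energies of two correlated disorders
-/

open MeasureTheory ProbabilityTheory

namespace Vale.Agent.P146.H605

/-- The covariance of the free energies of the two disorders `√t z + √(1-t) g` and
`√t z + √(1-t) g'`, with `z`, `g`, `g'` independent standard Gaussian.  Each of the two disorders
has the law `disorder n`, and their correlation is `t`. -/
noncomputable def crossCov (n : ℕ) (β t : ℝ) : ℝ :=
  (∫ z, ∫ g, ∫ g', freeEnergy n β (mixed n t z g) * freeEnergy n β (mixed n t z g')
      ∂(disorder n) ∂(disorder n) ∂(disorder n)) -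
    (∫ g, freeEnergy n β g ∂(disorder n)) ^ 2

end Vale.Agent.P146.H605
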