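import Mathlib

/-!
# P146b: a pair of Gaussian vectors with correlation `t`, written in two ways

Both sides of `mp_pair` are the law of a pair of standard Gaussian vectors whose coordinates
have correlation `t`; they are compared through their characteristic functions.
-/

namespace Vale.Agent.P146.H605

open MeasureTheory ProbabilityTheory

variable {ι : Type*} [Fintype ι]

/-- `charFunDual` of the standard Gaussian on the line. -/
lemma charFunDual_std (L : StrongDual ℝ ℝ) :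
    charFunDual (gaussianReal 0 1) L = Complex.exp (-((L 1 : ℝ) : ℂ) ^ 2 / 2) := by
  rw [charFunDual_eq_charFun_map_one]
  have h : (gaussianReal 0 1).map L = (gaussianReal 0 1).map ((L 1) * ·) := by
    congr 1
    ext x
    have : L x = L (x • (1 : ℝ)) := by simp
    rw [this, map_smul, smul_eq_mul, mul_comm]
  rw [h, gaussianReal_map_const_mul, charFun_gaussianReal]
  congr 1
  push_cast
  simp
  ring

/-- `charFunDual` of the product of standard Gaussians. -/
lemma charFunDual_std_pi [DecidableEq ι] (L : StrongDual ℝ (ι → ℝ)) :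
    charFunDual (Measure.pi fun _ : ι => gaussianReal 0 1) L =
      Complex.exp (-(∑ i, ((L (Pi.single i 1) : ℝ) : ℂ) ^ 2) / 2) := by
  rw [charFunDual_pi]
  simp_rw [charFunDual_std]
  rw [← Complex.exp_sum]
  congr 1
  rw [← Finset.sum_neg_distrib, Finset.sum_div]
  refine Finset.sum_congr rfl fun i _ => ?_
  simp

/-- The linear map of the left-hand side. -/
noncomputable def A (ι : Type*) [Fintype ι] (s c : ℝ) :
    (ι → ℝ) × ((ι → ℝ) × (ι → ℝ)) →L[ℝ] (ι → ℝ) × (ι → ℝ) :=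
  ContinuousLinearMap.prod
    (s • ContinuousLinearMap.fst ℝ (ι → ℝ) ((ι → ℝ) × (ι → ℝ)) +
      c • (ContinuousLinearMap.fst ℝ (ι → ℝ) (ι → ℝ)).comp
        (ContinuousLinearMap.snd ℝ (ι → ℝ) ((ι → ℝ) × (ι → ℝ))))
    (s • ContinuousLinearMap.fst ℝ (ι → ℝ) ((ι → ℝ) × (ι → ℝ)) +
      c • (ContinuousLinearMap.snd ℝ (ι → ℝ) (ι → ℝ)).comp
        (ContinuousLinearMap.snd ℝ (ι → ℝ) ((ι → ℝ) × (ι → ℝ))))

/-- The linear map of the right-hand side. -/
noncomputable def B (ι : Type*) [Fintype ι] (t c : ℝ) :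
    (ι → ℝ) × (ι → ℝ) →L[ℝ] (ι → ℝ) × (ι → ℝ) :=
  ContinuousLinearMap.prod (ContinuousLinearMap.fst ℝ (ι → ℝ) (ι → ℝ))
    (t • ContinuousLinearMap.fst ℝ (ι → ℝ) (ι → ℝ) +
      c • ContinuousLinearMap.snd ℝ (ι → ℝ) (ι → ℝ))

omit [Fintype ι] in
lemma split (L : StrongDual ℝ ((ι → ℝ) × (ι → ℝ))) (x y : ι → ℝ) :
    L (x, y) = L (x, 0) + L (0, y) := by
  rw [← map_add]
  simp

omit [Fintype ι] in
lemma sL (L : StrongDual ℝ ((ι → ℝ) × (ι → ℝ))) (r : ℝ) (x : ι → ℝ) :
    L (r • x, 0) = r * L (x, 0) := by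
  have : ((r • x, 0) : (ι → ℝ) × (ι → ℝ)) = r • (x, 0) := by simp
  rw [this, map_smul, smul_eq_mul]

omit [Fintype ι] in
lemma sR (L : StrongDual ℝ ((ι → ℝ) × (ι → ℝ))) (r : ℝ) (x : ι → ℝ) :
    L (0, r • x) = r * L (0, x) := by
  have : ((0, r • x) : (ι → ℝ) × (ι → ℝ)) = r • (0, x) := by simp
  rw [this, map_smul, smul_eq_mul]

/-- Two descriptions of the law of a pair of standard Gaussian vectors with correlation `t`. -/
theorem mp_pair {ι : Type*} [Fintype ι] {t : ℝ} (h0 : 0 ≤ t) (h1 : t ≤ 1) :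
    Measure.map (fun q : (ι → ℝ) × ((ι → ℝ) × (ι → ℝ)) =>
        ((fun i => Real.sqrt t * q.1 i + Real.sqrt (1 - t) * q.2.1 i),
          (fun i => Real.sqrt t * q.1 i + Real.sqrt (1 - t) * q.2.2 i)))
      ((Measure.pi fun _ => gaussianReal 0 1).prod
        ((Measure.pi fun _ => gaussianReal 0 1).prod (Measure.pi fun _ => gaussianReal 0 1))) =
    Measure.map (fun q : (ι → ℝ) × (ι → ℝ) =>
        (q.1, fun i => t * q.1 i + Real.sqrt (1 - t ^ 2) * q.2 i))
      ((Measure.pi fun _ => gaussianReal 0 1).prod (Measure.pi fun _ => gaussianReal 0 1)) := by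
  classical
  have hA : (fun q : (ι → ℝ) × ((ι → ℝ) × (ι → ℝ)) =>
        ((fun i => Real.sqrt t * q.1 i + Real.sqrt (1 - t) * q.2.1 i),
          (fun i => Real.sqrt t * q.1 i + Real.sqrt (1 - t) * q.2.2 i))) =
      A ι (Real.sqrt t) (Real.sqrt (1 - t)) := by
    funext q
    simp only [A, ContinuousLinearMap.prod_apply]
    rfl
  have hB : (fun q : (ι → ℝ) × (ι → ℝ) =>
        (q.1, fun i => t * q.1 i + Real.sqrt (1 - t ^ 2) * q.2 i)) =
      B ι t (Real.sqrt (1 - t ^ 2)) := by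
    funext q
    simp only [B, ContinuousLinearMap.prod_apply]
    rfl
  rw [hA, hB]
  have e1 : Real.sqrt t ^ 2 = t := Real.sq_sqrt h0
  have e2 : Real.sqrt (1 - t) ^ 2 = 1 - t := Real.sq_sqrt (by linarith)
  have e3 : Real.sqrt (1 - t ^ 2) ^ 2 = 1 - t ^ 2 := Real.sq_sqrt (by nlinarith)
  refine Measure.ext_of_charFunDual ?_
  ext L
  rw [charFunDual_map, charFunDual_map, charFunDual_prod, charFunDual_prod, charFunDual_prod,
    charFunDual_std_pi, charFunDual_std_pi, charFunDual_std_pi, charFunDual_std_pi,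
    charFunDual_std_pi, ← Complex.exp_add, ← Complex.exp_add, ← Complex.exp_add]
  congr 1
  have key : ∀ i : ι,
      (((L.comp (A ι (Real.sqrt t) (Real.sqrt (1 - t)))).comp
          (ContinuousLinearMap.inl ℝ _ _)) (Pi.single i 1)) ^ 2 +
      (((((L.comp (A ι (Real.sqrt t) (Real.sqrt (1 - t)))).comp
          (ContinuousLinearMap.inr ℝ _ _)).comp (ContinuousLinearMap.inl ℝ _ _))
            (Pi.single i 1)) ^ 2 +
        ((((L.comp (A ι (Real.sqrt t) (Real.sqrt (1 - t)))).comp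
          (ContinuousLinearMap.inr ℝ _ _)).comp (ContinuousLinearMap.inr ℝ _ _))
            (Pi.single i 1)) ^ 2) =
      (((L.comp (B ι t (Real.sqrt (1 - t ^ 2)))).comp
          (ContinuousLinearMap.inl ℝ _ _)) (Pi.single i 1)) ^ 2 +
        (((L.comp (B ι t (Real.sqrt (1 - t ^ 2)))).comp
          (ContinuousLinearMap.inr ℝ _ _)) (Pi.single i 1)) ^ 2 := by
    intro i
    have a1 : ((L.comp (A ι (Real.sqrt t) (Real.sqrt (1 - t)))).comp
          (ContinuousLinearMap.inl ℝ _ _)) (Pi.single i 1) =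
        Real.sqrt t * L (Pi.single i 1, 0) + Real.sqrt t * L (0, Pi.single i 1) := by
      rw [← sL, ← sR, ← split]
      simp [A]
    have a2 : (((L.comp (A ι (Real.sqrt t) (Real.sqrt (1 - t)))).comp
          (ContinuousLinearMap.inr ℝ _ _)).comp (ContinuousLinearMap.inl ℝ _ _))
            (Pi.single i 1) = Real.sqrt (1 - t) * L (Pi.single i 1, 0) := by
      rw [← sL]
      simp [A]
    have a3 : (((L.comp (A ι (Real.sqrt t) (Real.sqrt (1 - t)))).comp
          (ContinuousLinearMap.inr ℝ _ _)).comp (ContinuousLinearMap.inr ℝ _ _))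
            (Pi.single i 1) = Real.sqrt (1 - t) * L (0, Pi.single i 1) := by
      rw [← sR]
      simp [A]
    have b1 : ((L.comp (B ι t (Real.sqrt (1 - t ^ 2)))).comp
          (ContinuousLinearMap.inl ℝ _ _)) (Pi.single i 1) =
        L (Pi.single i 1, 0) + t * L (0, Pi.single i 1) := by
      rw [← sR, ← split]
      simp [B]
    have b2 : ((L.comp (B ι t (Real.sqrt (1 - t ^ 2)))).comp
          (ContinuousLinearMap.inr ℝ _ _)) (Pi.single i 1) =
        Real.sqrt (1 - t ^ 2) * L (0, Pi.single i 1) := by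
      rw [← sR]
      simp [B]
    rw [a1, a2, a3, b1, b2]
    generalize L (Pi.single i 1, 0) = a
    generalize L (0, Pi.single i 1) = b
    have : (Real.sqrt t * a + Real.sqrt t * b) ^ 2 +
        ((Real.sqrt (1 - t) * a) ^ 2 + (Real.sqrt (1 - t) * b) ^ 2) =
        Real.sqrt t ^ 2 * (a + b) ^ 2 + Real.sqrt (1 - t) ^ 2 * (a ^ 2 + b ^ 2) := by ring
    rw [this, e1, e2, mul_pow, e3]
    ring
  have key' : ∀ i : ι,
      (((((L.comp (A ι (Real.sqrt t) (Real.sqrt (1 - t)))).comp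
          (ContinuousLinearMap.inl ℝ _ _)) (Pi.single i 1) : ℝ) : ℂ)) ^ 2 +
      (((((((L.comp (A ι (Real.sqrt t) (Real.sqrt (1 - t)))).comp
          (ContinuousLinearMap.inr ℝ _ _)).comp (ContinuousLinearMap.inl ℝ _ _))
            (Pi.single i 1) : ℝ) : ℂ)) ^ 2 +
        ((((((L.comp (A ι (Real.sqrt t) (Real.sqrt (1 - t)))).comp
          (ContinuousLinearMap.inr ℝ _ _)).comp (ContinuousLinearMap.inr ℝ _ _))
            (Pi.single i 1) : ℝ) : ℂ)) ^ 2) =
      (((((L.comp (B ι t (Real.sqrt (1 - t ^ 2)))).comp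
          (ContinuousLinearMap.inl ℝ _ _)) (Pi.single i 1) : ℝ) : ℂ)) ^ 2 +
        (((((L.comp (B ι t (Real.sqrt (1 - t ^ 2)))).comp
          (ContinuousLinearMap.inr ℝ _ _)) (Pi.single i 1) : ℝ) : ℂ)) ^ 2 := by
    intro i
    exact_mod_cast congrArg (fun x : ℝ => (x : ℂ)) (key i)
  rw [← add_div, ← add_div, ← add_div, ← neg_add, ← neg_add, ← neg_add,
    ← Finset.sum_add_distrib, ← Finset.sum_add_distrib, ← Finset.sum_add_distrib]
  congr 2
  exact Finset.sum_congr rfl fun i _ => key' i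

end Vale.Agent.P146.H605
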