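import Vale.Agent.P146.H605.Small
import Vale.Agent.P146.H605.Rot
import Vale.Agent.P146.H605.Defs2

/-!
# P146: the covariance of correlated copies, its formula and its log-convexity
-/

open MeasureTheory ProbabilityTheory

namespace Vale.Agent.P146.H605

open Vale.Agent.P146.Ub.Cv

section gen

variable {ι : Type*} [Fintype ι]

/-- `E (E [f | z])²` for a copy of correlation `t` -/
noncomputable def QQ (f : (ι → ℝ) → ℝ) (t : ℝ) : ℝ :=
  ∫ z, (∫ y, f (mix (Real.sqrt t) (Real.sqrt (1 - t)) z y) ∂(gpi ι)) ^ 2 ∂(gpi ι)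

lemma dom_fix {f : (ι → ℝ) → ℝ} (hf : Dom f) {c s : ℝ} (hc : |c| ≤ 1) (hs : |s| ≤ 1)
    (z : ι → ℝ) : Dom (fun y => f (mix c s z y)) := by
  obtain ⟨C, k, hC, hk, hb⟩ := hf.bound
  refine ⟨hf.cont.comp (cont_mix continuous_const continuous_const continuous_const
    continuous_id), C * Real.exp (k * ∑ i, |z i|), k, by positivity, hk, fun y => (hb _).trans ?_⟩
  rw [mul_assoc, ← Real.exp_add]
  refine mul_le_mul_of_nonneg_left (Real.exp_le_exp.2 ?_) hC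
  have := mul_le_mul_of_nonneg_left (sum_mix_le hc hs z y) hk
  linarith

lemma int_pair {f : (ι → ℝ) → ℝ} (hf : Dom f) {t : ℝ} (h0 : 0 ≤ t) (h1 : t ≤ 1) :
    Integrable (fun q : (ι → ℝ) × ((ι → ℝ) × (ι → ℝ)) =>
      f (mix (Real.sqrt t) (Real.sqrt (1 - t)) q.1 q.2.1) *
        f (mix (Real.sqrt t) (Real.sqrt (1 - t)) q.1 q.2.2))
      ((gpi ι).prod ((gpi ι).prod (gpi ι))) := by
  have hc : |Real.sqrt t| ≤ 1 := sqrt_abs_le h1
  have hs : |Real.sqrt (1 - t)| ≤ 1 := sqrt_abs_le (by linarith)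
  have cf : Continuous (fun q : (ι → ℝ) × ((ι → ℝ) × (ι → ℝ)) =>
      f (mix (Real.sqrt t) (Real.sqrt (1 - t)) q.1 q.2.1) *
        f (mix (Real.sqrt t) (Real.sqrt (1 - t)) q.1 q.2.2)) :=
    (hf.cont.comp (cont_mix continuous_const continuous_const continuous_fst
      (continuous_fst.comp continuous_snd))).mul
    (hf.cont.comp (cont_mix continuous_const continuous_const continuous_fst
      (continuous_snd.comp continuous_snd)))
  rw [← (mp3 (ι := ι)).integrable_comp cf.aestronglyMeasurable]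
  exact ((dom_uv hf hc hs).mul (dom_uw hf hc hs)).integrable

/-- `QQ` as an integral over two copies -/
lemma QQ_prod {f : (ι → ℝ) → ℝ} (hf : Dom f) {t : ℝ} (h0 : 0 ≤ t) (h1 : t ≤ 1) :
    QQ f t = ∫ q : (ι → ℝ) × ((ι → ℝ) × (ι → ℝ)),
      f (mix (Real.sqrt t) (Real.sqrt (1 - t)) q.1 q.2.1) *
        f (mix (Real.sqrt t) (Real.sqrt (1 - t)) q.1 q.2.2)
      ∂((gpi ι).prod ((gpi ι).prod (gpi ι))) := by
  rw [integral_prod _ (int_pair hf h0 h1)]
  unfold QQ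
  refine integral_congr_ae (Filter.Eventually.of_forall fun z => ?_)
  simp only
  rw [integral_prod_mul (fun y => f (mix (Real.sqrt t) (Real.sqrt (1 - t)) z y))
    (fun y => f (mix (Real.sqrt t) (Real.sqrt (1 - t)) z y)), sq]

/-- `QQ` is the covariance of a copy and the original -/
lemma QQ_one {f : (ι → ℝ) → ℝ} (hf : Dom f) {t : ℝ} (h0 : 0 ≤ t) (h1 : t ≤ 1) :
    QQ f t = ∫ x, f x * (∫ y, f (mix (Real.sqrt (t ^ 2)) (Real.sqrt (1 - t ^ 2)) x y)
      ∂(gpi ι)) ∂(gpi ι) := by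
  have ht2 : t ^ 2 ≤ 1 := pow_le_one₀ h0 h1
  have e0 : Real.sqrt (t ^ 2) = t := Real.sqrt_sq h0
  rw [QQ_prod hf h0 h1, e0]
  have hp := mp_pair (ι := ι) h0 h1
  have m1 : Measurable (fun q : (ι → ℝ) × ((ι → ℝ) × (ι → ℝ)) =>
        ((fun i => Real.sqrt t * q.1 i + Real.sqrt (1 - t) * q.2.1 i),
          (fun i => Real.sqrt t * q.1 i + Real.sqrt (1 - t) * q.2.2 i))) := by fun_prop
  have m2 : Measurable (fun q : (ι → ℝ) × (ι → ℝ) =>
        (q.1, fun i => t * q.1 i + Real.sqrt (1 - t ^ 2) * q.2 i)) := by fun_prop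
  have cf : Continuous (fun p : (ι → ℝ) × (ι → ℝ) => f p.1 * f p.2) :=
    (hf.cont.comp continuous_fst).mul (hf.cont.comp continuous_snd)
  have a1 := integral_map (μ := (gpi ι).prod ((gpi ι).prod (gpi ι))) m1.aemeasurable
    (f := fun p : (ι → ℝ) × (ι → ℝ) => f p.1 * f p.2) cf.aestronglyMeasurable
  have a2 := integral_map (μ := (gpi ι).prod (gpi ι)) m2.aemeasurable
    (f := fun p : (ι → ℝ) × (ι → ℝ) => f p.1 * f p.2) cf.aestronglyMeasurable
  have hp' : Measure.map (fun q : (ι → ℝ) × ((ι → ℝ) × (ι → ℝ)) =>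
        ((fun i => Real.sqrt t * q.1 i + Real.sqrt (1 - t) * q.2.1 i),
          (fun i => Real.sqrt t * q.1 i + Real.sqrt (1 - t) * q.2.2 i)))
      ((gpi ι).prod ((gpi ι).prod (gpi ι))) =
    Measure.map (fun q : (ι → ℝ) × (ι → ℝ) =>
        (q.1, fun i => t * q.1 i + Real.sqrt (1 - t ^ 2) * q.2 i)) ((gpi ι).prod (gpi ι)) := hp
  rw [hp'] at a1
  have i1 : Integrable (fun p : (ι → ℝ) × (ι → ℝ) => f p.1 * f p.2)
      (Measure.map (fun q : (ι → ℝ) × ((ι → ℝ) × (ι → ℝ)) =>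
        ((fun i => Real.sqrt t * q.1 i + Real.sqrt (1 - t) * q.2.1 i),
          (fun i => Real.sqrt t * q.1 i + Real.sqrt (1 - t) * q.2.2 i)))
      ((gpi ι).prod ((gpi ι).prod (gpi ι)))) := by
    rw [integrable_map_measure cf.aestronglyMeasurable m1.aemeasurable]
    exact int_pair hf h0 h1
  rw [hp', integrable_map_measure cf.aestronglyMeasurable m2.aemeasurable] at i1
  have e1 : ∫ q : (ι → ℝ) × ((ι → ℝ) × (ι → ℝ)),
      f (mix (Real.sqrt t) (Real.sqrt (1 - t)) q.1 q.2.1) *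
        f (mix (Real.sqrt t) (Real.sqrt (1 - t)) q.1 q.2.2)
      ∂((gpi ι).prod ((gpi ι).prod (gpi ι))) =
      ∫ q : (ι → ℝ) × (ι → ℝ), f q.1 * f (mix t (Real.sqrt (1 - t ^ 2)) q.1 q.2)
        ∂((gpi ι).prod (gpi ι)) := a1.symm.trans a2
  have i2 : Integrable (fun q : (ι → ℝ) × (ι → ℝ) =>
      f q.1 * f (mix t (Real.sqrt (1 - t ^ 2)) q.1 q.2)) ((gpi ι).prod (gpi ι)) := i1
  rw [e1, integral_prod _ i2]
  refine integral_congr_ae (Filter.Eventually.of_forall fun x => ?_)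
  simp only
  rw [← integral_const_mul]

/-- **Log-convexity.**  `QQ f t ^ 2 ≤ E f² * QQ f (t²)`. -/
theorem QQ_sq {f : (ι → ℝ) → ℝ} (hf : Dom f) {t : ℝ} (h0 : 0 ≤ t) (h1 : t ≤ 1) :
    QQ f t ^ 2 ≤ (∫ x, f x ^ 2 ∂(gpi ι)) * QQ f (t ^ 2) := by
  have ht0 : 0 ≤ t ^ 2 := sq_nonneg t
  have ht2 : t ^ 2 ≤ 1 := pow_le_one₀ h0 h1
  obtain ⟨P, hP⟩ : ∃ P : (ι → ℝ) → ℝ, P = fun x =>
    ∫ y, f (mix (Real.sqrt (t ^ 2)) (Real.sqrt (1 - t ^ 2)) x y) ∂(gpi ι) := ⟨_, rfl⟩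
  have hc : |Real.sqrt (t ^ 2)| ≤ 1 := sqrt_abs_le ht2
  have hs : |Real.sqrt (1 - t ^ 2)| ≤ 1 := sqrt_abs_le (by linarith)
  have iP2 : Integrable (fun x => P x ^ 2) (gpi ι) := by
    have h := (int_pair hf ht0 ht2).integral_prod_left
    refine h.congr (Filter.Eventually.of_forall fun z => ?_)
    simp only
    rw [integral_prod_mul (fun y => f (mix (Real.sqrt (t ^ 2)) (Real.sqrt (1 - t ^ 2)) z y))
      (fun y => f (mix (Real.sqrt (t ^ 2)) (Real.sqrt (1 - t ^ 2)) z y)), hP]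
    exact (sq _).symm
  have iP : AEStronglyMeasurable P (gpi ι) := by
    have i1 : Integrable (fun q : (ι → ℝ) × (ι → ℝ) =>
        f (mix (Real.sqrt (t ^ 2)) (Real.sqrt (1 - t ^ 2)) q.1 q.2)) ((gpi ι).prod (gpi ι)) :=
      (mp_mix (sqrt_sq_add ht0 ht2)).integrable_comp_of_integrable hf.integrable
    rw [hP]
    exact i1.integral_prod_left.1
  have if2 : Integrable (fun x => f x ^ 2) (gpi ι) := (hf.pow 2).integrable
  have ifP : Integrable (fun x => f x * P x) (gpi ι) := by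
    refine Integrable.mono' (if2.add iP2) (hf.cont.aestronglyMeasurable.mul iP)
      (Filter.Eventually.of_forall fun x => ?_)
    rw [Real.norm_eq_abs, abs_le]
    simp only [Pi.add_apply]
    constructor <;> nlinarith [sq_nonneg (f x - P x), sq_nonneg (f x + P x), sq_nonneg (f x),
      sq_nonneg (P x)]
  have e1 : QQ f t = ∫ x, f x * P x ∂(gpi ι) := by rw [QQ_one hf h0 h1, hP]
  have e2 : QQ f (t ^ 2) = ∫ x, P x ^ 2 ∂(gpi ι) := by rw [hP]; rfl
  rw [e1, e2]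
  obtain ⟨a, ha⟩ : ∃ a, a = ∫ x, f x ^ 2 ∂(gpi ι) := ⟨_, rfl⟩
  obtain ⟨b, hb⟩ : ∃ b, b = ∫ x, P x ^ 2 ∂(gpi ι) := ⟨_, rfl⟩
  obtain ⟨c, hc'⟩ : ∃ c, c = ∫ x, f x * P x ∂(gpi ι) := ⟨_, rfl⟩
  rw [← ha, ← hb, ← hc']
  have key : ∀ r : ℝ, 0 ≤ b * (r * r) + (-2 * c) * r + a := by
    intro r
    have h2 : 0 ≤ ∫ x, (f x - r * P x) ^ 2 ∂(gpi ι) := integral_nonneg fun x => sq_nonneg _
    have h3 : ∀ x, (f x - r * P x) ^ 2 = f x ^ 2 + ((-2 * r) * (f x * P x) + r ^ 2 * P x ^ 2) :=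
      fun x => by ring
    simp_rw [h3] at h2
    have i4 : Integrable (fun x => (-2 * r) * (f x * P x) + r ^ 2 * P x ^ 2) (gpi ι) :=
      (ifP.const_mul _).add (iP2.const_mul _)
    rw [integral_add if2 i4, integral_add (ifP.const_mul _) (iP2.const_mul _),
      integral_const_mul, integral_const_mul, ← ha, ← hb, ← hc'] at h2
    linarith
  have hd := discrim_le_zero key
  unfold discrim at hd
  linarith

lemma QQ_nonneg (f : (ι → ℝ) → ℝ) (t : ℝ) : 0 ≤ QQ f t :=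
  integral_nonneg fun _ => sq_nonneg _

lemma QQ_center {f : (ι → ℝ) → ℝ} (hf : Dom f) {t : ℝ} (h0 : 0 ≤ t) (h1 : t ≤ 1) :
    QQ (fun x => f x - ∫ y, f y ∂(gpi ι)) t = QQ f t - (∫ y, f y ∂(gpi ι)) ^ 2 := by
  obtain ⟨m, hm⟩ : ∃ m, m = ∫ y, f y ∂(gpi ι) := ⟨_, rfl⟩
  rw [← hm]
  have hc : |Real.sqrt t| ≤ 1 := sqrt_abs_le h1
  have hs : |Real.sqrt (1 - t)| ≤ 1 := sqrt_abs_le (by linarith)
  obtain ⟨P, hP⟩ : ∃ P : (ι → ℝ) → ℝ, P = fun x =>
    ∫ y, f (mix (Real.sqrt t) (Real.sqrt (1 - t)) x y) ∂(gpi ι) := ⟨_, rfl⟩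
  have iP2 : Integrable (fun x => P x ^ 2) (gpi ι) := by
    have h := (int_pair hf h0 h1).integral_prod_left
    refine h.congr (Filter.Eventually.of_forall fun z => ?_)
    simp only
    rw [integral_prod_mul (fun y => f (mix (Real.sqrt t) (Real.sqrt (1 - t)) z y))
      (fun y => f (mix (Real.sqrt t) (Real.sqrt (1 - t)) z y)), hP, sq]
  have i1 : Integrable (fun q : (ι → ℝ) × (ι → ℝ) =>
      f (mix (Real.sqrt t) (Real.sqrt (1 - t)) q.1 q.2)) ((gpi ι).prod (gpi ι)) :=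
    (mp_mix (sqrt_sq_add h0 h1)).integrable_comp_of_integrable hf.integrable
  have iP : Integrable P (gpi ι) := by
    rw [hP]
    exact i1.integral_prod_left
  have e1 : ∫ x, P x ∂(gpi ι) = m := by
    rw [hP, hm, ← int_mix (sqrt_sq_add h0 h1) hf.cont, integral_prod _ i1]
  have e2 : ∀ z, ∫ y, (f (mix (Real.sqrt t) (Real.sqrt (1 - t)) z y) - m) ∂(gpi ι) = P z - m := by
    intro z
    rw [int_sub (dom_fix hf hc hs z) (Dom.const m), hP]
    simp
  unfold QQ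
  simp_rw [e2]
  have e3 : ∀ z, (P z - m) ^ 2 = P z ^ 2 + ((-2 * m) * P z + m ^ 2) := fun z => by ring
  simp_rw [e3]
  have i4 : Integrable (fun x => (-2 * m) * P x + m ^ 2) (gpi ι) :=
    (iP.const_mul _).add (integrable_const _)
  rw [integral_add iP2 i4, integral_add (iP.const_mul _) (integrable_const _),
    integral_const_mul, e1, hP]
  simp
  ring

/-- the iterated integral -/
lemma QQ_iter {f : (ι → ℝ) → ℝ} (t : ℝ) :
    ∫ z, ∫ g, ∫ g', f (mix (Real.sqrt t) (Real.sqrt (1 - t)) z g) *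
      f (mix (Real.sqrt t) (Real.sqrt (1 - t)) z g') ∂(gpi ι) ∂(gpi ι) ∂(gpi ι) = QQ f t := by
  unfold QQ
  refine integral_congr_ae (Filter.Eventually.of_forall fun z => ?_)
  simp only
  simp_rw [integral_const_mul]
  rw [integral_mul_const, sq]

lemma KK_QQ {f : (ι → ℝ) → ℝ} (hf : Dom f) {θ : ℝ} (h0 : 0 ≤ θ) (h1 : θ ≤ Real.pi / 2) :
    KK f θ = QQ f (Real.cos θ ^ 2) := by
  have hs : 0 ≤ Real.sin θ := Real.sin_nonneg_of_nonneg_of_le_pi h0 (by linarith [Real.pi_pos])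
  have hc : 0 ≤ Real.cos θ :=
    Real.cos_nonneg_of_neg_pi_div_two_le_of_le (by linarith [Real.pi_pos]) h1
  have e1 : Real.sqrt (Real.cos θ ^ 2) = Real.cos θ := Real.sqrt_sq hc
  have e2 : Real.sqrt (1 - Real.cos θ ^ 2) = Real.sin θ := by
    rw [← Real.sin_sq, Real.sqrt_sq hs]
  rw [QQ_prod hf (sq_nonneg _) (Real.cos_sq_le_one θ), e1, e2]
  unfold KK
  have cf : Continuous (fun q : (ι → ℝ) × ((ι → ℝ) × (ι → ℝ)) =>
      f (mix (Real.cos θ) (Real.sin θ) q.1 q.2.1) *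
        f (mix (Real.cos θ) (Real.sin θ) q.1 q.2.2)) :=
    (hf.cont.comp (cont_mix continuous_const continuous_const continuous_fst
      (continuous_fst.comp continuous_snd))).mul
    (hf.cont.comp (cont_mix continuous_const continuous_const continuous_fst
      (continuous_snd.comp continuous_snd)))
  exact int_J3 cf

lemma QQ_KK {f : (ι → ℝ) → ℝ} (hf : Dom f) {t : ℝ} (h0 : 0 ≤ t) (h1 : t ≤ 1) :
    QQ f t = KK f (Real.arccos (Real.sqrt t)) := by
  have h2 : Real.sqrt t ≤ 1 := Real.sqrt_le_one.2 h1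
  have h3 : 0 ≤ Real.sqrt t := Real.sqrt_nonneg t
  rw [KK_QQ hf (Real.arccos_nonneg _) (Real.arccos_le_pi_div_two.2 h3),
    Real.cos_arccos (by linarith) h2, Real.sq_sqrt h0]

/-- monotonicity in the correlation -/
lemma QQ_mono [DecidableEq ι] {f : (ι → ℝ) → ℝ} {G H : ι → (ι → ℝ) → ℝ} {B : ℝ}
    (h : Reg f G H B) {s t : ℝ} (h0 : 0 ≤ s) (hst : s ≤ t) (h1 : t ≤ 1) : QQ f s ≤ QQ f t := by
  have mono : AntitoneOn (KK f) (Set.Icc 0 (Real.pi / 2)) := by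
    refine antitoneOn_of_deriv_nonpos (convex_Icc _ _)
      (fun θ _ => (hasDerivAt_KK h θ).continuousAt.continuousWithinAt)
      (fun θ _ => (hasDerivAt_KK h θ).differentiableAt.differentiableWithinAt) fun θ hθ => ?_
    have hθ' := interior_subset hθ
    rw [(hasDerivAt_KK h θ).deriv]
    have s0 : 0 ≤ Real.sin θ :=
      Real.sin_nonneg_of_nonneg_of_le_pi hθ'.1 (by linarith [hθ'.2, Real.pi_pos])
    have c0 : 0 ≤ Real.cos θ :=
      Real.cos_nonneg_of_neg_pi_div_two_le_of_le (by linarith [hθ'.1, Real.pi_pos]) hθ'.2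
    have p0 : 0 ≤ phi G θ := by
      rw [phi_eq h.G_dom]
      exact Finset.sum_nonneg fun i _ => integral_nonneg fun z => sq_nonneg _
    have : 0 ≤ 2 * Real.sin θ * Real.cos θ * phi G θ := by positivity
    linarith
  rw [QQ_KK h.F_dom h0 (hst.trans h1), QQ_KK h.F_dom (h0.trans hst) h1]
  have m1 : ∀ r : ℝ, Real.arccos (Real.sqrt r) ∈ Set.Icc 0 (Real.pi / 2) := fun r =>
    ⟨Real.arccos_nonneg _, Real.arccos_le_pi_div_two.2 (Real.sqrt_nonneg r)⟩
  exact mono (m1 t) (m1 s) (Real.arccos_le_arccos (Real.sqrt_le_sqrt hst))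

end gen

section iter

/-- the iteration of the squaring inequality -/
lemma iterate_bound {H : ℝ → ℝ} {M K t₀ : ℝ} (hM : 0 < M) (hK : 0 < K) (hKM : K ≤ M)
    (ht₀ : 0 < t₀) (ht₁ : t₀ ≤ 1 / 2) (hnn : ∀ t, 0 ≤ t → t ≤ 1 → 0 ≤ H t)
    (hle : ∀ t, 0 ≤ t → t ≤ 1 → H t ≤ M) (hsq : ∀ t, 0 ≤ t → t ≤ 1 → H t ^ 2 ≤ M * H (t ^ 2))
    (hsmall : ∀ t, 0 ≤ t → t ≤ t₀ → H t ≤ K) {t : ℝ} (h0 : 0 ≤ t) (h1 : t ≤ 1) :
    H t ≤ M * (K / M) ^ ((1 - t) / (2 * Real.log (1 / t₀))) := by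
  have hq0 : 0 < K / M := by positivity
  have hq1 : K / M ≤ 1 := by rw [div_le_one hM]; exact hKM
  have hL : 1 / 2 ≤ Real.log (1 / t₀) := by
    have h2 : Real.log 2 ≤ Real.log (1 / t₀) := by
      refine Real.log_le_log (by norm_num) ?_
      rw [le_div_iff₀ ht₀]
      linarith
    have := Real.log_two_gt_d9
    linarith
  rcases h1.eq_or_lt with rfl | hlt
  · simpa using hle 1 h0 h1
  have hex : ∃ k : ℕ, t ^ (2 ^ k) ≤ t₀ := by
    have h2 : Filter.Tendsto (fun k : ℕ => t ^ (2 ^ k)) Filter.atTop (nhds 0) :=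
      (tendsto_pow_atTop_nhds_zero_of_lt_one h0 hlt).comp
        (tendsto_pow_atTop_atTop_of_one_lt (by norm_num))
    obtain ⟨k, hk⟩ := (h2.eventually (gt_mem_nhds ht₀)).exists
    exact ⟨k, hk.le⟩
  have hind : ∀ k : ℕ, (H t / M) ^ (2 ^ k) ≤ H (t ^ (2 ^ k)) / M := by
    intro k
    induction k with
    | zero => simp
    | succ k ih =>
      have h3 : 0 ≤ t ^ (2 ^ k) := pow_nonneg h0 _
      have h4 : t ^ (2 ^ k) ≤ 1 := pow_le_one₀ h0 h1
      have e1 : (H t / M) ^ (2 ^ (k + 1)) = ((H t / M) ^ (2 ^ k)) ^ 2 := by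
        rw [← pow_mul, pow_succ]
      have e2 : t ^ (2 ^ (k + 1)) = (t ^ (2 ^ k)) ^ 2 := by
        rw [← pow_mul, pow_succ]
      rw [e1, e2]
      have h5 : 0 ≤ (H t / M) ^ (2 ^ k) := pow_nonneg (div_nonneg (hnn t h0 h1) hM.le) _
      calc ((H t / M) ^ (2 ^ k)) ^ 2 ≤ (H (t ^ (2 ^ k)) / M) ^ 2 := pow_le_pow_left₀ h5 ih 2
        _ = H (t ^ (2 ^ k)) ^ 2 / M ^ 2 := by rw [div_pow]
        _ ≤ (M * H ((t ^ (2 ^ k)) ^ 2)) / M ^ 2 :=
            div_le_div_of_nonneg_right (hsq _ h3 h4) (by positivity)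
        _ = H ((t ^ (2 ^ k)) ^ 2) / M := by field_simp
  obtain ⟨k, hk, hmin⟩ : ∃ k : ℕ, t ^ (2 ^ k) ≤ t₀ ∧ ∀ j < k, t₀ < t ^ (2 ^ j) := by
    classical
    exact ⟨Nat.find hex, Nat.find_spec hex, fun j hj => not_le.1 (Nat.find_min hex hj)⟩
  have hN0 : (0 : ℝ) < (2 : ℝ) ^ k := by positivity
  have h6 : (H t / M) ^ (2 ^ k) ≤ K / M :=
    (hind k).trans (div_le_div_of_nonneg_right (hsmall _ (pow_nonneg h0 _) hk) hM.le)
  have h7 : H t / M ≤ (K / M) ^ (1 / (2 : ℝ) ^ k) := by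
    have h8 : H t / M = ((H t / M) ^ (2 ^ k)) ^ (1 / (2 : ℝ) ^ k) := by
      rw [← Real.rpow_natCast, ← Real.rpow_mul (div_nonneg (hnn t h0 h1) hM.le)]
      push_cast
      rw [mul_one_div, div_self hN0.ne', Real.rpow_one]
    rw [h8]
    exact Real.rpow_le_rpow (pow_nonneg (div_nonneg (hnn t h0 h1) hM.le) _) h6 (by positivity)
  have h9 : (1 - t) / (2 * Real.log (1 / t₀)) ≤ 1 / (2 : ℝ) ^ k := by
    rw [div_le_div_iff₀ (by linarith) hN0, one_mul]
    rcases Nat.eq_zero_or_pos k with hk0 | hk0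
    · rw [hk0, pow_zero, mul_one]
      linarith
    · have h10 := hmin (k - 1) (by omega)
      have htpos : 0 < t := by
        rcases h0.eq_or_lt with h | h
        · rw [← h, zero_pow (by positivity)] at h10
          linarith
        · exact h
      have h11 := Real.log_lt_log ht₀ h10
      rw [Real.log_pow] at h11
      have h12 : Real.log t ≤ t - 1 := Real.log_le_sub_one_of_pos htpos
      have h13 : Real.log (1 / t₀) = -Real.log t₀ := by rw [one_div, Real.log_inv]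
      have h14 : (2 : ℝ) ^ k = 2 * 2 ^ (k - 1) := by
        rw [← pow_succ']
        congr 1
        omega
      rw [h13, h14]
      push_cast at h11
      have h15 : (0 : ℝ) < 2 ^ (k - 1) := by positivity
      nlinarith
  have h16 : H t = M * (H t / M) := by field_simp
  rw [h16]
  refine mul_le_mul_of_nonneg_left ?_ hM.le
  exact h7.trans (Real.rpow_le_rpow_of_exponent_ge hq0 hq1 h9)

end iter

end Vale.Agent.P146.H605
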