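import Vale.Agent.P146.Defs

/-!
# P146: Gibbs weights, overlaps and correlated copies of the disorder
-/

open MeasureTheory ProbabilityTheory

namespace Vale.Agent.P146.H605

/-- The Gibbs probability `exp (β H_n(σ)) / Z_n(β)` of the configuration `σ`. -/
noncomputable def gibbs (n : ℕ) (β : ℝ) (g : Pair n → ℝ) (σ : Fin n → ℤˣ) : ℝ :=
  Real.exp (β * hamiltonian n g σ) / partitionFn n β g

/-- The overlap `R(σ,τ) = (1/n) ∑ σ_i τ_i` of two configurations. -/
noncomputable def overlap (n : ℕ) (σ τ : Fin n → ℤˣ) : ℝ :=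
  (∑ i, ((σ i : ℤ) : ℝ) * ((τ i : ℤ) : ℝ)) / n

/-- The disorder `√a z + √(1-a) g`. -/
noncomputable def mixed (n : ℕ) (a : ℝ) (z g : Pair n → ℝ) : Pair n → ℝ :=
  fun p => Real.sqrt a * z p + Real.sqrt (1 - a) * g p

/-- The mean square overlap `E ⟨R(σ,τ)²⟩`, where `σ` and `τ` are drawn independently from the
Gibbs measures of the two disorders `√a z + √(1-a) g` and `√a z + √(1-a) g'`, with `z`, `g`, `g'`
independent standard Gaussian: two copies of the disorder with correlation `a`. -/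
noncomputable def crossOverlap (n : ℕ) (β a : ℝ) : ℝ :=
  ∫ z, ∫ g, ∫ g', ∑ σ : Fin n → ℤˣ, ∑ τ : Fin n → ℤˣ,
    overlap n σ τ ^ 2 * gibbs n β (mixed n a z g) σ * gibbs n β (mixed n a z g') τ
      ∂(disorder n) ∂(disorder n) ∂(disorder n)

end Vale.Agent.P146.H605
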