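import Vale.Agent.P146.H605.Noise

/-!
# P146: the final forms of the noise sensitivity estimates
-/

open MeasureTheory ProbabilityTheory Filter Topology

namespace Vale.Agent.P146.H605

open Vale.Agent.P146.Ub.Cv

/-- noise sensitivity for large `n`, from a polynomial lower bound of the variance -/
theorem noise_eventually {β c₀ : ℝ} (hβ : 1 ≤ β) (hc₀ : 0 < c₀)
    (hV : ∀ᶠ n : ℕ in atTop, (n : ℝ) ^ c₀ ≤ Var[freeEnergy n β; disorder n]) :
    ∀ᶠ n : ℕ in atTop, ∀ t : ℝ, 0 ≤ t → t ≤ 1 →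
      0 ≤ crossCov n β t ∧
      crossCov n β t ≤ (n : ℝ) ^ (-(c₀ / (2 * Real.log (8 * β ^ 2)) * (1 - t))) *
        Var[freeEnergy n β; disorder n] ∧
      (1 - t) * prof n β t ≤ 2 * (n : ℝ) ^ (-(c₀ / (4 * Real.log (8 * β ^ 2)) * (1 - t))) *
        Var[freeEnergy n β; disorder n] := by
  have hb : 1 ≤ β ^ 2 := one_le_pow₀ hβ
  have hL : 1 / 2 ≤ Real.log (8 * β ^ 2) := by
    have h3 : Real.log 2 ≤ Real.log (8 * β ^ 2) := Real.log_le_log (by norm_num) (by linarith)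
    have := Real.log_two_gt_d9
    linarith
  filter_upwards [hV, eventually_ge_atTop 1] with n hn hn1 t h0 h1
  have hn1' : (1 : ℝ) ≤ n := by exact_mod_cast hn1
  have hn0 : (0 : ℝ) < n := by linarith
  obtain ⟨M, hM⟩ : ∃ M, M = Var[freeEnergy n β; disorder n] := ⟨_, rfl⟩
  have hM1 : 1 ≤ M := by
    rw [hM]
    exact (Real.one_le_rpow hn1' hc₀.le).trans hn
  have hM0 : 0 < M := by linarith
  have key : ∀ e : ℝ, 0 ≤ e → (1 / M) ^ e ≤ (n : ℝ) ^ (-(c₀ * e)) := by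
    intro e he
    have h2 : 1 / M ≤ (n : ℝ) ^ (-c₀) := by
      rw [Real.rpow_neg hn0.le, one_div]
      rw [← hM] at hn
      exact inv_anti₀ (Real.rpow_pos_of_pos hn0 _) hn
    have h3 := Real.rpow_le_rpow (by positivity) h2 he
    rw [← Real.rpow_mul hn0.le] at h3
    have e1 : -c₀ * e = -(c₀ * e) := by ring
    rw [e1] at h3
    exact h3
  refine ⟨crossCov_nonneg n β h0 h1, ?_, ?_⟩
  · have h2 := crossCov_noise n β hn1 hβ hM1 hM.ge h0 h1
    have h3 := key ((1 - t) / (2 * Real.log (8 * β ^ 2)))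
      (div_nonneg (by linarith) (by linarith))
    have e2 : c₀ * ((1 - t) / (2 * Real.log (8 * β ^ 2))) =
        c₀ / (2 * Real.log (8 * β ^ 2)) * (1 - t) := by ring
    rw [e2] at h3
    rw [← hM]
    have h4 := mul_le_mul_of_nonneg_left h3 hM0.le
    linarith
  · have h2 := prof_noise n β hn1 hβ hM1 hM.ge h0 h1
    have h3 := key ((1 - t) / (4 * Real.log (8 * β ^ 2)))
      (div_nonneg (by linarith) (by linarith))
    have e2 : c₀ * ((1 - t) / (4 * Real.log (8 * β ^ 2))) =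
        c₀ / (4 * Real.log (8 * β ^ 2)) * (1 - t) := by ring
    rw [e2] at h3
    rw [← hM]
    have h4 := mul_le_mul_of_nonneg_left h3 (show 0 ≤ 2 * M by linarith)
    linarith

/-- chaos, the combined bound -/
theorem chaos_combined {β D₀ : ℝ} (hβ : 1 ≤ β) (hD₀ : 1 ≤ D₀)
    (hV : ∀ n : ℕ, 1 ≤ n → Var[freeEnergy n β; disorder n] ≤
      D₀ * (n : ℝ) ^ (31 / 35 : ℝ) * (1 + Real.log n) ^ 3) :
    ∃ D : ℝ, 1 ≤ D ∧ ∀ n : ℕ, 1 ≤ n → ∀ t : ℝ, 0 ≤ t → t < 1 →
      crossOverlap n β t ≤ D * (n : ℝ) ^ (-(4 / 35) - 1 / (5 * Real.log (8 * β ^ 2)) * (1 - t)) *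
        (1 + Real.log n) ^ 3 / (1 - t) := by
  have hb : 1 ≤ β ^ 2 := one_le_pow₀ hβ
  have hL : 1 / 2 ≤ Real.log (8 * β ^ 2) := by
    have h3 : Real.log 2 ≤ Real.log (8 * β ^ 2) := Real.log_le_log (by norm_num) (by linarith)
    have := Real.log_two_gt_d9
    linarith
  have hL2 : 1 ≤ Real.log (8 * β ^ 2) := by
    have h3 : Real.log 8 ≤ Real.log (8 * β ^ 2) := Real.log_le_log (by norm_num) (by linarith)
    have h4 : Real.log 8 = 3 * Real.log 2 := by
      rw [show (8 : ℝ) = 2 ^ 3 by norm_num, Real.log_pow]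
      norm_num
    have := Real.log_two_gt_d9
    linarith
  refine ⟨1 + 4 * D₀, by linarith, fun n hn t h0 h1 => ?_⟩
  have hn1 : (1 : ℝ) ≤ n := by exact_mod_cast hn
  have hn0 : (0 : ℝ) < n := by linarith
  have hl0 : 0 ≤ Real.log n := Real.log_nonneg hn1
  obtain ⟨L, hLL⟩ : ∃ L, L = 1 + Real.log n := ⟨_, rfl⟩
  have hL1 : 1 ≤ L := by linarith
  obtain ⟨e, he⟩ : ∃ e, e = (1 - t) / (4 * Real.log (8 * β ^ 2)) := ⟨_, rfl⟩
  have he0 : 0 ≤ e := by rw [he]; exact div_nonneg (by linarith) (by linarith)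
  have he1 : e ≤ 1 / 4 := by
    rw [he, div_le_div_iff₀ (by linarith) (by norm_num)]
    linarith
  obtain ⟨f, hf⟩ : ∃ f, f = 1 / (5 * Real.log (8 * β ^ 2)) * (1 - t) := ⟨_, rfl⟩
  have hfe : f = 4 / 5 * e := by
    rw [hf, he]
    field_simp
  -- the bound of the variance
  obtain ⟨M, hM⟩ : ∃ M, M = D₀ * (n : ℝ) ^ (31 / 35 : ℝ) * L ^ 3 := ⟨_, rfl⟩
  have hY1 : 1 ≤ (n : ℝ) ^ (31 / 35 : ℝ) := Real.one_le_rpow hn1 (by norm_num)
  have hL3 : 1 ≤ L ^ 3 := one_le_pow₀ hL1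
  have hM1 : 1 ≤ M := by
    rw [hM]
    nlinarith [mul_le_mul hD₀ hY1 zero_le_one (by linarith : (0 : ℝ) ≤ D₀)]
  have hM0 : 0 < M := by linarith
  have h2 := prof_noise n β hn hβ hM1 (by rw [hM, hLL]; exact hV n hn) h0 h1.le
  rw [← he] at h2
  have hnM : (n : ℝ) ^ (31 / 35 : ℝ) ≤ M := by
    rw [hM]
    have : (n : ℝ) ^ (31 / 35 : ℝ) * 1 ≤ (n : ℝ) ^ (31 / 35 : ℝ) * (D₀ * L ^ 3) :=
      mul_le_mul_of_nonneg_left (by nlinarith) (by linarith)
    linarith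
  have h3 : (1 / M) ^ e ≤ (n : ℝ) ^ (-f) := by
    have h4 : 1 / M ≤ (n : ℝ) ^ (-(31 / 35) : ℝ) := by
      rw [Real.rpow_neg hn0.le, one_div]
      exact inv_anti₀ (Real.rpow_pos_of_pos hn0 _) hnM
    have h5 := Real.rpow_le_rpow (by positivity) h4 he0
    rw [← Real.rpow_mul hn0.le] at h5
    refine h5.trans (Real.rpow_le_rpow_of_exponent_le hn1 ?_)
    rw [hfe]
    nlinarith
  have h4 : (1 - t) * prof n β t ≤ 2 * M * (n : ℝ) ^ (-f) :=
    h2.trans (mul_le_mul_of_nonneg_left h3 (by linarith))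
  unfold prof at h4
  have ht : 0 < 1 - t := by linarith
  rw [le_div_iff₀ ht, ← hLL, ← hf]
  obtain ⟨W, hW⟩ : ∃ W, W = (n : ℝ) ^ (-(4 / 35) - f) := ⟨_, rfl⟩
  have hWn : (n : ℝ) ^ (31 / 35 : ℝ) * (n : ℝ) ^ (-f) = n * W := by
    rw [hW, ← Real.rpow_add hn0]
    nth_rewrite 2 [← Real.rpow_one (n : ℝ)]
    rw [← Real.rpow_add hn0]
    congr 1
    ring
  rw [← hW]
  have h5 : (1 - t) * (n * crossOverlap n β t - 1) ≤ 4 * (D₀ * (n * W) * L ^ 3) := by
    have h6 : 2 * M * (n : ℝ) ^ (-f) = 2 * (D₀ * (n * W) * L ^ 3) := by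
      rw [hM, ← hWn]
      ring
    rw [h6] at h4
    have h7 : β ^ 2 * ((1 - t) * (n * crossOverlap n β t - 1)) ≤
        β ^ 2 * (4 * (D₀ * (n * W) * L ^ 3)) := by
      have h8 : 0 ≤ D₀ * (n * W) * L ^ 3 := by
        rw [hW]
        positivity
      nlinarith
    exact le_of_mul_le_mul_left h7 (by linarith)
  have h6 : 1 ≤ n * W * L ^ 3 := by
    have h7 : 1 ≤ (n : ℝ) * W := by
      rw [← hWn, ← Real.rpow_add hn0]
      refine Real.one_le_rpow hn1 ?_
      rw [hfe]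
      linarith
    nlinarith
  have h7 : n * (crossOverlap n β t * (1 - t)) ≤ n * ((1 + 4 * D₀) * W * L ^ 3) := by
    have h8 : (1 - t) * 1 ≤ n * W * L ^ 3 := by linarith
    nlinarith
  exact le_of_mul_le_mul_left h7 hn0

/-- the level at which the variance is produced -/
theorem level {β c₀ : ℝ} (hβ : 1 ≤ β) (hc₀ : 0 < c₀)
    (hV : ∀ᶠ n : ℕ in atTop, (n : ℝ) ^ c₀ ≤ Var[freeEnergy n β; disorder n]) :
    ∃ K : ℝ, ∀ᶠ n : ℕ in atTop, ∃ t : ℝ, 0 ≤ t ∧ t < 1 ∧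
      1 - t ≤ K * Real.log (Real.log n) / Real.log n ∧
      Var[freeEnergy n β; disorder n] ≤ 2 * Real.log n * ((1 - t) * prof n β t) := by
  have hb : 1 ≤ β ^ 2 := one_le_pow₀ hβ
  have hL : 1 / 2 ≤ Real.log (8 * β ^ 2) := by
    have h3 : Real.log 2 ≤ Real.log (8 * β ^ 2) := Real.log_le_log (by norm_num) (by linarith)
    have := Real.log_two_gt_d9
    linarith
  obtain ⟨d, hd⟩ : ∃ d, d = c₀ / (4 * Real.log (8 * β ^ 2)) := ⟨_, rfl⟩
  have hd0 : 0 < d := by rw [hd]; positivity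
  have hlog : Tendsto (fun n : ℕ => Real.log n) atTop atTop :=
    Real.tendsto_log_atTop.comp tendsto_natCast_atTop_atTop
  have hbig : ∀ᶠ n : ℕ in atTop, β ^ 2 < (n : ℝ) ^ c₀ :=
    ((tendsto_rpow_atTop hc₀).comp tendsto_natCast_atTop_atTop).eventually_gt_atTop _
  refine ⟨2 / d, ?_⟩
  filter_upwards [hV, noise_eventually hβ hc₀ hV, eventually_ge_atTop 2, hbig,
    hlog.eventually_ge_atTop 4] with n hn hnoise hn2 hbn hln
  have hn1 : 1 ≤ n := by omega
  have hn1' : (1 : ℝ) ≤ n := by exact_mod_cast hn1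
  have hn0 : (0 : ℝ) < n := by linarith
  obtain ⟨V, hVd⟩ : ∃ V, V = Var[freeEnergy n β; disorder n] := ⟨_, rfl⟩
  rw [← hVd] at hn hnoise ⊢
  have hV0 : 0 < V := by
    have : (1 : ℝ) ≤ (n : ℝ) ^ c₀ := Real.one_le_rpow hn1' hc₀.le
    linarith
  have hl0 : 0 < Real.log n := by linarith
  obtain ⟨A, hA⟩ : ∃ A, A = V / (2 * Real.log n) := ⟨_, rfl⟩
  have hAl : A * Real.log n = V / 2 := by
    rw [hA]
    field_simp
  by_contra hcon
  push Not at hcon
  have h2 : ∀ t : ℝ, 0 ≤ t → t < 1 → (1 - t) * (β ^ 2 / 2 * (n * crossOverlap n β t - 1)) ≤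
      A := by
    intro t h0 h1
    change (1 - t) * prof n β t ≤ A
    rcases le_or_gt (1 - t) (2 / d * Real.log (Real.log n) / Real.log n) with h | h
    · have h3 := hcon t h0 h1 h
      rw [hA, le_div_iff₀ (by linarith)]
      linarith
    · obtain ⟨-, -, h3⟩ := hnoise t h0 h1.le
      rw [← hd] at h3
      refine h3.trans ?_
      have h4 : 2 * Real.log (Real.log n) ≤ d * (1 - t) * Real.log n := by
        rw [div_lt_iff₀ hl0] at h
        have h5 : 2 / d * Real.log (Real.log n) = 2 * Real.log (Real.log n) / d := by ring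
        rw [h5, div_lt_iff₀ hd0] at h
        linarith
      have h5 : (n : ℝ) ^ (-(d * (1 - t))) ≤ 1 / Real.log n ^ 2 := by
        rw [Real.rpow_def_of_pos hn0]
        have h6 : 1 / Real.log n ^ 2 = Real.exp (-(2 * Real.log (Real.log n))) := by
          rw [Real.exp_neg, mul_comm, Real.exp_mul, Real.exp_log hl0, one_div]
          norm_num
        rw [h6]
        refine Real.exp_le_exp.2 ?_
        linarith
      have h6 : 2 * (n : ℝ) ^ (-(d * (1 - t))) * V ≤ 2 * (1 / Real.log n ^ 2) * V := by gcongr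
      refine h6.trans ?_
      rw [hA, le_div_iff₀ (by linarith)]
      have h7 : 2 * (1 / Real.log n ^ 2) * V * (2 * Real.log n) = 4 / Real.log n * V := by
        field_simp
        ring
      rw [h7]
      have h8 : 4 / Real.log n ≤ 1 := by
        rw [div_le_one hl0]
        exact hln
      nlinarith
  have h3 := var_le_of_prof n β hn1 h2
  rw [← hVd, hAl] at h3
  linarith

end Vale.Agent.P146.H605
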