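import Vale.Agent.P146.H605.Var

/-!
# P146: the variance is controlled by the finite-size correction of the mean
-/

open MeasureTheory ProbabilityTheory

namespace Vale.Agent.P146.H605

open Vale.Agent.P146.Ub.Cv

lemma fs_alg1 {c w v u x Δ : ℝ} (hc1 : 1 ≤ c) (hw1 : 1 ≤ w) (hwc : w ≤ c) (hx0 : 0 < x)
    (hu1 : 1 ≤ u) (hu5 : u ^ 5 = 1 + Δ) (hΔ0 : 0 ≤ Δ) (hxu : x * (w * v) = u) :
    x * Δ ≤ x ^ 2 * (c ^ 2 * v * u ^ 4) := by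
  have hw0 : 0 < w := by linarith
  have h2 : x ^ 2 * (c ^ 2 * v * u ^ 4) = x * ((c ^ 2 / w) * (x * (w * v)) * u ^ 4) := by
    field_simp
  rw [h2, hxu]
  refine mul_le_mul_of_nonneg_left ?_ hx0.le
  have h3 : 1 ≤ c ^ 2 / w := by
    rw [le_div_iff₀ hw0]
    nlinarith
  have h4 : c ^ 2 / w * u * u ^ 4 = c ^ 2 / w * u ^ 5 := by ring
  rw [h4, hu5]
  nlinarith

lemma fs_alg2 {C₁ c w v u x m : ℝ} (hC₁ : 1 ≤ C₁) (hc : c = 1 + C₁) (hw1 : 1 ≤ w) (hx0 : 0 < x)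
    (hm : 0 < m) (hv5 : v ^ 5 = m) (hxu : x * (w * v) = u) :
    C₁ * m * x ^ 6 ≤ x ^ 2 * (c ^ 2 * v * u ^ 4) := by
  have h6 : x ^ 2 * (c ^ 2 * v * u ^ 4) = c ^ 2 * w ^ 4 * v ^ 5 * x ^ 6 := by
    rw [← hxu]; ring
  rw [h6, hv5]
  have h9 : 1 ≤ w ^ 4 := one_le_pow₀ hw1
  have h10 : C₁ ≤ c ^ 2 := by nlinarith
  have h8 : C₁ ≤ c ^ 2 * w ^ 4 := by
    calc C₁ ≤ c ^ 2 * 1 := by linarith
      _ ≤ c ^ 2 * w ^ 4 := mul_le_mul_of_nonneg_left h9 (sq_nonneg c)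
  have h11 : 0 ≤ m * x ^ 6 := by positivity
  have := mul_le_mul_of_nonneg_right h8 h11
  linarith

lemma fs_alg3 {c b v u l : ℝ} (hv1 : 1 ≤ v) (hu1 : 1 ≤ u) (hb : 0 ≤ b) (hl : 0 ≤ l) :
    b / 2 + 4 * c ^ 2 * v * u ^ 4 * l ≤ (4 * c ^ 2 + b) * v * u ^ 4 * (1 + l) := by
  have hu41 : 1 ≤ u ^ 4 := one_le_pow₀ hu1
  have h3 : 1 ≤ v * u ^ 4 := by nlinarith
  have h4 : 1 ≤ v * u ^ 4 * (1 + l) := by nlinarith
  have h5 : 0 ≤ 4 * c ^ 2 * (v * u ^ 4) := by positivity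
  have e : (4 * c ^ 2 + b) * v * u ^ 4 * (1 + l) =
      4 * c ^ 2 * v * u ^ 4 * l + 4 * c ^ 2 * (v * u ^ 4) +
        b * (v * u ^ 4 * (1 + l)) := by ring
  rw [e]
  have h6 : b * 1 ≤ b * (v * u ^ 4 * (1 + l)) := mul_le_mul_of_nonneg_left h4 hb
  linarith

theorem var_fs {β : ℝ} (hβ : 1 ≤ β) : ∃ C : ℝ, 1 ≤ C ∧ ∀ n : ℕ, 1 ≤ n →
    Var[freeEnergy n β; disorder n] ≤ C * (n : ℝ) ^ (1 / 5 : ℝ) *
      (1 + (n * Sx.pv β - ∫ g, freeEnergy n β g ∂(disorder n))) ^ (4 / 5 : ℝ) *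
        (1 + Real.log n) := by
  obtain ⟨C₁, hC₁, hmom, hup, hlow⟩ := Sx.rt_moment hβ
  obtain ⟨c, hc⟩ : ∃ c, c = 1 + C₁ := ⟨_, rfl⟩
  have hc1 : 1 ≤ c := by linarith
  have hb : 0 ≤ β ^ 2 := sq_nonneg β
  refine ⟨4 * c ^ 2 + β ^ 2, by nlinarith, fun n hn => ?_⟩
  have hn1 : (1 : ℝ) ≤ n := by exact_mod_cast hn
  have hn0 : (0 : ℝ) < n := by linarith
  have hl0 : 0 ≤ Real.log n := Real.log_nonneg hn1
  obtain ⟨Δ, hΔ⟩ : ∃ Δ, Δ = n * Sx.pv β - ∫ g, freeEnergy n β g ∂(disorder n) := ⟨_, rfl⟩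
  have hΔ0 : 0 ≤ Δ := by
    have := hup n hn
    linarith
  have hΔ1 : Δ ≤ C₁ * n := by
    have h1 := hlow n hn
    have h2 : (n : ℝ) ^ (7 / 8 : ℝ) ≤ n := by
      nth_rewrite 2 [← Real.rpow_one (n : ℝ)]
      exact Real.rpow_le_rpow_of_exponent_le hn1 (by norm_num)
    have h3 : C₁ * (n : ℝ) ^ (7 / 8 : ℝ) ≤ C₁ * n := mul_le_mul_of_nonneg_left h2 (by linarith)
    linarith
  rw [← hΔ]
  obtain ⟨u, hu⟩ : ∃ u, u = (1 + Δ) ^ (1 / 5 : ℝ) := ⟨_, rfl⟩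
  obtain ⟨v, hv⟩ : ∃ v, v = (n : ℝ) ^ (1 / 5 : ℝ) := ⟨_, rfl⟩
  obtain ⟨w, hw⟩ : ∃ w, w = c ^ (1 / 5 : ℝ) := ⟨_, rfl⟩
  have hu1 : 1 ≤ u := by rw [hu]; exact Real.one_le_rpow (by linarith) (by norm_num)
  have hv1 : 1 ≤ v := by rw [hv]; exact Real.one_le_rpow hn1 (by norm_num)
  have hw1 : 1 ≤ w := by rw [hw]; exact Real.one_le_rpow hc1 (by norm_num)
  have hu5 : u ^ 5 = 1 + Δ := by
    rw [hu, ← Real.rpow_natCast, ← Real.rpow_mul (by linarith)]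
    norm_num
  have hv5 : v ^ 5 = n := by
    rw [hv, ← Real.rpow_natCast, ← Real.rpow_mul hn0.le]
    norm_num
  have hw5 : w ^ 5 = c := by
    rw [hw, ← Real.rpow_natCast, ← Real.rpow_mul (by linarith)]
    norm_num
  have hu4 : (1 + Δ) ^ (4 / 5 : ℝ) = u ^ 4 := by
    rw [hu, ← Real.rpow_natCast, ← Real.rpow_mul (by linarith)]
    norm_num
  have hwc : w ≤ c := by
    rw [← hw5]
    exact le_self_pow₀ hw1 (by norm_num)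
  rw [hu4, ← hv]
  obtain ⟨x, hx⟩ : ∃ x, x = u / (w * v) := ⟨_, rfl⟩
  have hx0 : 0 < x := by rw [hx]; positivity
  have hx1 : x ≤ 1 := by
    rw [hx, div_le_one (by positivity)]
    refine le_of_pow_le_pow_left₀ (n := 5) (by norm_num) (by positivity) ?_
    rw [mul_pow, hu5, hw5, hv5, hc]
    nlinarith
  -- the exponential moment
  have hexp : ∫ g, Real.exp (x * freeEnergy n β g) ∂(disorder n) ≤
      Real.exp (x * (∫ g, freeEnergy n β g ∂(disorder n)) + x ^ 2 * (4 * c ^ 2 * v * u ^ 4) / 2) := by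
    rcases le_or_gt (∫ g, Real.exp (x * freeEnergy n β g) ∂(disorder n)) 0 with h0 | h0
    · exact h0.trans (Real.exp_pos _).le
    rw [← Real.log_le_iff_le_exp h0]
    refine (hmom n hn x hx0 hx1).trans ?_
    have e1 : (n : ℝ) * Sx.pv β = ∫ g, freeEnergy n β g ∂(disorder n) + Δ := by
      rw [hΔ]; ring
    have hxuwv : x * (w * v) = u := by rw [hx]; field_simp
    have h1 := fs_alg1 hc1 hw1 hwc hx0 hu1 hu5 hΔ0 hxuwv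
    have h5 := fs_alg2 hC₁ hc hw1 hx0 hn0 hv5 hxuwv
    rw [e1, mul_add]
    linarith only [h1, h5]
  have hV := (var_freeEnergy_le n β hx0 hexp (u := 1 / n) (by positivity)
    (by rw [div_le_one hn0]; exact hn1)).2
  refine hV.trans ?_
  have h1 : β ^ 2 * n / 2 * (1 / n) = β ^ 2 / 2 := by field_simp
  have h2 : -Real.log (1 / (n : ℝ)) = Real.log n := by rw [one_div, Real.log_inv, neg_neg]
  rw [h1, h2]
  exact fs_alg3 hv1 hu1 hb hl0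

end Vale.Agent.P146.H605
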