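import Vale.Agent.P146.H605.Defs

/-!
# P146: gauge symmetry of the Gibbs measure and the Rademacher bound
-/

open MeasureTheory ProbabilityTheory

namespace Vale.Agent.P146.H605

namespace Gauge

variable {n : ℕ}

/-- The sign `s_i s_j` of a pair. -/
def sg (s : Fin n → ℤˣ) (p : Pair n) : ℝ := ((s p.1.1 : ℤ) : ℝ) * ((s p.1.2 : ℤ) : ℝ)

lemma unit_cast_sq (u : ℤˣ) : ((u : ℤ) : ℝ) * ((u : ℤ) : ℝ) = 1 := by
  rcases Int.units_eq_one_or u with h | h <;> simp [h]

lemma sg_sq (s : Fin n → ℤˣ) (p : Pair n) : sg s p * sg s p = 1 := by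
  have h1 := unit_cast_sq (s p.1.1)
  have h2 := unit_cast_sq (s p.1.2)
  unfold sg
  linear_combination ((s p.1.2 : ℤ) : ℝ) * ((s p.1.2 : ℤ) : ℝ) * h1 + h2

/-- The disorder `s_i s_j g_ij`. -/
def flip (s : Fin n → ℤˣ) (g : Pair n → ℝ) : Pair n → ℝ := fun p => sg s p * g p

lemma measurePreserving_flip (s : Fin n → ℤˣ) :
    MeasurePreserving (flip s) (disorder n) (disorder n) := by
  unfold disorder flip
  refine measurePreserving_pi _ _ fun p => ⟨measurable_const_mul _, ?_⟩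
  rw [gaussianReal_map_const_mul, mul_zero]
  congr 1
  ext
  have := sg_sq s p
  simp only [NNReal.coe_mk, NNReal.coe_one, mul_one]
  rw [sq, this]

lemma hamiltonian_flip (s : Fin n → ℤˣ) (g : Pair n → ℝ) (σ : Fin n → ℤˣ) :
    hamiltonian n (flip s g) σ = hamiltonian n g (s * σ) := by
  unfold hamiltonian flip sg
  congr 1
  refine Finset.sum_congr rfl fun p _ => ?_
  simp only [Pi.mul_apply, Units.val_mul, Int.cast_mul]
  ring

lemma partitionFn_flip (β : ℝ) (s : Fin n → ℤˣ) (g : Pair n → ℝ) :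
    partitionFn n β (flip s g) = partitionFn n β g := by
  unfold partitionFn
  simp only [hamiltonian_flip]
  exact Fintype.sum_equiv (Equiv.mulLeft s) _ _ fun σ => rfl

lemma gibbs_flip (β : ℝ) (s : Fin n → ℤˣ) (g : Pair n → ℝ) (σ : Fin n → ℤˣ) :
    gibbs n β (flip s g) σ = gibbs n β g (s * σ) := by
  unfold gibbs
  rw [hamiltonian_flip, partitionFn_flip]

lemma partitionFn_pos (β : ℝ) (g : Pair n → ℝ) : 0 < partitionFn n β g :=
  Finset.sum_pos (fun _ _ => Real.exp_pos _) Finset.univ_nonempty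

lemma gibbs_nonneg (β : ℝ) (g : Pair n → ℝ) (σ : Fin n → ℤˣ) : 0 ≤ gibbs n β g σ :=
  div_nonneg (Real.exp_pos _).le (partitionFn_pos β g).le

lemma gibbs_le_one (β : ℝ) (g : Pair n → ℝ) (σ : Fin n → ℤˣ) : gibbs n β g σ ≤ 1 := by
  unfold gibbs
  rw [div_le_one (partitionFn_pos β g)]
  exact Finset.single_le_sum (f := fun τ : Fin n → ℤˣ => Real.exp (β * hamiltonian n g τ))
    (fun _ _ => (Real.exp_pos _).le) (Finset.mem_univ σ)

lemma sum_gibbs (β : ℝ) (g : Pair n → ℝ) : ∑ σ, gibbs n β g σ = 1 := by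
  unfold gibbs
  rw [← Finset.sum_div]
  exact div_self (partitionFn_pos β g).ne'

lemma continuous_hamiltonian (σ : Fin n → ℤˣ) :
    Continuous fun g : Pair n → ℝ => hamiltonian n g σ := by
  unfold hamiltonian
  fun_prop

lemma continuous_gibbs (β : ℝ) (σ : Fin n → ℤˣ) :
    Continuous fun g : Pair n → ℝ => gibbs n β g σ := by
  unfold gibbs
  refine Continuous.div ?_ ?_ fun g => (partitionFn_pos β g).ne'
  · exact Real.continuous_exp.comp (continuous_const.mul (continuous_hamiltonian σ))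
  · unfold partitionFn
    exact continuous_finsetSum _ fun τ _ =>
      Real.continuous_exp.comp (continuous_const.mul (continuous_hamiltonian τ))

instance : IsProbabilityMeasure (disorder n) := by
  unfold disorder
  infer_instance

lemma integrable_gibbs (β : ℝ) (σ : Fin n → ℤˣ) :
    Integrable (fun g : Pair n → ℝ => gibbs n β g σ) (disorder n) := by
  refine Integrable.of_bound (continuous_gibbs β σ).aestronglyMeasurable 1
    (Filter.Eventually.of_forall fun g => ?_)
  rw [Real.norm_eq_abs, abs_of_nonneg (gibbs_nonneg β g σ)]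
  exact gibbs_le_one β g σ

lemma integral_gibbs_eq (β : ℝ) (σ τ : Fin n → ℤˣ) :
    ∫ g, gibbs n β g σ ∂(disorder n) = ∫ g, gibbs n β g τ ∂(disorder n) := by
  have hm := measurePreserving_flip (σ * τ⁻¹)
  have h := integral_map (μ := disorder n) hm.measurable.aemeasurable
    (f := fun g => gibbs n β g τ) (continuous_gibbs β τ).aestronglyMeasurable
  rw [hm.map_eq] at h
  rw [h]
  refine integral_congr_ae (Filter.Eventually.of_forall fun g => ?_)
  simp only [gibbs_flip, inv_mul_cancel_right]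

/-- The Rademacher sum for one configuration. -/
lemma sum_exp_spin (y : ℝ) (τ : Fin n → ℤˣ) :
    ∑ σ : Fin n → ℤˣ, Real.exp (y * ∑ i, ((σ i : ℤ) : ℝ) * ((τ i : ℤ) : ℝ)) =
      (2 * Real.cosh y) ^ n := by
  have h1 : ∀ σ : Fin n → ℤˣ, Real.exp (y * ∑ i, ((σ i : ℤ) : ℝ) * ((τ i : ℤ) : ℝ)) =
      ∏ i, Real.exp (y * (((σ i : ℤ) : ℝ) * ((τ i : ℤ) : ℝ))) := by
    intro σ
    rw [Finset.mul_sum, Real.exp_sum]
  have h2 := Fintype.prod_sum (κ := fun _ : Fin n => ℤˣ)
    (fun (i : Fin n) (u : ℤˣ) => Real.exp (y * (((u : ℤ) : ℝ) * ((τ i : ℤ) : ℝ))))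
  simp only [h1]
  rw [← h2]
  have h3 : ∀ i : Fin n, ∑ u : ℤˣ, Real.exp (y * (((u : ℤ) : ℝ) * ((τ i : ℤ) : ℝ))) =
      2 * Real.cosh y := by
    intro i
    have h4 : ∀ f : ℤˣ → ℝ, ∑ u, f u = f 1 + f (-1) := by
      intro f
      have h5 : (Finset.univ : Finset ℤˣ) = {1, -1} := by decide
      rw [h5]
      exact Finset.sum_pair (by decide)
    rw [h4, Real.cosh_eq]
    rcases Int.units_eq_one_or (τ i) with h | h
    · simp only [h]
      push_cast
      ring_nf
    · simp only [h]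
      push_cast
      ring_nf
  simp only [h3]
  rw [Finset.prod_const, Finset.card_univ, Fintype.card_fin]

lemma integral_exp_quarter :
    ∫ x, Real.exp (x ^ 2 / 4) ∂(gaussianReal 0 1) = Real.sqrt 2 := by
  rw [integral_gaussianReal_eq_integral_smul one_ne_zero]
  have h1 : ∀ x : ℝ, gaussianPDFReal 0 1 x • Real.exp (x ^ 2 / 4) =
      (Real.sqrt (2 * Real.pi))⁻¹ * Real.exp (-(1 / 4) * x ^ 2) := by
    intro x
    rw [gaussianPDFReal_def, smul_eq_mul, mul_assoc, ← Real.exp_add]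
    simp only [NNReal.coe_one, mul_one, sub_zero]
    congr 2
    ring
  simp only [h1]
  rw [integral_const_mul, integral_gaussian]
  rw [← Real.sqrt_inv, ← Real.sqrt_mul (by positivity)]
  congr 1
  field_simp
  norm_num

lemma integrable_exp_quarter :
    Integrable (fun x : ℝ => Real.exp (x ^ 2 / 4)) (gaussianReal 0 1) := by
  by_contra h
  have := integral_undef h
  rw [integral_exp_quarter] at this
  have h2 : 0 < Real.sqrt 2 := by positivity
  linarith

end Gauge

open Gauge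

/-- The mean of a Gibbs weight is `2 ^ (-n)`. -/
theorem gauge_mean (n : ℕ) (β : ℝ) (σ : Fin n → ℤˣ) :
    ∫ g, gibbs n β g σ ∂(disorder n) = 1 / 2 ^ n := by
  have h1 : ∑ τ : Fin n → ℤˣ, ∫ g, gibbs n β g τ ∂(disorder n) = 1 := by
    rw [← integral_finsetSum _ fun τ _ => integrable_gibbs β τ]
    simp only [sum_gibbs, integral_const, probReal_univ, smul_eq_mul, mul_one]
  have h2 : ∑ τ : Fin n → ℤˣ, ∫ g, gibbs n β g τ ∂(disorder n) =
      2 ^ n * ∫ g, gibbs n β g σ ∂(disorder n) := by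
    rw [Finset.sum_congr rfl fun τ _ => integral_gibbs_eq β τ σ, Finset.sum_const,
      Finset.card_univ, nsmul_eq_mul]
    congr 1
    simp [Fintype.card_units_int]
  rw [h2] at h1
  rw [eq_div_iff (by positivity), mul_comm]
  exact h1

/-- The exponential moment of the squared overlap of two uniform configurations. -/
theorem rad_sq (n : ℕ) (hn : 1 ≤ n) :
    ∑ σ : Fin n → ℤˣ, ∑ τ : Fin n → ℤˣ, Real.exp (1 / 4 * (n * overlap n σ τ ^ 2)) ≤
      Real.sqrt 2 * 4 ^ n := by
  have hn0 : (0 : ℝ) < n := by exact_mod_cast hn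
  -- each term is a Gaussian integral
  have h1 : ∀ σ τ : Fin n → ℤˣ, Real.exp (1 / 4 * (n * overlap n σ τ ^ 2)) =
      ∫ x, Real.exp ((∑ i, ((σ i : ℤ) : ℝ) * ((τ i : ℤ) : ℝ)) / Real.sqrt (2 * n) * x)
        ∂(gaussianReal 0 1) := by
    intro σ τ
    have h := congrFun (mgf_id_gaussianReal (μ := 0) (v := 1))
      ((∑ i, ((σ i : ℤ) : ℝ) * ((τ i : ℤ) : ℝ)) / Real.sqrt (2 * n))
    unfold mgf at h
    simp only [id] at h
    rw [h]
    congr 1
    unfold overlap
    rw [div_pow, div_pow, Real.sq_sqrt (by positivity)]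
    simp only [NNReal.coe_one]
    field_simp
    ring
  have hint : ∀ σ τ : Fin n → ℤˣ, Integrable (fun x =>
      Real.exp ((∑ i, ((σ i : ℤ) : ℝ) * ((τ i : ℤ) : ℝ)) / Real.sqrt (2 * n) * x))
        (gaussianReal 0 1) := fun σ τ => integrable_exp_mul_gaussianReal _
  rw [Finset.sum_comm]
  have h2 : ∀ τ : Fin n → ℤˣ,
      ∑ σ : Fin n → ℤˣ, Real.exp (1 / 4 * (n * overlap n σ τ ^ 2)) ≤ 2 ^ n * Real.sqrt 2 := by
    intro τ
    simp only [h1]
    rw [← integral_finsetSum _ fun σ _ => hint σ τ]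
    rw [← integral_exp_quarter, ← integral_const_mul]
    refine integral_mono (integrable_finsetSum _ fun σ _ => hint σ τ)
      (integrable_exp_quarter.const_mul _) fun x => ?_
    have h3 : ∀ σ : Fin n → ℤˣ,
        Real.exp ((∑ i, ((σ i : ℤ) : ℝ) * ((τ i : ℤ) : ℝ)) / Real.sqrt (2 * n) * x) =
        Real.exp ((x / Real.sqrt (2 * n)) * ∑ i, ((σ i : ℤ) : ℝ) * ((τ i : ℤ) : ℝ)) := by
      intro σ
      congr 1
      ring
    simp only [h3]
    rw [sum_exp_spin, mul_pow]
    gcongr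
    calc Real.cosh (x / Real.sqrt (2 * n)) ^ n
        ≤ Real.exp ((x / Real.sqrt (2 * n)) ^ 2 / 2) ^ n := by
          gcongr
          exact Real.cosh_le_exp_half_sq _
      _ = Real.exp (x ^ 2 / 4) := by
          rw [← Real.exp_nat_mul]
          congr 1
          rw [div_pow, Real.sq_sqrt (by positivity)]
          field_simp
          ring
  calc ∑ τ : Fin n → ℤˣ, ∑ σ : Fin n → ℤˣ, Real.exp (1 / 4 * (n * overlap n σ τ ^ 2))
      ≤ ∑ _τ : Fin n → ℤˣ, 2 ^ n * Real.sqrt 2 := Finset.sum_le_sum fun τ _ => h2 τ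
    _ = Real.sqrt 2 * 4 ^ n := by
        rw [Finset.sum_const, Finset.card_univ, nsmul_eq_mul]
        have : ((Fintype.card (Fin n → ℤˣ) : ℕ) : ℝ) = 2 ^ n := by
          simp [Fintype.card_units_int]
        rw [this]
        have h4 : (4 : ℝ) ^ n = 2 ^ n * 2 ^ n := by
          rw [← mul_pow]
          norm_num
        rw [h4]
        ring

end Vale.Agent.P146.H605
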