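import Vale.Agent.P146.H605.LipCov

/-!
# P146: asymptotic independence at every `β > 1`
-/

open MeasureTheory ProbabilityTheory Filter Topology

namespace Vale.Agent.P146.H605

open Vale.Agent.P146.Ub.Cv

lemma lip_scale {f : ℝ → ℝ} (hf : LipschitzWith 1 f) {σ : ℝ} (hσ : 0 < σ) :
    LipschitzWith 1 (fun x => σ * f (x / σ)) := by
  refine LipschitzWith.of_dist_le_mul fun x y => ?_
  have h1 := hf.dist_le_mul (x / σ) (y / σ)
  rw [Real.dist_eq, Real.dist_eq] at h1 ⊢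
  rw [← mul_sub, abs_mul, abs_of_pos hσ]
  have h2 : x / σ - y / σ = (x - y) / σ := by ring
  rw [h2, abs_div, abs_of_pos hσ] at h1
  simp only [NNReal.coe_one, one_mul] at h1 ⊢
  calc σ * |f (x / σ) - f (y / σ)| ≤ σ * (|x - y| / σ) := mul_le_mul_of_nonneg_left h1 hσ.le
    _ = |x - y| := by field_simp

section sk

variable (n : ℕ) (β : ℝ)

/-- the scaled form -/
theorem lip_cov_scaled (hn : 1 ≤ n) {f h : ℝ → ℝ} (hf : LipschitzWith 1 f)
    (hh : LipschitzWith 1 h) {t : ℝ} (h0 : 0 ≤ t) (h1 : t ≤ 1) {σ : ℝ} (hσ : 0 < σ) :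
    |(∫ z, ∫ g, ∫ g', f (freeEnergy n β (mixed n t z g) / σ) *
        h (freeEnergy n β (mixed n t z g') / σ) ∂(disorder n) ∂(disorder n) ∂(disorder n)) -
      (∫ g, f (freeEnergy n β g / σ) ∂(disorder n)) *
        ∫ g, h (freeEnergy n β g / σ) ∂(disorder n)| ≤
      (crossCov n β t + β ^ 2 * t) / σ ^ 2 := by
  have h2 := lip_cov n β hn (lip_scale hf hσ) (lip_scale hh hσ) h0 h1
  have e1 : ∀ a b : ℝ, σ * a * (σ * b) = σ ^ 2 * (a * b) := fun a b => by ring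
  simp_rw [e1, integral_const_mul] at h2
  simp_rw [integral_const_mul]
  rw [e1, ← mul_sub, abs_mul, abs_of_pos (by positivity : (0 : ℝ) < σ ^ 2)] at h2
  rw [le_div_iff₀ (by positivity), mul_comm]
  exact h2

end sk

/-- **Noise sensitivity and asymptotic independence.** -/
theorem indep_eventually {β c₀ : ℝ} (hβ : 1 ≤ β) (hc₀ : 0 < c₀)
    (hV : ∀ᶠ n : ℕ in atTop, (n : ℝ) ^ c₀ ≤ Var[freeEnergy n β; disorder n]) :
    ∃ c : ℝ, 0 < c ∧ c ≤ 1 / (5 * Real.log (8 * β ^ 2)) ∧ ∀ᶠ n : ℕ in atTop,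
      ∀ t : ℝ, 0 ≤ t → t ≤ 1 →
      crossCov n β t ≤ (n : ℝ) ^ (-(c * (1 - t))) * Var[freeEnergy n β; disorder n] ∧
      ∀ f h : ℝ → ℝ, LipschitzWith 1 f → LipschitzWith 1 h →
        |(∫ z, ∫ g, ∫ g', f (freeEnergy n β (mixed n t z g) /
              Real.sqrt (Var[freeEnergy n β; disorder n])) *
            h (freeEnergy n β (mixed n t z g') / Real.sqrt (Var[freeEnergy n β; disorder n]))
              ∂(disorder n) ∂(disorder n) ∂(disorder n)) -
          (∫ g, f (freeEnergy n β g / Real.sqrt (Var[freeEnergy n β; disorder n]))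
              ∂(disorder n)) *
            ∫ g, h (freeEnergy n β g / Real.sqrt (Var[freeEnergy n β; disorder n]))
              ∂(disorder n)| ≤ 2 * (n : ℝ) ^ (-(c * (1 - t))) := by
  have hb : 1 ≤ β ^ 2 := one_le_pow₀ hβ
  have hL : 1 / 2 ≤ Real.log (8 * β ^ 2) := by
    have h3 : Real.log 2 ≤ Real.log (8 * β ^ 2) := Real.log_le_log (by norm_num) (by linarith)
    have := Real.log_two_gt_d9
    linarith
  have hL0 : 0 < Real.log (8 * β ^ 2) := by linarith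
  obtain ⟨c, hc⟩ : ∃ c, c = min (c₀ / (2 * Real.log (8 * β ^ 2)))
    (min (c₀ / 2) (1 / (5 * Real.log (8 * β ^ 2)))) := ⟨_, rfl⟩
  have hc0 : 0 < c := by rw [hc]; positivity
  have hc1 : c ≤ c₀ / (2 * Real.log (8 * β ^ 2)) := by rw [hc]; exact min_le_left _ _
  have hc2 : c ≤ c₀ / 2 := by rw [hc]; exact (min_le_right _ _).trans (min_le_left _ _)
  have hc3 : c ≤ 1 / (5 * Real.log (8 * β ^ 2)) := by
    rw [hc]; exact (min_le_right _ _).trans (min_le_right _ _)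
  refine ⟨c, hc0, hc3, ?_⟩
  have hbig : ∀ᶠ n : ℕ in atTop, β ^ 2 ≤ (n : ℝ) ^ (c₀ / 2) :=
    ((tendsto_rpow_atTop (by positivity)).comp tendsto_natCast_atTop_atTop).eventually_ge_atTop _
  filter_upwards [hV, noise_eventually hβ hc₀ hV, eventually_ge_atTop 1, hbig]
    with n hn hnoise hn1 hbn t h0 h1
  have hn1' : (1 : ℝ) ≤ n := by exact_mod_cast hn1
  have hn0 : (0 : ℝ) < n := by linarith
  obtain ⟨V, hVd⟩ : ∃ V, V = Var[freeEnergy n β; disorder n] := ⟨_, rfl⟩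
  rw [← hVd] at hn hnoise ⊢
  have hV1 : (1 : ℝ) ≤ V := (Real.one_le_rpow hn1' hc₀.le).trans hn
  have hV0 : 0 < V := by linarith
  obtain ⟨-, h2, -⟩ := hnoise t h0 h1
  have h3 : crossCov n β t ≤ (n : ℝ) ^ (-(c * (1 - t))) * V := by
    refine h2.trans (mul_le_mul_of_nonneg_right ?_ hV0.le)
    refine Real.rpow_le_rpow_of_exponent_le hn1' ?_
    have := mul_le_mul_of_nonneg_right hc1 (show 0 ≤ 1 - t by linarith)
    linarith
  refine ⟨h3, fun f h hf hh => ?_⟩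
  refine (lip_cov_scaled n β hn1 hf hh h0 h1 (Real.sqrt_pos.2 hV0)).trans ?_
  rw [Real.sq_sqrt hV0.le, div_le_iff₀ hV0]
  have h4 : β ^ 2 ≤ (n : ℝ) ^ (-(c * (1 - t))) * V := by
    have h5 : (n : ℝ) ^ (c₀ / 2) ≤ (n : ℝ) ^ (-(c * (1 - t))) * (n : ℝ) ^ c₀ := by
      rw [← Real.rpow_add hn0]
      refine Real.rpow_le_rpow_of_exponent_le hn1' ?_
      have : c * (1 - t) ≤ c * 1 := mul_le_mul_of_nonneg_left (by linarith) hc0.le
      linarith
    have h6 : (n : ℝ) ^ (-(c * (1 - t))) * (n : ℝ) ^ c₀ ≤ (n : ℝ) ^ (-(c * (1 - t))) * V :=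
      mul_le_mul_of_nonneg_left hn (Real.rpow_nonneg hn0.le _)
    linarith
  have h5 : β ^ 2 * t ≤ β ^ 2 * 1 := mul_le_mul_of_nonneg_left h1 (sq_nonneg β)
  linarith

end Vale.Agent.P146.H605
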