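import Vale.Agent.P146.H605.Indep

/-!
# P146: the conditional distribution function of the free energy given the common disorder
-/

open MeasureTheory ProbabilityTheory Filter Topology

namespace Vale.Agent.P146.H605

open Vale.Agent.P146.Ub.Cv

/-- a Lipschitz step from `w` to `0` between `x` and `x + w` -/
noncomputable def stp (x w u : ℝ) : ℝ := max 0 (min w (x + w - u))

lemma stp_lip (x w : ℝ) : LipschitzWith 1 (stp x w) := by
  have h1 : LipschitzWith 1 (fun u : ℝ => x + w - u) :=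
    LipschitzWith.of_dist_le_mul fun a b => by
      rw [Real.dist_eq, Real.dist_eq, NNReal.coe_one, one_mul]
      have : x + w - a - (x + w - b) = -(a - b) := by ring
      rw [this, abs_neg]
  have h2 : LipschitzWith 1 (fun u : ℝ => min w (x + w - u)) := by
    have := h1.const_min w
    exact this
  exact h2.const_max 0

lemma stp_nonneg (x w u : ℝ) : 0 ≤ stp x w u := le_max_left _ _

lemma stp_le {w : ℝ} (hw : 0 ≤ w) (x u : ℝ) : stp x w u ≤ w :=
  max_le hw (min_le_left _ _)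

lemma stp_left {x w u : ℝ} (hw : 0 ≤ w) (h : u ≤ x) : stp x w u = w := by
  unfold stp
  rw [min_eq_left (by linarith), max_eq_right hw]

lemma stp_right {x w u : ℝ} (h : x + w ≤ u) : stp x w u = 0 := by
  unfold stp
  rw [max_eq_left]
  exact (min_le_right _ _).trans (by linarith)

section gen

variable {ι : Type*} [Fintype ι]

/-- the conditional distribution function -/
theorem cdf_cond {F : (ι → ℝ) → ℝ} (hF : Dom F) {t : ℝ} (h0 : 0 ≤ t) (h1 : t ≤ 1) {w ε K : ℝ}
    (hw : 0 < w) (hK : ∀ φ : ℝ → ℝ, LipschitzWith 1 φ →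
      ∫ z, cc (fun g => φ (F g)) t z ^ 2 ∂(gpi ι) ≤ K)
    (hε : ∀ y : ℝ, (gpi ι).real {g | |F g - y| ≤ w} ≤ ε) (hε1 : ε ≤ 1) (x : ℝ) :
    ∫ z, ((gpi ι).real {g | F (mix (Real.sqrt t) (Real.sqrt (1 - t)) z g) ≤ x} -
      (gpi ι).real {g | F g ≤ x}) ^ 2 ∂(gpi ι) ≤ 3 * (K / w ^ 2) + 6 * ε := by
  have hcs := sqrt_sq_add h0 h1
  have hc := sqrt_abs_le h1
  have hs : |Real.sqrt (1 - t)| ≤ 1 := sqrt_abs_le (by linarith)
  obtain ⟨φ, hφ⟩ : ∃ φ : (ι → ℝ) → ℝ, φ = fun g => stp x w (F g) / w := ⟨_, rfl⟩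
  have dφ0 : Dom (fun g => stp x w (F g)) := dom_lip' (stp_lip x w) hF
  have dφ : Dom φ := by
    rw [hφ]
    have := dφ0.const_mul (1 / w)
    refine this.congr fun g => ?_
    ring
  obtain ⟨I, hI⟩ : ∃ I : (ι → ℝ) → ℝ, I = Set.indicator {g | F g ≤ x} (fun _ => 1) := ⟨_, rfl⟩
  obtain ⟨J, hJ⟩ : ∃ J : (ι → ℝ) → ℝ, J = Set.indicator {g | |F g - (x + w / 2)| ≤ w} (fun _ => 1) :=
    ⟨_, rfl⟩
  have mI0 : MeasurableSet {g : ι → ℝ | F g ≤ x} :=
    (isClosed_le hF.cont continuous_const).measurableSet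
  have mJ0 : MeasurableSet {g : ι → ℝ | |F g - (x + w / 2)| ≤ w} :=
    (isClosed_le (by have := hF.cont; fun_prop) continuous_const).measurableSet
  have mI : Measurable I := by rw [hI]; exact measurable_const.indicator mI0
  have mJ : Measurable J := by rw [hJ]; exact measurable_const.indicator mJ0
  have hJ01 : ∀ g, 0 ≤ J g ∧ J g ≤ 1 := by
    intro g
    rw [hJ]
    by_cases h : g ∈ {g : ι → ℝ | |F g - (x + w / 2)| ≤ w}
    · rw [Set.indicator_of_mem h]; norm_num
    · rw [Set.indicator_of_notMem h]; norm_num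
  have hI01 : ∀ g, 0 ≤ I g ∧ I g ≤ 1 := by
    intro g
    rw [hI]
    by_cases h : g ∈ {g : ι → ℝ | F g ≤ x}
    · rw [Set.indicator_of_mem h]; norm_num
    · rw [Set.indicator_of_notMem h]; norm_num
  -- pointwise comparison
  have hcmp : ∀ g, 0 ≤ φ g - I g ∧ φ g - I g ≤ J g := by
    intro g
    have hJ0 := (hJ01 g).1
    rcases le_or_gt (F g) x with h | h
    · have e1 : I g = 1 := by rw [hI, Set.indicator_of_mem (by exact h)]
      have e2 : φ g = 1 := by
        rw [hφ]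
        simp only
        rw [stp_left hw.le h, div_self hw.ne']
      rw [e1, e2]
      constructor <;> linarith
    · have e1 : I g = 0 := by rw [hI, Set.indicator_of_notMem (by simpa using h)]
      rw [e1, sub_zero]
      have e3 : φ g = stp x w (F g) / w := by rw [hφ]
      refine ⟨by rw [e3]; exact div_nonneg (stp_nonneg _ _ _) hw.le, ?_⟩
      rcases le_or_gt (x + w) (F g) with h2 | h2
      · rw [e3, stp_right h2, zero_div]
        exact hJ0
      · have e2 : J g = 1 := by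
          rw [hJ, Set.indicator_of_mem]
          change |F g - (x + w / 2)| ≤ w
          rw [abs_le]
          constructor <;> linarith
        rw [e2, e3, div_le_one hw]
        exact stp_le hw.le _ _
  -- integrals
  have intI : ∀ z, (gpi ι).real {g | F (mix (Real.sqrt t) (Real.sqrt (1 - t)) z g) ≤ x} =
      ∫ g, I (mix (Real.sqrt t) (Real.sqrt (1 - t)) z g) ∂(gpi ι) := by
    intro z
    have m1 : MeasurableSet {g : ι → ℝ | F (mix (Real.sqrt t) (Real.sqrt (1 - t)) z g) ≤ x} :=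
      (isClosed_le (dom_fix hF hc hs z).cont continuous_const).measurableSet
    rw [← integral_indicator_one m1]
    rw [hI]
    rfl
  have intI0 : (gpi ι).real {g | F g ≤ x} = ∫ g, I g ∂(gpi ι) := by
    rw [← integral_indicator_one mI0, hI]
    rfl
  have intJ0 : ∫ g, J g ∂(gpi ι) ≤ ε := by
    have e : ∫ g, J g ∂(gpi ι) = (gpi ι).real {g | |F g - (x + w / 2)| ≤ w} := by
      rw [← integral_indicator_one mJ0, hJ]
      rfl
    rw [e]
    exact hε _
  have bdd_int : ∀ {f : (ι → ℝ) → ℝ}, Measurable f → (∀ g, 0 ≤ f g ∧ f g ≤ 1) →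
      Integrable f (gpi ι) := fun hm hb =>
    Integrable.mono' (integrable_const (1 : ℝ)) hm.aestronglyMeasurable
      (Filter.Eventually.of_forall fun g => by
        rw [Real.norm_eq_abs, abs_of_nonneg (hb g).1]; exact (hb g).2)
  have cm : ∀ z : ι → ℝ, Measurable (fun g => mix (Real.sqrt t) (Real.sqrt (1 - t)) z g) := by
    intro z
    exact (cont_mix continuous_const continuous_const continuous_const continuous_id).measurable
  -- conditional means
  obtain ⟨jz, hjz⟩ : ∃ jz : (ι → ℝ) → ℝ, jz = fun z =>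
    ∫ g, J (mix (Real.sqrt t) (Real.sqrt (1 - t)) z g) ∂(gpi ι) := ⟨_, rfl⟩
  have iJ2 : Integrable (fun q : (ι → ℝ) × (ι → ℝ) =>
      J (mix (Real.sqrt t) (Real.sqrt (1 - t)) q.1 q.2)) ((gpi ι).prod (gpi ι)) :=
    (mp_mix hcs).integrable_comp_of_integrable (bdd_int mJ hJ01)
  have iI2 : Integrable (fun q : (ι → ℝ) × (ι → ℝ) =>
      I (mix (Real.sqrt t) (Real.sqrt (1 - t)) q.1 q.2)) ((gpi ι).prod (gpi ι)) :=
    (mp_mix hcs).integrable_comp_of_integrable (bdd_int mI hI01)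
  have ijz : Integrable jz (gpi ι) := by rw [hjz]; exact iJ2.integral_prod_left
  have ejz : ∫ z, jz z ∂(gpi ι) ≤ ε := by
    have e : ∫ z, jz z ∂(gpi ι) = ∫ g, J g ∂(gpi ι) := by
      rw [hjz, ← integral_prod _ iJ2]
      have hm := (mp_mix (ι := ι) hcs)
      conv_rhs => rw [← hm.map_eq]
      rw [integral_map hm.measurable.aemeasurable mJ.aestronglyMeasurable]
    rw [e]
    exact intJ0
  have hjz01 : ∀ z, 0 ≤ jz z ∧ jz z ≤ 1 := by
    intro z
    rw [hjz]
    refine ⟨integral_nonneg fun g => (hJ01 _).1, ?_⟩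
    have := integral_mono (bdd_int (mJ.comp (cm z)) fun g => hJ01 _)
      (integrable_const (μ := gpi ι) (1 : ℝ)) fun g => (hJ01 _).2
    simpa using this
  have hclose : ∀ z, |(∫ g, φ (mix (Real.sqrt t) (Real.sqrt (1 - t)) z g) ∂(gpi ι)) -
      ∫ g, I (mix (Real.sqrt t) (Real.sqrt (1 - t)) z g) ∂(gpi ι)| ≤ jz z := by
    intro z
    have i1 : Integrable (fun g => φ (mix (Real.sqrt t) (Real.sqrt (1 - t)) z g)) (gpi ι) :=
      (dom_fix dφ hc hs z).integrable
    have i2 : Integrable (fun g => I (mix (Real.sqrt t) (Real.sqrt (1 - t)) z g)) (gpi ι) :=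
      bdd_int (mI.comp (cm z)) fun g => hI01 _
    have i3 : Integrable (fun g => J (mix (Real.sqrt t) (Real.sqrt (1 - t)) z g)) (gpi ι) :=
      bdd_int (mJ.comp (cm z)) fun g => hJ01 _
    rw [← integral_sub i1 i2, abs_of_nonneg (integral_nonneg fun g => (hcmp _).1), hjz]
    exact integral_mono (i1.sub i2) i3 fun g => (hcmp _).2
  have hclose0 : |(∫ g, φ g ∂(gpi ι)) - ∫ g, I g ∂(gpi ι)| ≤ ε := by
    have i1 := dφ.integrable
    have i2 := bdd_int mI hI01
    have i3 := bdd_int mJ hJ01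
    rw [← integral_sub i1 i2, abs_of_nonneg (integral_nonneg fun g => (hcmp _).1)]
    exact (integral_mono (i1.sub i2) i3 fun g => (hcmp _).2).trans intJ0
  have hε0 : 0 ≤ ε := (integral_nonneg fun g => (hJ01 g).1).trans intJ0
  -- the square of the centred mean of `φ`
  have hcc : ∀ z, cc φ t z = cc (fun g => stp x w (F g)) t z / w := by
    intro z
    unfold cc
    rw [hφ]
    simp only [integral_div]
    ring
  have hccK : ∫ z, cc φ t z ^ 2 ∂(gpi ι) ≤ K / w ^ 2 := by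
    simp_rw [hcc, div_pow, integral_div]
    exact div_le_div_of_nonneg_right (hK _ (stp_lip x w)) (by positivity)
  have key : ∀ z, ((gpi ι).real {g | F (mix (Real.sqrt t) (Real.sqrt (1 - t)) z g) ≤ x} -
      (gpi ι).real {g | F g ≤ x}) ^ 2 ≤ 3 * cc φ t z ^ 2 + (3 * jz z + 3 * ε) := by
    intro z
    rw [intI z, intI0]
    obtain ⟨p, hp⟩ : ∃ p, p = ∫ g, φ (mix (Real.sqrt t) (Real.sqrt (1 - t)) z g) ∂(gpi ι) :=
      ⟨_, rfl⟩
    obtain ⟨q, hq⟩ : ∃ q, q = ∫ g, I (mix (Real.sqrt t) (Real.sqrt (1 - t)) z g) ∂(gpi ι) :=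
      ⟨_, rfl⟩
    obtain ⟨p0, hp0⟩ : ∃ p0, p0 = ∫ g, φ g ∂(gpi ι) := ⟨_, rfl⟩
    obtain ⟨q0, hq0⟩ : ∃ q0, q0 = ∫ g, I g ∂(gpi ι) := ⟨_, rfl⟩
    have h2 := hclose z
    have h3 := hclose0
    have h4 : cc φ t z = p - p0 := by rw [hp, hp0]; rfl
    rw [← hp, ← hq] at h2
    rw [← hp0, ← hq0] at h3
    rw [← hq, ← hq0, h4]
    obtain ⟨j0, j1⟩ := hjz01 z
    have s1 : (p - q) ^ 2 ≤ jz z := by
      rw [← sq_abs]
      have := pow_le_pow_left₀ (abs_nonneg _) h2 2
      nlinarith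
    have s2 : (p0 - q0) ^ 2 ≤ ε := by
      rw [← sq_abs]
      have := pow_le_pow_left₀ (abs_nonneg _) h3 2
      nlinarith
    nlinarith [sq_nonneg ((p - p0) + (p - q)), sq_nonneg ((p - p0) - (p0 - q0)),
      sq_nonneg ((p - q) + (p0 - q0))]
  have imeas : AEStronglyMeasurable (fun z =>
      ((gpi ι).real {g | F (mix (Real.sqrt t) (Real.sqrt (1 - t)) z g) ≤ x} -
      (gpi ι).real {g | F g ≤ x}) ^ 2) (gpi ι) := by
    have h2 : AEStronglyMeasurable (fun z =>
        ∫ g, I (mix (Real.sqrt t) (Real.sqrt (1 - t)) z g) ∂(gpi ι)) (gpi ι) :=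
      iI2.integral_prod_left.1
    have h3 : (fun z => ((gpi ι).real {g | F (mix (Real.sqrt t) (Real.sqrt (1 - t)) z g) ≤ x} -
      (gpi ι).real {g | F g ≤ x}) ^ 2) = fun z =>
        ((∫ g, I (mix (Real.sqrt t) (Real.sqrt (1 - t)) z g) ∂(gpi ι)) -
          (gpi ι).real {g | F g ≤ x}) ^ 2 := by
      funext z
      rw [intI z]
    rw [h3]
    exact (h2.sub aestronglyMeasurable_const).pow 2
  have iR : Integrable (fun z => 3 * cc φ t z ^ 2 + (3 * jz z + 3 * ε)) (gpi ι) :=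
    ((int_cc2 dφ h0 h1).const_mul _).add ((ijz.const_mul _).add (integrable_const _))
  have iL : Integrable (fun z =>
      ((gpi ι).real {g | F (mix (Real.sqrt t) (Real.sqrt (1 - t)) z g) ≤ x} -
      (gpi ι).real {g | F g ≤ x}) ^ 2) (gpi ι) :=
    Integrable.mono' iR imeas (Filter.Eventually.of_forall fun z => by
      rw [Real.norm_eq_abs, abs_of_nonneg (sq_nonneg _)]
      exact key z)
  refine (integral_mono iL iR key).trans ?_
  have iR1 : Integrable (fun z => 3 * jz z + 3 * ε) (gpi ι) :=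
    (ijz.const_mul _).add (integrable_const _)
  rw [integral_add ((int_cc2 dφ h0 h1).const_mul _) iR1,
    integral_add (ijz.const_mul _) (integrable_const _), integral_const_mul, integral_const_mul]
  simp only [integral_const, probReal_univ, one_smul]
  linarith

end gen

/-- **The conditional law at small correlations.** -/
theorem cond_law {β c₀ : ℝ} (hβ : 1 ≤ β) (hc₀ : 0 < c₀) {n : ℕ} (hn : 1 ≤ n)
    (hev : (⨆ y : ℝ, (disorder n).real {g | |freeEnergy n β g - y| ≤ (n : ℝ) ^ c₀}) ≤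
      (n : ℝ) ^ (-c₀)) {t : ℝ} (h0 : 0 ≤ t) (ht : t ≤ 1 / (8 * β ^ 2)) (x : ℝ) :
    ∫ z, ((disorder n).real {g | freeEnergy n β (mixed n t z g) ≤ x} -
      (disorder n).real {g | freeEnergy n β g ≤ x}) ^ 2 ∂(disorder n) ≤
        10 * (n : ℝ) ^ (-c₀) := by
  have hb : 1 ≤ β ^ 2 := one_le_pow₀ hβ
  have hβ0 : β ≠ 0 := by positivity
  have hn1 : (1 : ℝ) ≤ n := by exact_mod_cast hn
  have hn0 : (0 : ℝ) < n := by linarith
  rw [le_div_iff₀ (by positivity)] at ht
  have ht8 : β ^ 2 * t ≤ 1 / 8 := by linarith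
  have h1 : t ≤ 1 := by nlinarith
  obtain ⟨w, hw⟩ : ∃ w, w = (n : ℝ) ^ c₀ := ⟨_, rfl⟩
  have hw1 : 1 ≤ w := by rw [hw]; exact Real.one_le_rpow hn1 hc₀.le
  have hε : (n : ℝ) ^ (-c₀) = 1 / w := by rw [Real.rpow_neg hn0.le, hw, one_div]
  have hinv : 1 / w ≤ 1 := by
    rw [div_le_one (by linarith)]
    exact hw1
  have hbdd : BddAbove (Set.range fun y : ℝ =>
      (disorder n).real {g | |freeEnergy n β g - y| ≤ (n : ℝ) ^ c₀}) := by
    refine ⟨1, ?_⟩
    rintro _ ⟨y, rfl⟩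
    exact measureReal_le_one (μ := gpi (Pair n))
  have hy : ∀ y : ℝ, (gpi (Pair n)).real {g | |freeEnergy n β g - y| ≤ w} ≤ 1 / w := by
    intro y
    rw [← hε, hw]
    exact (le_ciSup hbdd y).trans hev
  have h2 := cdf_cond (freeEnergy_dom n β) h0 h1 (w := w) (ε := 1 / w)
    (K := crossCov n β t + β ^ 2 * t) (by linarith)
    (fun φ hφ => lip_var n β hn hφ h0 h1) hy hinv x
  have h3 : crossCov n β t + β ^ 2 * t ≤ 9 / 8 := by
    have := crossCov_small n β hn hβ0 h0 h1 ht8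
    linarith
  rw [hε]
  have h4 : 3 * ((crossCov n β t + β ^ 2 * t) / w ^ 2) + 6 * (1 / w) ≤ 10 * (1 / w) := by
    have h5 : (crossCov n β t + β ^ 2 * t) / w ^ 2 ≤ (9 / 8) * (1 / w) := by
      rw [div_le_iff₀ (by positivity)]
      have e : 9 / 8 * (1 / w) * w ^ 2 = 9 / 8 * w := by
        field_simp
      rw [e]
      linarith
    have h6 : 0 < 1 / w := by positivity
    linarith
  exact h2.trans h4

end Vale.Agent.P146.H605
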