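import Vale.Agent.P146.H605.Fin2

/-!
# P146: asymptotic independence of the free energies of two correlated disorders
-/

open MeasureTheory ProbabilityTheory

namespace Vale.Agent.P146.H605

open Vale.Agent.P146.Ub.Cv

section comp

variable {ι : Type*} [Fintype ι] [DecidableEq ι] {F : (ι → ℝ) → ℝ} {G H : ι → (ι → ℝ) → ℝ}
  {B : ℝ}

omit [DecidableEq ι] in
lemma dom_lip {f f₁ : ℝ → ℝ} (hf : ∀ x, HasDerivAt f (f₁ x) x) (hb : ∀ x, |f₁ x| ≤ 1)
    (hF : Dom F) : Dom (fun g => f (F g)) := by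
  have hc : Continuous f := continuous_iff_continuousAt.2 fun x => (hf x).continuousAt
  have hl : ∀ x, |f x| ≤ |f 0| + |x| := by
    intro x
    have h1 : |f x - f 0| ≤ 1 * |x - 0| := by
      have := Convex.norm_image_sub_le_of_norm_hasDerivWithin_le (f := f) (f' := f₁)
        (s := Set.univ) (C := 1) (x := 0) (y := x) (fun x _ => (hf x).hasDerivWithinAt)
        (fun x _ => by rw [Real.norm_eq_abs]; exact hb x) convex_univ (Set.mem_univ _)
        (Set.mem_univ _)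
      simpa only [Real.norm_eq_abs] using this
    have h2 := abs_sub_abs_le_abs_sub (f x) (f 0)
    rw [sub_zero, one_mul] at h1
    linarith
  obtain ⟨C, k, hC, hk, hbd⟩ := hF.bound
  refine ⟨hc.comp hF.cont, |f 0| + C, k, by positivity, hk, fun g => ?_⟩
  have h1 := hl (F g)
  have h2 := hbd g
  have h3 : 1 ≤ Real.exp (k * ∑ i, |g i|) := Real.one_le_exp (by
    have := sum_abs_nonneg g
    positivity)
  have h4 : |f 0| * 1 ≤ |f 0| * Real.exp (k * ∑ i, |g i|) :=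
    mul_le_mul_of_nonneg_left h3 (abs_nonneg _)
  linarith

/-- composition with a smooth Lipschitz function -/
lemma reg_comp {f f₁ f₂ : ℝ → ℝ} (hf : ∀ x, HasDerivAt f (f₁ x) x)
    (hf₁ : ∀ x, HasDerivAt f₁ (f₂ x) x) (hf₂ : Continuous f₂) (hb : ∀ x, |f₁ x| ≤ 1)
    {C : ℝ} (hC : ∀ x, |f₂ x| ≤ C) (h : Reg F G H B) :
    Reg (fun g => f (F g)) (fun i g => f₁ (F g) * G i g)
      (fun i g => f₂ (F g) * G i g * G i g + f₁ (F g) * H i g) |B| where
  F_dom := dom_lip hf hb h.F_dom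
  G_dom i := by
    have hc : Continuous f₁ := continuous_iff_continuousAt.2 fun x => (hf₁ x).continuousAt
    exact (Dom.of_bounded (hc.comp h.F_dom.cont) 1 fun g => hb _).mul (h.G_dom i)
  H_dom i := by
    have hc : Continuous f₁ := continuous_iff_continuousAt.2 fun x => (hf₁ x).continuousAt
    exact (((Dom.of_bounded (hf₂.comp h.F_dom.cont) C fun g => hC _).mul (h.G_dom i)).mul
      (h.G_dom i)).add ((Dom.of_bounded (hc.comp h.F_dom.cont) 1 fun g => hb _).mul (h.H_dom i))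
  G_bd i g := by
    rw [abs_mul]
    have h1 := mul_le_mul (hb (F g)) ((h.G_bd i g).trans (le_abs_self B)) (abs_nonneg _)
      zero_le_one
    linarith
  F_diff g := by
    refine ((hf (F g)).comp_hasFDerivAt g (h.F_diff g)).congr_fderiv ?_
    rw [Finset.smul_sum]
    exact Finset.sum_congr rfl fun i _ => by rw [smul_smul]
  G_diff i g t := by
    have h1 := (hf₁ (F (Function.update g i t))).comp t (h.coord g i t)
    exact h1.mul (h.G_diff i g t)

/-- comparison of the covariances of `f ∘ F` and `F` -/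
lemma comp_le {f f₁ f₂ : ℝ → ℝ} (hf : ∀ x, HasDerivAt f (f₁ x) x)
    (hf₁ : ∀ x, HasDerivAt f₁ (f₂ x) x) (hf₂ : Continuous f₂) (hb : ∀ x, |f₁ x| ≤ 1)
    {C : ℝ} (hC : ∀ x, |f₂ x| ≤ C) (h : Reg F G H B) {b : ℝ} (hb0 : 0 ≤ b)
    (hG : ∀ x y, -b ≤ 2 * ∑ i, G i x * G i y) {t : ℝ} (h0 : 0 ≤ t) (h1 : t ≤ 1) :
    QQ (fun g => f (F g)) t - (∫ g, f (F g) ∂(gpi ι)) ^ 2 ≤
      QQ F t - (∫ g, F g ∂(gpi ι)) ^ 2 + b * t := by
  have hr := reg_comp hf hf₁ hf₂ hb hC h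
  have hphi : ∀ θ, phi (fun i g => f₁ (F g) * G i g) θ ≤ phi G θ + b := by
    intro θ
    have hc := Real.abs_cos_le_one θ
    have hs := Real.abs_sin_le_one θ
    have d1 : Dom (fun g : J3 ι → ℝ => ∑ i,
        G i (mix (Real.cos θ) (Real.sin θ) (pu g) (pv g)) *
          G i (mix (Real.cos θ) (Real.sin θ) (pu g) (pw g))) :=
      Dom.sum _ fun i _ => (dom_uv (h.G_dom i) hc hs).mul (dom_uw (h.G_dom i) hc hs)
    have e1 : phi G θ + b = ∫ g : J3 ι → ℝ, ((∑ i,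
        G i (mix (Real.cos θ) (Real.sin θ) (pu g) (pv g)) *
          G i (mix (Real.cos θ) (Real.sin θ) (pu g) (pw g))) + b) ∂(gpi (J3 ι)) := by
      rw [int_add d1 (Dom.const _)]
      simp
      rfl
    rw [e1]
    unfold phi
    refine int_mono (Dom.sum _ fun i _ => (dom_uv (hr.G_dom i) hc hs).mul
      (dom_uw (hr.G_dom i) hc hs)) (d1.add (Dom.const _)) fun g => ?_
    obtain ⟨x, hx⟩ : ∃ x, x = mix (Real.cos θ) (Real.sin θ) (pu g) (pv g) := ⟨_, rfl⟩
    obtain ⟨y, hy⟩ : ∃ y, y = mix (Real.cos θ) (Real.sin θ) (pu g) (pw g) := ⟨_, rfl⟩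
    simp only [← hx, ← hy]
    have e2 : ∑ i, f₁ (F x) * G i x * (f₁ (F y) * G i y) =
        (f₁ (F x) * f₁ (F y)) * ∑ i, G i x * G i y := by
      rw [Finset.mul_sum]
      exact Finset.sum_congr rfl fun i _ => by ring
    rw [e2]
    have h2 : |f₁ (F x) * f₁ (F y)| ≤ 1 := by
      rw [abs_mul]
      exact mul_le_one₀ (hb _) (abs_nonneg _) (hb _)
    obtain ⟨S, hS⟩ : ∃ S, S = ∑ i, G i x * G i y := ⟨_, rfl⟩
    have h3 := hG x y
    rw [← hS] at h3 ⊢
    have h4 : (f₁ (F x) * f₁ (F y)) * S ≤ |S| := by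
      refine (le_abs_self _).trans ?_
      rw [abs_mul]
      exact mul_le_of_le_one_left (abs_nonneg _) h2
    have h5 : |S| ≤ S + b := by
      rw [abs_le]
      constructor <;> linarith
    exact h4.trans h5
  obtain ⟨D, hD⟩ : ∃ D : ℝ → ℝ, D = fun θ => KK F θ - KK (fun g => f (F g)) θ +
    b * Real.cos θ ^ 2 := ⟨_, rfl⟩
  have dD : ∀ θ, HasDerivAt D (-(2 * Real.sin θ * Real.cos θ) * (phi G θ -
      phi (fun i g => f₁ (F g) * G i g) θ + b)) θ := by
    intro θ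
    rw [hD]
    refine (((hasDerivAt_KK h θ).sub (hasDerivAt_KK hr θ)).add
      (((Real.hasDerivAt_cos θ).fun_pow 2).const_mul b)).congr_deriv ?_
    rw [Nat.cast_ofNat, show (2 - 1 : ℕ) = 1 from rfl, pow_one]
    ring
  have mono : AntitoneOn D (Set.Icc 0 (Real.pi / 2)) := by
    refine antitoneOn_of_deriv_nonpos (convex_Icc _ _)
      (fun θ _ => (dD θ).continuousAt.continuousWithinAt)
      (fun θ _ => (dD θ).differentiableAt.differentiableWithinAt) fun θ hθ => ?_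
    have hθ' := interior_subset hθ
    rw [(dD θ).deriv]
    have s0 : 0 ≤ Real.sin θ :=
      Real.sin_nonneg_of_nonneg_of_le_pi hθ'.1 (by linarith [hθ'.2, Real.pi_pos])
    have c0 : 0 ≤ Real.cos θ :=
      Real.cos_nonneg_of_neg_pi_div_two_le_of_le (by linarith [hθ'.1, Real.pi_pos]) hθ'.2
    have p0 : 0 ≤ phi G θ - phi (fun i g => f₁ (F g) * G i g) θ + b := by
      linarith [hphi θ]
    have : 0 ≤ 2 * Real.sin θ * Real.cos θ * (phi G θ -
      phi (fun i g => f₁ (F g) * G i g) θ + b) := by positivity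
    linarith
  have hpi : (0 : ℝ) ≤ Real.pi / 2 := by positivity
  have h3 : 0 ≤ Real.sqrt t := Real.sqrt_nonneg t
  have h2 : Real.sqrt t ≤ 1 := Real.sqrt_le_one.2 h1
  have m1 : Real.arccos (Real.sqrt t) ∈ Set.Icc 0 (Real.pi / 2) :=
    ⟨Real.arccos_nonneg _, Real.arccos_le_pi_div_two.2 h3⟩
  have h4 := mono m1 (Set.right_mem_Icc.2 hpi) m1.2
  simp only [hD] at h4
  rw [Real.cos_pi_div_two, KK_pi h.F_dom, KK_pi hr.F_dom, ← QQ_KK h.F_dom h0 h1,
    ← QQ_KK hr.F_dom h0 h1, Real.cos_arccos (by linarith) h2, Real.sq_sqrt h0] at h4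
  norm_num at h4
  linarith

end comp

section sk

variable (n : ℕ) (β : ℝ)

lemma gradF_inner (hn : 1 ≤ n) (x y : Pair n → ℝ) :
    -β ^ 2 ≤ 2 * ∑ p : Pair n, gradF n β p x * gradF n β p y := by
  have hn0 : (0 : ℝ) < n := by exact_mod_cast hn
  have h1 := pair_overlap n β hn x y
  have h2 : 0 ≤ ∑ σ : Fin n → ℤˣ, ∑ τ : Fin n → ℤˣ,
      overlap n σ τ ^ 2 * gibbs n β x σ * gibbs n β y τ := by
    refine Finset.sum_nonneg fun σ _ => Finset.sum_nonneg fun τ _ => ?_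
    have h3 := Gauge.gibbs_nonneg β x σ
    have h4 := Gauge.gibbs_nonneg β y τ
    positivity
  rw [h1] at h2
  have e : ∑ p : Pair n, gradF n β p x * gradF n β p y =
      β ^ 2 / n * ∑ p : Pair n, av n β (ps p) x * av n β (ps p) y := by
    rw [Finset.mul_sum]
    refine Finset.sum_congr rfl fun p _ => ?_
    unfold gradF
    have h2 : β / Real.sqrt n * (β / Real.sqrt n) = β ^ 2 / n := by
      rw [div_mul_div_comm, Real.mul_self_sqrt hn0.le, sq]
    rw [← h2]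
    ring
  rw [e]
  obtain ⟨S, hS⟩ : ∃ S, S = ∑ p : Pair n, av n β (ps p) x * av n β (ps p) y := ⟨_, rfl⟩
  rw [← hS] at h2 ⊢
  have h3 : 0 ≤ β ^ 2 * n * (1 / n + 2 / (n : ℝ) ^ 2 * S) := by positivity
  have e2 : β ^ 2 * n * (1 / n + 2 / (n : ℝ) ^ 2 * S) = β ^ 2 + 2 * (β ^ 2 / n * S) := by
    field_simp
  rw [e2] at h3
  linarith

/-- smooth Lipschitz functions of the free energy -/
theorem smooth_cov (hn : 1 ≤ n) {f f₁ f₂ : ℝ → ℝ} (hf : ∀ x, HasDerivAt f (f₁ x) x)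
    (hf₁ : ∀ x, HasDerivAt f₁ (f₂ x) x) (hf₂ : Continuous f₂) (hb : ∀ x, |f₁ x| ≤ 1)
    {C : ℝ} (hC : ∀ x, |f₂ x| ≤ C) {t : ℝ} (h0 : 0 ≤ t) (h1 : t ≤ 1) :
    QQ (fun g => f (freeEnergy n β g)) t - (∫ g, f (freeEnergy n β g) ∂(gpi (Pair n))) ^ 2 ≤
      crossCov n β t + β ^ 2 * t := by
  rw [crossCov_QQ]
  exact comp_le hf hf₁ hf₂ hb hC (reg_freeEnergy n β) (sq_nonneg β) (gradF_inner n β hn) h0 h1

end sk

end Vale.Agent.P146.H605
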