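import Mathlib

/-! # Smoothing of a Lipschitz function by two Steklov averages -/

open MeasureTheory

namespace Vale.Agent.P146.H605

/-- The Steklov average. -/
private noncomputable def st (d : ℝ) (g : ℝ → ℝ) (x : ℝ) : ℝ := d⁻¹ * ∫ u in x..x + d, g u

private lemma st_deriv {g : ℝ → ℝ} (hg : Continuous g) (d x : ℝ) :
    HasDerivAt (st d g) (d⁻¹ * (g (x + d) - g x)) x := by
  have hF : ∀ y, HasDerivAt (fun z => ∫ u in (0 : ℝ)..z, g u) (g y) y := fun y =>
    intervalIntegral.integral_hasDerivAt_right (hg.intervalIntegrable _ _)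
      (hg.stronglyMeasurableAtFilter _ _) hg.continuousAt
  have h1 : st d g = fun z => d⁻¹ * ((∫ u in (0 : ℝ)..z + d, g u) - ∫ u in (0 : ℝ)..z, g u) := by
    funext z
    rw [st, intervalIntegral.integral_interval_sub_left (hg.intervalIntegrable _ _)
      (hg.intervalIntegrable _ _)]
  rw [h1]
  exact (((hF (x + d)).comp_add_const x d).sub (hF x)).const_mul _

private lemma st_close {g : ℝ → ℝ} (hg : LipschitzWith 1 g) {d : ℝ} (hd : 0 < d) (x : ℝ) :
    |st d g x - g x| ≤ d := by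
  have hc := hg.continuous
  have h1 : st d g x - g x = d⁻¹ * ∫ u in x..x + d, (g u - g x) := by
    rw [intervalIntegral.integral_sub (hc.intervalIntegrable _ _) (by simp), st, mul_sub,
      intervalIntegral.integral_const, smul_eq_mul, add_sub_cancel_left]
    field_simp
  have h2 : ‖∫ u in x..x + d, (g u - g x)‖ ≤ d * |x + d - x| := by
    refine intervalIntegral.norm_integral_le_of_norm_le_const fun u hu => ?_
    rw [Set.uIoc_of_le (by linarith)] at hu
    have h3 := hg.dist_le_mul u x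
    rw [NNReal.coe_one, one_mul, Real.dist_eq, Real.dist_eq, abs_of_pos (by linarith [hu.1] : 0 < u - x)] at h3
    rw [Real.norm_eq_abs]
    linarith [hu.2]
  rw [add_sub_cancel_left, abs_of_pos hd, Real.norm_eq_abs] at h2
  rw [h1, abs_mul, abs_of_pos (inv_pos.2 hd)]
  calc d⁻¹ * |∫ u in x..x + d, (g u - g x)| ≤ d⁻¹ * (d * d) := by gcongr
    _ = d := by field_simp

theorem lip_smooth {φ : ℝ → ℝ} (hφ : LipschitzWith 1 φ) {ε : ℝ} (hε : 0 < ε) :
    ∃ f f₁ f₂ : ℝ → ℝ, (∀ x, |f x - φ x| ≤ ε) ∧ (∀ x, HasDerivAt f (f₁ x) x) ∧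
      (∀ x, HasDerivAt f₁ (f₂ x) x) ∧ Continuous f₂ ∧ (∀ x, |f₁ x| ≤ 1) ∧
      ∃ C : ℝ, ∀ x, |f₂ x| ≤ C := by
  set d : ℝ := ε / 2 with hd
  have hd0 : 0 < d := by positivity
  have hc := hφ.continuous
  -- the first average
  have hD : ∀ {g : ℝ → ℝ}, LipschitzWith 1 g → ∀ x, |d⁻¹ * (g (x + d) - g x)| ≤ 1 := by
    intro g hg x
    have h3 := hg.dist_le_mul (x + d) x
    rw [NNReal.coe_one, one_mul, Real.dist_eq, Real.dist_eq, add_sub_cancel_left,
      abs_of_pos hd0] at h3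
    rw [abs_mul, abs_of_pos (inv_pos.2 hd0)]
    calc d⁻¹ * |g (x + d) - g x| ≤ d⁻¹ * d := by gcongr
      _ = 1 := by field_simp
  have h1 := st_deriv hc d
  have h2 : LipschitzWith 1 (st d φ) := by
    refine lipschitzWith_of_nnnorm_deriv_le (fun x => (h1 x).differentiableAt) fun x => ?_
    rw [(h1 x).deriv, ← NNReal.coe_le_coe, coe_nnnorm, Real.norm_eq_abs, NNReal.coe_one]
    exact hD hφ x
  have h3 := st_deriv h2.continuous d
  have h4 : ∀ x, HasDerivAt (fun x => d⁻¹ * (st d φ (x + d) - st d φ x))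
      (d⁻¹ * (d⁻¹ * (φ (x + d + d) - φ (x + d)) - d⁻¹ * (φ (x + d) - φ x))) x := fun x =>
    (((h1 (x + d)).comp_add_const x d).sub (h1 x)).const_mul _
  refine ⟨st d (st d φ), _, _, fun x => ?_, h3, h4, by fun_prop, hD h2, d⁻¹ * 2, fun x => ?_⟩
  · have e1 := abs_le.1 (st_close h2 hd0 x)
    have e2 := abs_le.1 (st_close hφ hd0 x)
    rw [abs_le]
    constructor <;> linarith [e1.1, e1.2, e2.1, e2.2]
  · have e1 := abs_le.1 (hD hφ (x + d))
    have e2 := abs_le.1 (hD hφ x)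
    rw [abs_mul, abs_of_pos (inv_pos.2 hd0)]
    gcongr
    rw [abs_le]
    constructor <;> linarith [e1.1, e1.2, e2.1, e2.2]

end Vale.Agent.P146.H605
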