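import Vale.Agent.P146.H605.Lip
import Vale.Agent.P146.H605.Smooth

/-!
# P146: asymptotic independence, for Lipschitz test functions
-/

open MeasureTheory ProbabilityTheory Filter Topology

namespace Vale.Agent.P146.H605

open Vale.Agent.P146.Ub.Cv

section gen

variable {ι : Type*} [Fintype ι]

lemma dom_lip' {φ : ℝ → ℝ} (hφ : LipschitzWith 1 φ) {F : (ι → ℝ) → ℝ} (hF : Dom F) :
    Dom (fun g => φ (F g)) := by
  have hl : ∀ x, |φ x| ≤ |φ 0| + |x| := by
    intro x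
    have h1 : |φ x - φ 0| ≤ |x - 0| := by
      have := hφ.dist_le_mul x 0
      simpa [Real.dist_eq] using this
    have h2 := abs_sub_abs_le_abs_sub (φ x) (φ 0)
    rw [sub_zero] at h1
    linarith
  obtain ⟨C, k, hC, hk, hbd⟩ := hF.bound
  refine ⟨hφ.continuous.comp hF.cont, |φ 0| + C, k, by positivity, hk, fun g => ?_⟩
  have h1 := hl (F g)
  have h2 := hbd g
  have h3 : 1 ≤ Real.exp (k * ∑ i, |g i|) := Real.one_le_exp (by
    have := sum_abs_nonneg g
    positivity)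
  have h4 : |φ 0| * 1 ≤ |φ 0| * Real.exp (k * ∑ i, |g i|) :=
    mul_le_mul_of_nonneg_left h3 (abs_nonneg _)
  linarith

/-- centred conditional mean -/
noncomputable def cc (f : (ι → ℝ) → ℝ) (t : ℝ) (z : ι → ℝ) : ℝ :=
  (∫ y, f (mix (Real.sqrt t) (Real.sqrt (1 - t)) z y) ∂(gpi ι)) - ∫ y, f y ∂(gpi ι)

section

variable {f : (ι → ℝ) → ℝ} (hf : Dom f) {t : ℝ} (h0 : 0 ≤ t) (h1 : t ≤ 1)

include hf h0 h1

lemma int_P : Integrable (fun z =>
    ∫ y, f (mix (Real.sqrt t) (Real.sqrt (1 - t)) z y) ∂(gpi ι)) (gpi ι) := by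
  have i1 : Integrable (fun q : (ι → ℝ) × (ι → ℝ) =>
      f (mix (Real.sqrt t) (Real.sqrt (1 - t)) q.1 q.2)) ((gpi ι).prod (gpi ι)) :=
    (mp_mix (sqrt_sq_add h0 h1)).integrable_comp_of_integrable hf.integrable
  exact i1.integral_prod_left

lemma int_P_eq : ∫ z, ∫ y, f (mix (Real.sqrt t) (Real.sqrt (1 - t)) z y) ∂(gpi ι) ∂(gpi ι) =
    ∫ y, f y ∂(gpi ι) := by
  have i1 : Integrable (fun q : (ι → ℝ) × (ι → ℝ) =>
      f (mix (Real.sqrt t) (Real.sqrt (1 - t)) q.1 q.2)) ((gpi ι).prod (gpi ι)) :=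
    (mp_mix (sqrt_sq_add h0 h1)).integrable_comp_of_integrable hf.integrable
  rw [← int_mix (sqrt_sq_add h0 h1) hf.cont, integral_prod _ i1]

lemma int_cc : Integrable (cc f t) (gpi ι) := (int_P hf h0 h1).sub (integrable_const _)

lemma int_cc2 : Integrable (fun z => cc f t z ^ 2) (gpi ι) := by
  have iP2 : Integrable (fun z =>
      (∫ y, f (mix (Real.sqrt t) (Real.sqrt (1 - t)) z y) ∂(gpi ι)) ^ 2) (gpi ι) := by
    have h := (int_pair hf h0 h1).integral_prod_left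
    refine h.congr (Filter.Eventually.of_forall fun z => ?_)
    simp only
    rw [integral_prod_mul (fun y => f (mix (Real.sqrt t) (Real.sqrt (1 - t)) z y))
      (fun y => f (mix (Real.sqrt t) (Real.sqrt (1 - t)) z y))]
    exact (sq _).symm
  have h2 : Integrable (fun z =>
      (∫ y, f (mix (Real.sqrt t) (Real.sqrt (1 - t)) z y) ∂(gpi ι)) ^ 2 +
      ((-2 * ∫ y, f y ∂(gpi ι)) *
        (∫ y, f (mix (Real.sqrt t) (Real.sqrt (1 - t)) z y) ∂(gpi ι)) +
        (∫ y, f y ∂(gpi ι)) ^ 2)) (gpi ι) :=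
    iP2.add (((int_P hf h0 h1).const_mul _).add (integrable_const _))
  refine h2.congr (Filter.Eventually.of_forall fun z => ?_)
  simp only
  unfold cc
  ring

lemma cc_sq_eq : ∫ z, cc f t z ^ 2 ∂(gpi ι) = QQ f t - (∫ y, f y ∂(gpi ι)) ^ 2 := by
  rw [← QQ_center hf h0 h1]
  unfold QQ
  refine integral_congr_ae (Filter.Eventually.of_forall fun z => ?_)
  simp only
  rw [int_sub (dom_fix hf (sqrt_abs_le h1) (sqrt_abs_le (by linarith)) z) (Dom.const _)]
  unfold cc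
  simp

end

/-- the cross covariance of two functions -/
lemma cc_mul {f h : (ι → ℝ) → ℝ} (hf : Dom f) (hh : Dom h) {t : ℝ} (h0 : 0 ≤ t) (h1 : t ≤ 1) :
    (∫ z, ∫ g, ∫ g', f (mix (Real.sqrt t) (Real.sqrt (1 - t)) z g) *
      h (mix (Real.sqrt t) (Real.sqrt (1 - t)) z g') ∂(gpi ι) ∂(gpi ι) ∂(gpi ι)) -
      (∫ y, f y ∂(gpi ι)) * (∫ y, h y ∂(gpi ι)) = ∫ z, cc f t z * cc h t z ∂(gpi ι) := by
  obtain ⟨P, hP⟩ : ∃ P : (ι → ℝ) → ℝ, P = fun z =>
    ∫ y, f (mix (Real.sqrt t) (Real.sqrt (1 - t)) z y) ∂(gpi ι) := ⟨_, rfl⟩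
  obtain ⟨Q, hQ⟩ : ∃ Q : (ι → ℝ) → ℝ, Q = fun z =>
    ∫ y, h (mix (Real.sqrt t) (Real.sqrt (1 - t)) z y) ∂(gpi ι) := ⟨_, rfl⟩
  obtain ⟨m, hm⟩ : ∃ m, m = ∫ y, f y ∂(gpi ι) := ⟨_, rfl⟩
  obtain ⟨k, hk⟩ : ∃ k, k = ∫ y, h y ∂(gpi ι) := ⟨_, rfl⟩
  have iP : Integrable P (gpi ι) := by rw [hP]; exact int_P hf h0 h1
  have iQ : Integrable Q (gpi ι) := by rw [hQ]; exact int_P hh h0 h1
  have eP : ∫ z, P z ∂(gpi ι) = m := by rw [hP, hm]; exact int_P_eq hf h0 h1
  have eQ : ∫ z, Q z ∂(gpi ι) = k := by rw [hQ, hk]; exact int_P_eq hh h0 h1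
  have ec : ∀ z, cc f t z = P z - m := fun z => by rw [hP, hm]; rfl
  have ed : ∀ z, cc h t z = Q z - k := fun z => by rw [hQ, hk]; rfl
  have e1 : ∫ z, ∫ g, ∫ g', f (mix (Real.sqrt t) (Real.sqrt (1 - t)) z g) *
      h (mix (Real.sqrt t) (Real.sqrt (1 - t)) z g') ∂(gpi ι) ∂(gpi ι) ∂(gpi ι) =
      ∫ z, P z * Q z ∂(gpi ι) := by
    refine integral_congr_ae (Filter.Eventually.of_forall fun z => ?_)
    simp only
    simp_rw [integral_const_mul]
    rw [integral_mul_const, hP, hQ]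
  have iPQ : Integrable (fun z => P z * Q z) (gpi ι) := by
    have i2 : Integrable (fun z => cc f t z ^ 2 + cc h t z ^ 2) (gpi ι) :=
      (int_cc2 hf h0 h1).add (int_cc2 hh h0 h1)
    have i3 : Integrable (fun z => cc f t z * cc h t z) (gpi ι) := by
      refine Integrable.mono' i2 ((int_cc hf h0 h1).1.mul (int_cc hh h0 h1).1)
        (Filter.Eventually.of_forall fun z => ?_)
      rw [Real.norm_eq_abs, abs_le]
      constructor <;> nlinarith [sq_nonneg (cc f t z - cc h t z), sq_nonneg (cc f t z + cc h t z),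
        sq_nonneg (cc f t z), sq_nonneg (cc h t z)]
    have i4 : Integrable (fun z => cc f t z * cc h t z + (m * Q z + (k * P z + -(m * k))))
        (gpi ι) := i3.add ((iQ.const_mul m).add ((iP.const_mul k).add (integrable_const _)))
    refine i4.congr (Filter.Eventually.of_forall fun z => ?_)
    simp only [ec, ed]
    ring
  rw [e1, ← hm, ← hk]
  simp_rw [ec, ed]
  have e2 : ∀ z, (P z - m) * (Q z - k) = P z * Q z + ((-k) * P z + ((-m) * Q z + m * k)) :=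
    fun z => by ring
  simp_rw [e2]
  have i5 : Integrable (fun z => (-m) * Q z + m * k) (gpi ι) :=
    (iQ.const_mul _).add (integrable_const _)
  have i6 : Integrable (fun z => (-k) * P z + ((-m) * Q z + m * k)) (gpi ι) :=
    (iP.const_mul _).add i5
  rw [integral_add iPQ i6, integral_add (iP.const_mul _) i5,
    integral_add (iQ.const_mul _) (integrable_const _), integral_const_mul, integral_const_mul,
    eP, eQ]
  simp
  ring

lemma cc_close {f h : (ι → ℝ) → ℝ} (hf : Dom f) (hh : Dom h) {t : ℝ} (h0 : 0 ≤ t) (h1 : t ≤ 1)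
    {ε : ℝ} (hfh : ∀ x, |f x - h x| ≤ ε) (z : ι → ℝ) : |cc f t z - cc h t z| ≤ 2 * ε := by
  have hc : |Real.sqrt t| ≤ 1 := sqrt_abs_le h1
  have hs : |Real.sqrt (1 - t)| ≤ 1 := sqrt_abs_le (by linarith)
  have e1 : (∫ y, f (mix (Real.sqrt t) (Real.sqrt (1 - t)) z y) ∂(gpi ι)) -
      (∫ y, h (mix (Real.sqrt t) (Real.sqrt (1 - t)) z y) ∂(gpi ι)) =
      ∫ y, (f (mix (Real.sqrt t) (Real.sqrt (1 - t)) z y) -
        h (mix (Real.sqrt t) (Real.sqrt (1 - t)) z y)) ∂(gpi ι) :=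
    (int_sub (dom_fix hf hc hs z) (dom_fix hh hc hs z)).symm
  have e2 : (∫ y, f y ∂(gpi ι)) - (∫ y, h y ∂(gpi ι)) = ∫ y, (f y - h y) ∂(gpi ι) :=
    (int_sub hf hh).symm
  have b1 : |∫ y, (f (mix (Real.sqrt t) (Real.sqrt (1 - t)) z y) -
        h (mix (Real.sqrt t) (Real.sqrt (1 - t)) z y)) ∂(gpi ι)| ≤ ε := by
    have := norm_integral_le_of_norm_le_const (μ := gpi ι)
      (f := fun y => f (mix (Real.sqrt t) (Real.sqrt (1 - t)) z y) -
        h (mix (Real.sqrt t) (Real.sqrt (1 - t)) z y)) (C := ε)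
      (Filter.Eventually.of_forall fun y => by rw [Real.norm_eq_abs]; exact hfh _)
    simpa using this
  have b2 : |∫ y, (f y - h y) ∂(gpi ι)| ≤ ε := by
    have := norm_integral_le_of_norm_le_const (μ := gpi ι)
      (f := fun y => f y - h y) (C := ε)
      (Filter.Eventually.of_forall fun y => by rw [Real.norm_eq_abs]; exact hfh _)
    simpa using this
  rw [← e1] at b1
  rw [← e2] at b2
  unfold cc
  rw [abs_le] at b1 b2 ⊢
  constructor <;> linarith [b1.1, b1.2, b2.1, b2.2]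

end gen

section sk

variable (n : ℕ) (β : ℝ)

/-- one Lipschitz function -/
theorem lip_var (hn : 1 ≤ n) {φ : ℝ → ℝ} (hφ : LipschitzWith 1 φ) {t : ℝ} (h0 : 0 ≤ t)
    (h1 : t ≤ 1) : ∫ z, cc (fun g => φ (freeEnergy n β g)) t z ^ 2 ∂(gpi (Pair n)) ≤
      crossCov n β t + β ^ 2 * t := by
  have hF := freeEnergy_dom n β
  obtain ⟨K, hK⟩ : ∃ K, K = crossCov n β t + β ^ 2 * t := ⟨_, rfl⟩
  have hK0 : 0 ≤ K := by
    rw [hK]
    have := crossCov_nonneg n β h0 h1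
    positivity
  obtain ⟨I, hI⟩ : ∃ I, I = ∫ z, cc (fun g => φ (freeEnergy n β g)) t z ^ 2 ∂(gpi (Pair n)) :=
    ⟨_, rfl⟩
  rw [← hI, ← hK]
  have key : ∀ ε : ℝ, 0 < ε → I ≤ (1 + ε) * K + (1 + 1 / ε) * (2 * ε) ^ 2 := by
    intro ε hε
    obtain ⟨f, f₁, f₂, hc, hf, hf₁, hf₂, hb, C, hC⟩ := lip_smooth hφ hε
    have hd := dom_lip hf hb hF
    have h2 := smooth_cov n β hn hf hf₁ hf₂ hb hC h0 h1
    rw [← cc_sq_eq hd h0 h1, ← hK] at h2
    have h3 : ∀ z, cc (fun g => φ (freeEnergy n β g)) t z ^ 2 ≤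
        (1 + ε) * cc (fun g => f (freeEnergy n β g)) t z ^ 2 + (1 + 1 / ε) * (2 * ε) ^ 2 := by
      intro z
      have h4 := cc_close hd (dom_lip' hφ hF) h0 h1 (fun x => hc (freeEnergy n β x)) z
      obtain ⟨a, ha⟩ : ∃ a, a = cc (fun g => φ (freeEnergy n β g)) t z := ⟨_, rfl⟩
      obtain ⟨b, hb'⟩ : ∃ b, b = cc (fun g => f (freeEnergy n β g)) t z := ⟨_, rfl⟩
      rw [← ha, ← hb'] at h4 ⊢
      have h5 : (b - a) ^ 2 ≤ (2 * ε) ^ 2 := by
        rw [← sq_abs]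
        exact pow_le_pow_left₀ (abs_nonneg _) h4 2
      have h6 : a ^ 2 ≤ (1 + ε) * b ^ 2 + (1 + 1 / ε) * (b - a) ^ 2 := by
        have h7 : (1 + ε) * b ^ 2 + (1 + 1 / ε) * (b - a) ^ 2 - a ^ 2 =
            (ε * b + (b - a)) ^ 2 / ε := by
          field_simp
          ring
        have h8 : 0 ≤ (ε * b + (b - a)) ^ 2 / ε := by positivity
        linarith
      have h9 : (1 + 1 / ε) * (b - a) ^ 2 ≤ (1 + 1 / ε) * (2 * ε) ^ 2 :=
        mul_le_mul_of_nonneg_left h5 (by positivity)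
      linarith
    have h4 : I ≤ ∫ z, ((1 + ε) * cc (fun g => f (freeEnergy n β g)) t z ^ 2 +
        (1 + 1 / ε) * (2 * ε) ^ 2) ∂(gpi (Pair n)) := by
      rw [hI]
      exact integral_mono (int_cc2 (dom_lip' hφ hF) h0 h1)
        (((int_cc2 hd h0 h1).const_mul _).add (integrable_const _)) h3
    rw [integral_add ((int_cc2 hd h0 h1).const_mul _) (integrable_const _),
      integral_const_mul] at h4
    simp only [integral_const, probReal_univ, one_smul] at h4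
    have h5 := mul_le_mul_of_nonneg_left h2 (show 0 ≤ 1 + ε by linarith)
    linarith
  refine le_of_forall_pos_le_add fun δ hδ => ?_
  have hp : 0 < K + 8 := by linarith
  obtain ⟨ε, hε⟩ : ∃ ε, ε = min 1 (δ / (K + 8)) := ⟨_, rfl⟩
  have hε0 : 0 < ε := by rw [hε]; positivity
  have hε1 : ε ≤ 1 := by rw [hε]; exact min_le_left _ _
  have hε2 : ε * (K + 8) ≤ δ := by
    rw [← le_div_iff₀ hp, hε]
    exact min_le_right _ _
  have h2 := key ε hε0
  have e : (1 + ε) * K + (1 + 1 / ε) * (2 * ε) ^ 2 = K + ε * (K + 4 * ε + 4) := by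
    field_simp
    ring
  rw [e] at h2
  have h3 : ε * (K + 4 * ε + 4) ≤ ε * (K + 8) :=
    mul_le_mul_of_nonneg_left (by linarith) hε0.le
  linarith

/-- **Asymptotic independence, quantitative form.** -/
theorem lip_cov (hn : 1 ≤ n) {φ ψ : ℝ → ℝ} (hφ : LipschitzWith 1 φ) (hψ : LipschitzWith 1 ψ)
    {t : ℝ} (h0 : 0 ≤ t) (h1 : t ≤ 1) :
    |(∫ z, ∫ g, ∫ g', φ (freeEnergy n β (mixed n t z g)) *
        ψ (freeEnergy n β (mixed n t z g')) ∂(disorder n) ∂(disorder n) ∂(disorder n)) -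
      (∫ g, φ (freeEnergy n β g) ∂(disorder n)) * ∫ g, ψ (freeEnergy n β g) ∂(disorder n)| ≤
      crossCov n β t + β ^ 2 * t := by
  have hF := freeEnergy_dom n β
  have d1 := dom_lip' hφ hF
  have d2 := dom_lip' hψ hF
  have e := cc_mul d1 d2 h0 h1
  have e' : (∫ z, ∫ g, ∫ g', φ (freeEnergy n β (mixed n t z g)) *
        ψ (freeEnergy n β (mixed n t z g')) ∂(disorder n) ∂(disorder n) ∂(disorder n)) -
      (∫ g, φ (freeEnergy n β g) ∂(disorder n)) * ∫ g, ψ (freeEnergy n β g) ∂(disorder n) =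
      ∫ z, cc (fun g => φ (freeEnergy n β g)) t z *
        cc (fun g => ψ (freeEnergy n β g)) t z ∂(gpi (Pair n)) := e
  rw [e']
  have v1 := lip_var n β hn hφ h0 h1
  have v2 := lip_var n β hn hψ h0 h1
  have i1 := int_cc2 d1 h0 h1
  have i2 := int_cc2 d2 h0 h1
  have h3 : |∫ z, cc (fun g => φ (freeEnergy n β g)) t z *
        cc (fun g => ψ (freeEnergy n β g)) t z ∂(gpi (Pair n))| ≤
      ∫ z, (1 / 2 * cc (fun g => φ (freeEnergy n β g)) t z ^ 2 +
        1 / 2 * cc (fun g => ψ (freeEnergy n β g)) t z ^ 2) ∂(gpi (Pair n)) := by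
    refine (abs_integral_le_integral_abs).trans ?_
    refine integral_mono_of_nonneg (Filter.Eventually.of_forall fun z => abs_nonneg _)
      ((i1.const_mul _).add (i2.const_mul _)) (Filter.Eventually.of_forall fun z => ?_)
    simp only
    rw [abs_le]
    constructor <;> nlinarith [sq_nonneg (cc (fun g => φ (freeEnergy n β g)) t z -
      cc (fun g => ψ (freeEnergy n β g)) t z), sq_nonneg (cc (fun g => φ (freeEnergy n β g)) t z +
      cc (fun g => ψ (freeEnergy n β g)) t z)]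
  rw [integral_add (i1.const_mul _) (i2.const_mul _), integral_const_mul, integral_const_mul] at h3
  linarith

end sk

end Vale.Agent.P146.H605
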