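import Mathlib

/-!
# P146: log-concavity of the distribution function of a convex function of a Gaussian vector

`cdf_logconcave`: for a continuous convex function `F` of finitely many independent standard
Gaussian variables, `u ↦ P(F ≤ u)` is log-concave (Prekopa-Leindler).  The one-dimensional
Prekopa-Leindler inequality is the team's proof of `P254/Unc/PL.lean`, restated here.
-/

open MeasureTheory Set ProbabilityTheory
open scoped ENNReal NNReal Pointwise

namespace Vale.Agent.P146.H605.LogCc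

/-- One-dimensional Brunn-Minkowski, compact case. -/
theorem bm_one_compact {A B C : Set ℝ} {s t : ℝ} (hs : 0 < s) (ht : 0 < t)
    (hA : IsCompact A) (hB : IsCompact B)
    (nA : A.Nonempty) (nB : B.Nonempty) (h : ∀ a ∈ A, ∀ b ∈ B, s * a + t * b ∈ C) :
    ENNReal.ofReal s * volume A + ENNReal.ofReal t * volume B ≤ volume C := by
  obtain ⟨a, haA, ha⟩ := hA.exists_isGreatest nA
  obtain ⟨b, hbB, hb⟩ := hB.exists_isLeast nB
  have h1 : (fun x => x + t * b) '' (s • A) ⊆ C := by
    rintro _ ⟨_, ⟨x, hx, rfl⟩, rfl⟩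
    exact h x hx b hbB
  have h2 : (fun y => s * a + y) '' (t • B) ⊆ C := by
    rintro _ ⟨_, ⟨y, hy, rfl⟩, rfl⟩
    exact h a haA y hy
  have c1 : IsCompact ((fun x => x + t * b) '' (s • A)) := (hA.smul s).image (by fun_prop)
  have c2 : IsCompact ((fun y => s * a + y) '' (t • B)) := (hB.smul t).image (by fun_prop)
  have hdis : AEDisjoint volume ((fun x => x + t * b) '' (s • A))
      ((fun y => s * a + y) '' (t • B)) := by
    have : ((fun x => x + t * b) '' (s • A)) ∩ ((fun y => s * a + y) '' (t • B)) ⊆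
        {s * a + t * b} := by
      rintro _ ⟨⟨_, ⟨x, hx, rfl⟩, rfl⟩, ⟨_, ⟨y, hy, rfl⟩, hxy⟩⟩
      have hx' := ha hx
      have hy' := hb hy
      simp only [smul_eq_mul] at hxy
      simp only [mem_singleton_iff, smul_eq_mul]
      have e1 : s * x ≤ s * a := by gcongr
      have e2 : t * b ≤ t * y := by gcongr
      linarith
    exact measure_mono_null this (by simp)
  have v1 : volume ((fun x => x + t * b) '' (s • A)) = ENNReal.ofReal s * volume A := by
    rw [image_add_right, measure_preimage_add_right, Measure.addHaar_smul]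
    simp [abs_of_pos hs]
  have v2 : volume ((fun y => s * a + y) '' (t • B)) = ENNReal.ofReal t * volume B := by
    rw [image_add_left, measure_preimage_add, Measure.addHaar_smul]
    simp [abs_of_pos ht]
  calc ENNReal.ofReal s * volume A + ENNReal.ofReal t * volume B
      = volume ((fun x => x + t * b) '' (s • A)) + volume ((fun y => s * a + y) '' (t • B)) := by
        rw [v1, v2]
    _ = volume (((fun x => x + t * b) '' (s • A)) ∪ ((fun y => s * a + y) '' (t • B))) := by
        rw [measure_union₀ c2.measurableSet.nullMeasurableSet hdis]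
    _ ≤ volume C := measure_mono (union_subset h1 h2)

/-- One-dimensional Brunn-Minkowski. -/
theorem bm_one {A B C : Set ℝ} {s t : ℝ} (hs : 0 < s) (ht : 0 < t)
    (hA : MeasurableSet A) (hB : MeasurableSet B)
    (nA : A.Nonempty) (nB : B.Nonempty) (h : ∀ a ∈ A, ∀ b ∈ B, s * a + t * b ∈ C) :
    ENNReal.ofReal s * volume A + ENNReal.ofReal t * volume B ≤ volume C := by
  have hs0 : ENNReal.ofReal s ≠ 0 := by simpa using hs
  have ht0 : ENNReal.ofReal t ≠ 0 := by simpa using ht
  have key : ∀ K L : Set ℝ, IsCompact K → IsCompact L → K ⊆ A → L ⊆ B →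
      ENNReal.ofReal s * volume K + ENNReal.ofReal t * volume L ≤ volume C := by
    intro K L hK hL hKA hLB
    obtain ⟨a0, ha0⟩ := nA
    obtain ⟨b0, hb0⟩ := nB
    have hK' : IsCompact (K ∪ {a0}) := hK.union isCompact_singleton
    have hL' : IsCompact (L ∪ {b0}) := hL.union isCompact_singleton
    have := bm_one_compact hs ht hK' hL' ⟨a0, by simp⟩ ⟨b0, by simp⟩ (C := C) (by
      intro a ha b hb
      apply h
      · rcases ha with ha | ha
        · exact hKA ha
        · rw [mem_singleton_iff.mp ha]; exact ha0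
      · rcases hb with hb | hb
        · exact hLB hb
        · rw [mem_singleton_iff.mp hb]; exact hb0)
    refine le_trans (add_le_add ?_ ?_) this
    · gcongr; exact subset_union_left
    · gcongr; exact subset_union_left
  have key1 : ∀ K : Set ℝ, IsCompact K → K ⊆ A →
      ENNReal.ofReal s * volume K + ENNReal.ofReal t * volume B ≤ volume C := by
    intro K hK hKA
    have : volume B = ⨆ (L) (_ : L ⊆ B) (_ : IsCompact L), volume L := hB.measure_eq_iSup_isCompact _
    rw [this]
    simp_rw [ENNReal.mul_iSup]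
    by_cases htop : volume C = ∞
    · rw [htop]; exact le_top
    have hKfin : ENNReal.ofReal s * volume K ≠ ∞ :=
      ENNReal.mul_ne_top ENNReal.ofReal_ne_top hK.measure_lt_top.ne
    have h0 : ENNReal.ofReal s * volume K ≤ volume C := by
      simpa using key K ∅ hK isCompact_empty hKA (empty_subset _)
    refine le_trans (add_le_add_right (?_ : _ ≤ volume C - ENNReal.ofReal s * volume K) _) ?_
    · refine iSup_le fun L => iSup_le fun hL => iSup_le fun hLc => ?_
      exact ENNReal.le_sub_of_add_le_left hKfin (key K L hK hLc hKA hL)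
    · rw [add_tsub_cancel_of_le h0]
  by_cases htop : volume C = ∞
  · rw [htop]; exact le_top
  have h0 : ENNReal.ofReal t * volume B ≤ volume C := by
    simpa using key1 ∅ isCompact_empty (empty_subset _)
  have hBfin : ENNReal.ofReal t * volume B ≠ ∞ := ne_top_of_le_ne_top htop h0
  have : volume A = ⨆ (L) (_ : L ⊆ A) (_ : IsCompact L), volume L := hA.measure_eq_iSup_isCompact _
  rw [this]
  simp_rw [ENNReal.mul_iSup]
  refine le_trans (add_le_add_left (?_ : _ ≤ volume C - ENNReal.ofReal t * volume B) _) ?_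
  · refine iSup_le fun L => iSup_le fun hL => iSup_le fun hLc => ?_
    exact ENNReal.le_sub_of_add_le_right hBfin (key1 L hLc hL)
  · rw [tsub_add_cancel_of_le h0]


/-- Normalised one-dimensional Prekopa-Leindler. -/
theorem pl_one_normalized {s t : ℝ} (hs : 0 < s) (ht : 0 < t) (hst : s + t = 1)
    (f g h : ℝ → ℝ≥0∞) (hf : Measurable f) (hg : Measurable g)
    (hh : Measurable h) (hf1 : ⨆ x, f x = 1) (hg1 : ⨆ x, g x = 1)
    (hfg : ∀ x y, f x ^ s * g y ^ t ≤ h (s * x + t * y)) :
    ENNReal.ofReal s * (∫⁻ x, f x) + ENNReal.ofReal t * (∫⁻ x, g x) ≤ ∫⁻ x, h x := by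
  have hfle : ∀ x, f x ≤ 1 := fun x => hf1 ▸ le_iSup f x
  have hgle : ∀ x, g x ≤ 1 := fun x => hg1 ▸ le_iSup g x
  set k : ℝ → ℝ≥0∞ := fun x => min (h x) 1 with hk
  have hkm : Measurable k := hh.min measurable_const
  have hk1 : ∀ x, k x ≤ 1 := fun x => min_le_right _ _
  have hfgk : ∀ x y, f x ^ s * g y ^ t ≤ k (s * x + t * y) := by
    intro x y
    have h1 : f x ^ s * g y ^ t ≤ 1 := by
      calc f x ^ s * g y ^ t ≤ 1 * 1 :=
            mul_le_mul' (ENNReal.rpow_le_one (hfle x) hs.le) (ENNReal.rpow_le_one (hgle y) ht.le)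
        _ = 1 := by simp
    simp only [hk]
    exact le_min (hfg x y) h1
  have hcake : ∀ u : ℝ → ℝ≥0∞, Measurable u → (∀ x, u x ≤ 1) →
      ∫⁻ x, u x = ∫⁻ r in Ioi (0 : ℝ), volume {x | r < (u x).toReal} := by
    intro u hu hu1
    rw [← lintegral_eq_lintegral_meas_lt volume (Filter.Eventually.of_forall fun x => by
      simp) hu.ennreal_toReal.aemeasurable]
    apply lintegral_congr
    intro x
    rw [ENNReal.ofReal_toReal (ne_top_of_le_ne_top ENNReal.one_ne_top (hu1 x))]
  have hkh : ∫⁻ x, k x ≤ ∫⁻ x, h x := lintegral_mono fun x => min_le_left _ _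
  refine le_trans ?_ hkh
  rw [hcake f hf hfle, hcake g hg hgle, hcake k hkm hk1]
  have hmeas : ∀ u : ℝ → ℝ≥0∞, Measurable (fun r : ℝ => volume {x | r < (u x).toReal}) := by
    intro u
    apply Antitone.measurable
    intro a b hab
    exact measure_mono fun x hx => lt_of_le_of_lt hab hx
  rw [← lintegral_const_mul _ (hmeas f), ← lintegral_const_mul _ (hmeas g),
    ← lintegral_add_left ((hmeas f).const_mul _)]
  refine setLIntegral_mono' measurableSet_Ioi ?_
  intro r hr
  have hr0 : 0 < r := hr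
  rcases lt_or_ge r 1 with hr1 | hr1
  · apply bm_one hs ht
    · exact measurableSet_lt measurable_const hf.ennreal_toReal
    · exact measurableSet_lt measurable_const hg.ennreal_toReal
    · have : ENNReal.ofReal r < ⨆ x, f x := by
        rw [hf1]
        rw [← ENNReal.ofReal_one]
        exact (ENNReal.ofReal_lt_ofReal_iff one_pos).2 hr1
      obtain ⟨x, hx⟩ := lt_iSup_iff.1 this
      refine ⟨x, ?_⟩
      exact (ENNReal.ofReal_lt_iff_lt_toReal hr0.le
        (ne_top_of_le_ne_top ENNReal.one_ne_top (hfle x))).1 hx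
    · have : ENNReal.ofReal r < ⨆ x, g x := by
        rw [hg1]
        rw [← ENNReal.ofReal_one]
        exact (ENNReal.ofReal_lt_ofReal_iff one_pos).2 hr1
      obtain ⟨x, hx⟩ := lt_iSup_iff.1 this
      refine ⟨x, ?_⟩
      exact (ENNReal.ofReal_lt_iff_lt_toReal hr0.le
        (ne_top_of_le_ne_top ENNReal.one_ne_top (hgle x))).1 hx
    · intro a ha b hb
      simp only [mem_ofPred_eq] at ha hb ⊢
      have h3 := ENNReal.toReal_mono (ne_top_of_le_ne_top ENNReal.one_ne_top (hk1 _)) (hfgk a b)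
      rw [ENNReal.toReal_mul, ← ENNReal.toReal_rpow, ← ENNReal.toReal_rpow] at h3
      have h4 : r < (k (s * a + t * b)).toReal := by
        calc r = r ^ s * r ^ t := by
              rw [← Real.rpow_add hr0, hst, Real.rpow_one]
          _ < (f a).toReal ^ s * (g b).toReal ^ t := by
            apply mul_lt_mul''
            · exact Real.rpow_lt_rpow hr0.le ha hs
            · exact Real.rpow_lt_rpow hr0.le hb ht
            · positivity
            · positivity
          _ ≤ _ := h3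
      exact h4
  · have e1 : {x | r < (f x).toReal} = ∅ := by
      ext x
      simp only [mem_ofPred_eq, mem_empty_iff_false, iff_false, not_lt]
      refine le_trans ?_ hr1
      have := ENNReal.toReal_mono ENNReal.one_ne_top (hfle x)
      simpa using this
    have e2 : {x | r < (g x).toReal} = ∅ := by
      ext x
      simp only [mem_ofPred_eq, mem_empty_iff_false, iff_false, not_lt]
      refine le_trans ?_ hr1
      have := ENNReal.toReal_mono ENNReal.one_ne_top (hgle x)
      simpa using this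
    rw [e1, e2]
    simp

theorem ennreal_amgm {s t : ℝ} (hs : 0 < s) (ht : 0 < t) (hst : s + t = 1) (x y : ℝ≥0∞) :
    x ^ s * y ^ t ≤ ENNReal.ofReal s * x + ENNReal.ofReal t * y := by
  have hs0 : ENNReal.ofReal s ≠ 0 := by simpa using hs
  have ht0 : ENNReal.ofReal t ≠ 0 := by simpa using ht
  by_cases hx : x = ∞
  · subst hx; simp [ENNReal.mul_top hs0]
  by_cases hy : y = ∞
  · subst hy; simp [ENNReal.mul_top ht0]
  lift x to ℝ≥0 using hx
  lift y to ℝ≥0 using hy
  have := NNReal.geom_mean_le_arith_mean2_weighted s.toNNReal t.toNNReal x y (by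
    rw [← Real.toNNReal_add hs.le ht.le, hst, Real.toNNReal_one])
  rw [Real.coe_toNNReal s hs.le, Real.coe_toNNReal t ht.le] at this
  rw [ENNReal.ofReal, ENNReal.ofReal, ← ENNReal.coe_rpow_of_nonneg _ hs.le,
    ← ENNReal.coe_rpow_of_nonneg _ ht.le]
  exact_mod_cast this

theorem pl_one_bdd {s t : ℝ} (hs : 0 < s) (ht : 0 < t) (hst : s + t = 1)
    (f g h : ℝ → ℝ≥0∞) (hf : Measurable f) (hg : Measurable g)
    (hh : Measurable h) (hf1 : ⨆ x, f x ≠ ∞) (hg1 : ⨆ x, g x ≠ ∞)
    (hfg : ∀ x y, f x ^ s * g y ^ t ≤ h (s * x + t * y)) :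
    (∫⁻ x, f x) ^ s * (∫⁻ x, g x) ^ t ≤ ∫⁻ x, h x := by
  by_cases hf0 : ⨆ x, f x = 0
  · have : f = fun _ => 0 := by
      funext x
      have := le_iSup f x
      rw [hf0] at this
      simpa using this
    rw [this]
    simp [hs]
  by_cases hg0 : ⨆ x, g x = 0
  · have : g = fun _ => 0 := by
      funext x
      have := le_iSup g x
      rw [hg0] at this
      simpa using this
    rw [this]
    simp [ht]
  set a := ⨆ x, f x with ha
  set b := ⨆ x, g x with hb
  have has : a ^ s ≠ 0 := by simp [hf0, hf1, ENNReal.rpow_eq_zero_iff]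
  have has' : a ^ s ≠ ∞ := ENNReal.rpow_ne_top_of_nonneg hs.le hf1
  have hbt : b ^ t ≠ 0 := by simp [hg0, hg1, ENNReal.rpow_eq_zero_iff]
  have hbt' : b ^ t ≠ ∞ := ENNReal.rpow_ne_top_of_nonneg ht.le hg1
  set c := a ^ s * b ^ t with hc
  have hc0 : c ≠ 0 := mul_ne_zero has hbt
  have hc1 : c ≠ ∞ := ENNReal.mul_ne_top has' hbt'
  have key := pl_one_normalized hs ht hst (fun x => a⁻¹ * f x) (fun x => b⁻¹ * g x)
    (fun x => c⁻¹ * h x) (hf.const_mul _) (hg.const_mul _) (hh.const_mul _)
    (by rw [← ENNReal.mul_iSup, ← ha]; exact ENNReal.inv_mul_cancel hf0 hf1)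
    (by rw [← ENNReal.mul_iSup, ← hb]; exact ENNReal.inv_mul_cancel hg0 hg1)
    (by
      intro x y
      rw [ENNReal.mul_rpow_of_nonneg _ _ hs.le, ENNReal.mul_rpow_of_nonneg _ _ ht.le,
        ENNReal.inv_rpow, ENNReal.inv_rpow, hc, ENNReal.mul_inv (Or.inl has) (Or.inl has')]
      calc (a ^ s)⁻¹ * f x ^ s * ((b ^ t)⁻¹ * g y ^ t)
          = ((a ^ s)⁻¹ * (b ^ t)⁻¹) * (f x ^ s * g y ^ t) := by ring
        _ ≤ _ := by gcongr; exact hfg x y)
  rw [lintegral_const_mul _ hf, lintegral_const_mul _ hg, lintegral_const_mul _ hh] at key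
  set F := ∫⁻ x, f x
  set G := ∫⁻ x, g x
  set H := ∫⁻ x, h x
  have h5 := le_trans (ennreal_amgm hs ht hst _ _) key
  rw [ENNReal.mul_rpow_of_nonneg _ _ hs.le, ENNReal.mul_rpow_of_nonneg _ _ ht.le,
        ENNReal.inv_rpow, ENNReal.inv_rpow] at h5
  have h6 : c * ((a ^ s)⁻¹ * F ^ s * ((b ^ t)⁻¹ * G ^ t)) ≤ c * (c⁻¹ * H) := by gcongr
  have h7 : c * ((a ^ s)⁻¹ * F ^ s * ((b ^ t)⁻¹ * G ^ t)) = F ^ s * G ^ t := by
    rw [hc]
    calc a ^ s * b ^ t * ((a ^ s)⁻¹ * F ^ s * ((b ^ t)⁻¹ * G ^ t))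
        = (a ^ s * (a ^ s)⁻¹) * (b ^ t * (b ^ t)⁻¹) * (F ^ s * G ^ t) := by ring
      _ = _ := by
        rw [ENNReal.mul_inv_cancel has has', ENNReal.mul_inv_cancel hbt hbt']; simp
  rw [h7, ← mul_assoc, ENNReal.mul_inv_cancel hc0 hc1, one_mul] at h6
  exact h6

theorem pl_one {s t : ℝ} (hs : 0 < s) (ht : 0 < t) (hst : s + t = 1)
    (f g h : ℝ → ℝ≥0∞) (hf : Measurable f) (hg : Measurable g)
    (hh : Measurable h) (hfg : ∀ x y, f x ^ s * g y ^ t ≤ h (s * x + t * y)) :
    (∫⁻ x, f x) ^ s * (∫⁻ x, g x) ^ t ≤ ∫⁻ x, h x := by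
  have hcut : ∀ u : ℝ → ℝ≥0∞, Measurable u →
      ∫⁻ x, u x = ⨆ n : ℕ, ∫⁻ x, min (u x) n := by
    intro u hu
    rw [← lintegral_iSup (fun n => hu.min measurable_const)
      (fun m n hmn x => min_le_min_left _ (by exact_mod_cast hmn))]
    apply lintegral_congr
    intro x
    apply le_antisymm
    · by_cases hx : u x = ∞
      · rw [hx]
        simp only [top_le_iff, le_top, inf_of_le_right]
        exact ENNReal.iSup_natCast
      · obtain ⟨n, hn⟩ := ENNReal.exists_nat_gt hx
        refine le_trans ?_ (le_iSup _ n)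
        rw [min_eq_left hn.le]
    · exact iSup_le fun n => min_le_left _ _
  have hsup : ∀ (u : ℝ → ℝ≥0∞) (n : ℕ), ⨆ x, min (u x) (n : ℝ≥0∞) ≠ ∞ := by
    intro u n
    refine ne_top_of_le_ne_top (ENNReal.natCast_ne_top n) (iSup_le fun x => min_le_right _ _)
  have hpow : ∀ (r : ℝ) (_ : 0 < r) (u : ℕ → ℝ≥0∞), (⨆ n, u n) ^ r = ⨆ n, u n ^ r := by
    intro r hr u
    exact (ENNReal.orderIsoRpow r hr).map_iSup u
  rw [hcut f hf, hcut g hg, hpow s hs, hpow t ht, ENNReal.iSup_mul]
  refine iSup_le fun n => ?_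
  rw [ENNReal.mul_iSup]
  refine iSup_le fun m => ?_
  refine pl_one_bdd hs ht hst _ _ h (hf.min measurable_const) (hg.min measurable_const) hh
    (hsup f n) (hsup g m) ?_
  intro x y
  exact le_trans (mul_le_mul' (ENNReal.rpow_le_rpow (min_le_left _ _) hs.le)
    (ENNReal.rpow_le_rpow (min_le_left _ _) ht.le)) (hfg x y)


/-- The standard Gaussian density is log-concave. -/
theorem pdf_logconcave {s t : ℝ} (hs : 0 < s) (ht : 0 < t) (hst : s + t = 1) (x y : ℝ) :
    gaussianPDF 0 1 x ^ s * gaussianPDF 0 1 y ^ t ≤ gaussianPDF 0 1 (s * x + t * y) := by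
  unfold gaussianPDF
  have h1 : ∀ z : ℝ, 0 < gaussianPDFReal 0 1 z := fun z => gaussianPDFReal_pos 0 1 z one_ne_zero
  rw [ENNReal.ofReal_rpow_of_pos (h1 x), ENNReal.ofReal_rpow_of_pos (h1 y),
    ← ENNReal.ofReal_mul (Real.rpow_nonneg (h1 x).le s)]
  apply ENNReal.ofReal_le_ofReal
  unfold gaussianPDFReal
  set c : ℝ := (√(2 * Real.pi * ((1 : ℝ≥0) : ℝ)))⁻¹ with hc
  have hc0 : 0 < c := by rw [hc]; positivity
  rw [Real.mul_rpow hc0.le (Real.exp_pos _).le, Real.mul_rpow hc0.le (Real.exp_pos _).le,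
    ← Real.exp_mul, ← Real.exp_mul]
  have e1 : c ^ s * Real.exp (-(x - 0) ^ 2 / (2 * ((1 : ℝ≥0) : ℝ)) * s) *
      (c ^ t * Real.exp (-(y - 0) ^ 2 / (2 * ((1 : ℝ≥0) : ℝ)) * t)) =
      c * Real.exp (-(x - 0) ^ 2 / (2 * ((1 : ℝ≥0) : ℝ)) * s +
        -(y - 0) ^ 2 / (2 * ((1 : ℝ≥0) : ℝ)) * t) := by
    rw [Real.exp_add]
    have : c = c ^ s * c ^ t := by rw [← Real.rpow_add hc0, hst, Real.rpow_one]
    calc _ = (c ^ s * c ^ t) * (Real.exp (-(x - 0) ^ 2 / (2 * ((1 : ℝ≥0) : ℝ)) * s) *
      Real.exp (-(y - 0) ^ 2 / (2 * ((1 : ℝ≥0) : ℝ)) * t)) := by ring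
      _ = _ := by rw [← this]
  rw [e1]
  apply mul_le_mul_of_nonneg_left _ hc0.le
  apply Real.exp_le_exp.2
  have ht' : t = 1 - s := by linarith
  simp only [NNReal.coe_one, sub_zero, mul_one]
  subst ht'
  nlinarith [mul_nonneg (mul_nonneg hs.le ht.le) (sq_nonneg (x - y))]

/-- Prekopa-Leindler for the one-dimensional standard Gaussian measure. -/
theorem pl_gauss_one {s t : ℝ} (hs : 0 < s) (ht : 0 < t) (hst : s + t = 1)
    (f g h : ℝ → ℝ≥0∞) (hf : Measurable f) (hg : Measurable g)
    (hh : Measurable h) (hfg : ∀ x y, f x ^ s * g y ^ t ≤ h (s * x + t * y)) :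
    (∫⁻ x, f x ∂gaussianReal 0 1) ^ s * (∫⁻ x, g x ∂gaussianReal 0 1) ^ t ≤
      ∫⁻ x, h x ∂gaussianReal 0 1 := by
  have hp : Measurable (gaussianPDF 0 1) := measurable_gaussianPDF 0 1
  rw [gaussianReal_of_var_ne_zero 0 one_ne_zero, lintegral_withDensity_eq_lintegral_mul _ hp hf,
    lintegral_withDensity_eq_lintegral_mul _ hp hg, lintegral_withDensity_eq_lintegral_mul _ hp hh]
  refine pl_one hs ht hst _ _ _ (hp.mul hf) (hp.mul hg) (hp.mul hh) fun x y => ?_
  simp only [Pi.mul_apply]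
  rw [ENNReal.mul_rpow_of_nonneg _ _ hs.le, ENNReal.mul_rpow_of_nonneg _ _ ht.le]
  calc gaussianPDF 0 1 x ^ s * f x ^ s * (gaussianPDF 0 1 y ^ t * g y ^ t)
      = (gaussianPDF 0 1 x ^ s * gaussianPDF 0 1 y ^ t) * (f x ^ s * g y ^ t) := by ring
    _ ≤ _ := mul_le_mul' (pdf_logconcave hs ht hst x y) (hfg x y)

/-- Prekopa-Leindler for the standard Gaussian measure on `Fin n → ℝ`. -/
theorem pl_gauss_fin {s t : ℝ} (hs : 0 < s) (ht : 0 < t) (hst : s + t = 1) (n : ℕ) :
    ∀ (f g h : (Fin n → ℝ) → ℝ≥0∞), Measurable f → Measurable g →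
    Measurable h → (∀ x y, f x ^ s * g y ^ t ≤ h (s • x + t • y)) →
    (∫⁻ x, f x ∂Measure.pi fun _ : Fin n => gaussianReal 0 1) ^ s *
      (∫⁻ x, g x ∂Measure.pi fun _ : Fin n => gaussianReal 0 1) ^ t ≤
      ∫⁻ x, h x ∂Measure.pi fun _ : Fin n => gaussianReal 0 1 := by
  induction n with
  | zero =>
    intro f g h hf hg hh hfg
    rw [lintegral_unique, lintegral_unique, lintegral_unique, measure_univ]
    simp only [mul_one]
    exact (hfg _ _).trans (le_of_eq (congrArg h (Subsingleton.elim _ _)))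
  | succ n ih =>
    intro f g h hf hg hh hfg
    set e := MeasurableEquiv.piFinSuccAbove (fun _ : Fin (n + 1) => ℝ) 0 with he
    have hvp : MeasurePreserving e (Measure.pi fun _ : Fin (n + 1) => gaussianReal 0 1)
        ((gaussianReal 0 1).prod (Measure.pi fun _ : Fin n => gaussianReal 0 1)) :=
      measurePreserving_piFinSuccAbove (fun _ : Fin (n + 1) => gaussianReal 0 1) 0
    have hsplit : ∀ u : (Fin (n + 1) → ℝ) → ℝ≥0∞, Measurable u →
        ∫⁻ x, u x ∂(Measure.pi fun _ : Fin (n + 1) => gaussianReal 0 1) =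
        ∫⁻ a : ℝ, ∫⁻ x : Fin n → ℝ, u (e.symm (a, x))
          ∂(Measure.pi fun _ : Fin n => gaussianReal 0 1) ∂gaussianReal 0 1 := by
      intro u hu
      rw [← hvp.symm.lintegral_comp hu]
      exact lintegral_prod _ (hu.comp e.symm.measurable).aemeasurable
    have hmid : ∀ (a b : ℝ) (x y : Fin n → ℝ),
        s • e.symm (a, x) + t • e.symm (b, y) = e.symm (s * a + t * b, s • x + t • y) := by
      intro a b x y
      funext i
      refine Fin.cases ?_ (fun j => ?_) i
      · simp [he, MeasurableEquiv.piFinSuccAbove]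
      · simp [he, MeasurableEquiv.piFinSuccAbove]
    have hm2 : ∀ u : (Fin (n + 1) → ℝ) → ℝ≥0∞, Measurable u →
        Measurable fun a : ℝ => ∫⁻ x : Fin n → ℝ, u (e.symm (a, x))
          ∂(Measure.pi fun _ : Fin n => gaussianReal 0 1) := by
      intro u hu
      exact (hu.comp e.symm.measurable).lintegral_prod_right'
    rw [hsplit f hf, hsplit g hg, hsplit h hh]
    apply pl_gauss_one hs ht hst _ _ _ (hm2 f hf) (hm2 g hg) (hm2 h hh)
    intro a b
    have hsec : ∀ (u : (Fin (n + 1) → ℝ) → ℝ≥0∞) (c : ℝ), Measurable u →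
        Measurable fun x : Fin n → ℝ => u (e.symm (c, x)) := by
      intro u c hu
      exact hu.comp (e.symm.measurable.comp measurable_prodMk_left)
    apply ih _ _ _ (hsec f a hf) (hsec g b hg) (hsec h _ hh)
    intro x y
    have := hfg (e.symm (a, x)) (e.symm (b, y))
    rwa [hmid] at this

/-- Prekopa-Leindler for the standard Gaussian measure on `ι → ℝ`. -/
theorem pl_gauss {ι : Type*} [Fintype ι] {s t : ℝ} (hs : 0 < s) (ht : 0 < t) (hst : s + t = 1)
    (f g h : (ι → ℝ) → ℝ≥0∞) (hf : Measurable f) (hg : Measurable g)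
    (hh : Measurable h) (hfg : ∀ x y, f x ^ s * g y ^ t ≤ h (s • x + t • y)) :
    (∫⁻ x, f x ∂Measure.pi fun _ : ι => gaussianReal 0 1) ^ s *
      (∫⁻ x, g x ∂Measure.pi fun _ : ι => gaussianReal 0 1) ^ t ≤
      ∫⁻ x, h x ∂Measure.pi fun _ : ι => gaussianReal 0 1 := by
  set e : (Fin (Fintype.card ι) → ℝ) ≃ᵐ (ι → ℝ) :=
    MeasurableEquiv.piCongrLeft (fun _ : ι => ℝ) (Fintype.equivFin ι).symm with he
  have hvp : MeasurePreserving e (Measure.pi fun _ : Fin (Fintype.card ι) => gaussianReal 0 1)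
      (Measure.pi fun _ : ι => gaussianReal 0 1) :=
    measurePreserving_piCongrLeft (fun _ : ι => gaussianReal 0 1) (Fintype.equivFin ι).symm
  have hsplit : ∀ u : (ι → ℝ) → ℝ≥0∞, Measurable u →
      ∫⁻ x, u x ∂(Measure.pi fun _ : ι => gaussianReal 0 1) =
      ∫⁻ x, u (e x) ∂(Measure.pi fun _ : Fin (Fintype.card ι) => gaussianReal 0 1) := by
    intro u hu
    rw [← hvp.lintegral_comp hu]
  have happ : ∀ (x : Fin (Fintype.card ι) → ℝ) (i : ι), e x i = x (Fintype.equivFin ι i) := by
    intro x i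
    have := Equiv.piCongrLeft_apply_apply (P := fun _ : ι => ℝ) (Fintype.equivFin ι).symm x
      (Fintype.equivFin ι i)
    rw [Equiv.symm_apply_apply] at this
    exact this
  have hmid : ∀ (x y : Fin (Fintype.card ι) → ℝ), s • e x + t • e y = e (s • x + t • y) := by
    intro x y
    funext i
    simp only [Pi.add_apply, Pi.smul_apply, happ]
  rw [hsplit f hf, hsplit g hg, hsplit h hh]
  refine pl_gauss_fin hs ht hst _ _ _ _ (hf.comp e.measurable) (hg.comp e.measurable)
    (hh.comp e.measurable) fun x y => ?_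
  have := hfg (e x) (e y)
  rwa [hmid] at this

end Vale.Agent.P146.H605.LogCc

namespace Vale.Agent.P146.H605

/-- The distribution function of a continuous convex function of a standard Gaussian vector
is log-concave. -/
theorem cdf_logconcave {ι : Type*} [Fintype ι] {F : (ι → ℝ) → ℝ} (hc : Continuous F)
    (hF : ConvexOn ℝ Set.univ F) {s t : ℝ} (hs : 0 < s) (ht : 0 < t) (hst : s + t = 1)
    (u v : ℝ) :
    (Measure.pi fun _ : ι => gaussianReal 0 1).real {g | F g ≤ u} ^ s *
      (Measure.pi fun _ : ι => gaussianReal 0 1).real {g | F g ≤ v} ^ t ≤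
      (Measure.pi fun _ : ι => gaussianReal 0 1).real {g | F g ≤ s * u + t * v} := by
  have hm : ∀ w : ℝ, MeasurableSet {g : ι → ℝ | F g ≤ w} := fun w =>
    measurableSet_le hc.measurable measurable_const
  have key := LogCc.pl_gauss hs ht hst ({g : ι → ℝ | F g ≤ u}.indicator 1)
    ({g : ι → ℝ | F g ≤ v}.indicator 1) ({g : ι → ℝ | F g ≤ s * u + t * v}.indicator 1)
    (measurable_one.indicator (hm _)) (measurable_one.indicator (hm _))
    (measurable_one.indicator (hm _)) (by
      intro x y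
      by_cases hx : x ∈ {g : ι → ℝ | F g ≤ u}
      · by_cases hy : y ∈ {g : ι → ℝ | F g ≤ v}
        · have h3 : s • x + t • y ∈ {g : ι → ℝ | F g ≤ s * u + t * v} := by
            have h4 := hF.2 (mem_univ x) (mem_univ y) hs.le ht.le hst
            simp only [smul_eq_mul] at h4
            have h5 : s * F x ≤ s * u := mul_le_mul_of_nonneg_left hx hs.le
            have h6 : t * F y ≤ t * v := mul_le_mul_of_nonneg_left hy ht.le
            exact h4.trans (add_le_add h5 h6)
          simp [indicator_of_mem hx, indicator_of_mem hy, indicator_of_mem h3]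
        · simp [indicator_of_notMem hy, ht]
      · simp [indicator_of_notMem hx, hs])
  rw [lintegral_indicator_one (hm _), lintegral_indicator_one (hm _),
    lintegral_indicator_one (hm _)] at key
  have h7 := ENNReal.toReal_mono (measure_ne_top _ _) key
  rw [ENNReal.toReal_mul, ← ENNReal.toReal_rpow, ← ENNReal.toReal_rpow] at h7
  exact h7

end Vale.Agent.P146.H605
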