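import Mathlib

/-! # The lower tail of a variable with log-concave distribution function -/

open MeasureTheory ProbabilityTheory

namespace Vale.Agent.P146.H605

/-- Cantelli's inequality at two standard deviations. -/
private lemma cantelli_two {Ω : Type*} [MeasurableSpace Ω] {μ : Measure Ω} [IsProbabilityMeasure μ]
    {G : Ω → ℝ} (hG : MemLp G 2 μ) (h0 : ∫ w, G w ∂μ = 0) {σ : ℝ} (hσ : 0 < σ)
    (h2 : ∫ w, G w ^ 2 ∂μ = σ ^ 2) : μ.real {w | 2 * σ ≤ G w} ≤ 1 / 5 := by
  have hi1 : Integrable G μ := hG.integrable one_le_two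
  have hi2 : Integrable (fun w => G w ^ 2) μ := hG.integrable_sq
  have hi4 : Integrable (fun w => σ * G w) μ := hi1.const_mul σ
  have hi5 : Integrable (fun w => σ * G w + σ ^ 2 / 4) μ := hi4.add (integrable_const _)
  have hi3 : Integrable (fun w => G w ^ 2 + (σ * G w + σ ^ 2 / 4)) μ := hi2.add hi5
  have h3 : ∫ w, (G w ^ 2 + (σ * G w + σ ^ 2 / 4)) ∂μ = 5 / 4 * σ ^ 2 := by
    rw [integral_add hi2 hi5,
      integral_add hi4 (integrable_const _), integral_const_mul, h0, h2,
      integral_const, probReal_univ, one_smul]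
    ring
  have h4 := mul_meas_ge_le_integral_of_nonneg (μ := μ)
    (f := fun w => G w ^ 2 + (σ * G w + σ ^ 2 / 4))
    (Filter.Eventually.of_forall fun w => by
      have : G w ^ 2 + (σ * G w + σ ^ 2 / 4) = (G w + σ / 2) ^ 2 := by ring
      simp only [Pi.zero_apply, this]
      positivity) hi3 (25 / 4 * σ ^ 2)
  rw [h3] at h4
  have h5 : μ.real {w | 2 * σ ≤ G w} ≤
      μ.real {w | 25 / 4 * σ ^ 2 ≤ G w ^ 2 + (σ * G w + σ ^ 2 / 4)} := by
    refine measureReal_mono fun w (hw : 2 * σ ≤ G w) => ?_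
    show 25 / 4 * σ ^ 2 ≤ G w ^ 2 + (σ * G w + σ ^ 2 / 4)
    nlinarith
  have h6 : 0 < σ ^ 2 := by positivity
  have h7 : 25 / 4 * σ ^ 2 * μ.real {w | 2 * σ ≤ G w} ≤ 5 / 4 * σ ^ 2 :=
    (mul_le_mul_of_nonneg_left h5 (by positivity)).trans h4
  nlinarith

/-- Exponential lower tail. -/
theorem lower_tail {Ω : Type*} [MeasurableSpace Ω] {μ : Measure Ω} [IsProbabilityMeasure μ]
    {F : Ω → ℝ} (hF : MemLp F 2 μ) (hV : 0 < Var[F; μ])
    (hlc : ∀ s t u v : ℝ, 0 < s → 0 < t → s + t = 1 →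
      μ.real {w | F w ≤ u} ^ s * μ.real {w | F w ≤ v} ^ t ≤ μ.real {w | F w ≤ s * u + t * v})
    {r : ℝ} (hr : 0 ≤ r) :
    μ.real {w | F w ≤ (∫ w, F w ∂μ) - r * Real.sqrt (Var[F; μ])} ≤ 2 * Real.exp (-(r / 3)) := by
  have hlog := Real.log_two_gt_d9
  rcases le_or_gt r 2 with hr2 | hr2
  · refine measureReal_le_one.trans ?_
    have h1 : Real.exp (-Real.log 2) ≤ Real.exp (-(r / 3)) := by
      apply Real.exp_le_exp.2
      linarith
    rw [Real.exp_neg, Real.exp_log two_pos] at h1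
    linarith
  set m : ℝ := ∫ w, F w ∂μ with hm
  set σ : ℝ := Real.sqrt (Var[F; μ]) with hσ
  have hσ0 : 0 < σ := Real.sqrt_pos.2 hV
  have hσ2 : σ ^ 2 = Var[F; μ] := Real.sq_sqrt hV.le
  have hi : Integrable F μ := hF.integrable one_le_two
  have hvar : ∫ w, (F w - m) ^ 2 ∂μ = σ ^ 2 := by
    rw [hσ2, variance_eq_integral hF.aestronglyMeasurable.aemeasurable]
  have hc : MemLp (fun w => F w - m) 2 μ := hF.sub (memLp_const m)
  -- the two Cantelli bounds
  have hup : μ.real {w | 2 * σ ≤ F w - m} ≤ 1 / 5 := by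
    refine cantelli_two hc ?_ hσ0 hvar
    rw [integral_sub hi (integrable_const _), integral_const, probReal_univ, one_smul, ← hm,
      sub_self]
  have hlow : μ.real {w | F w ≤ m - 2 * σ} ≤ 1 / 5 := by
    have h1 := cantelli_two (G := fun w => m - F w) ((memLp_const m).sub hF) (by
      rw [integral_sub (integrable_const _) hi, integral_const, probReal_univ, one_smul, ← hm,
        sub_self]) hσ0 (by
      rw [← hvar]
      congr 1
      funext w
      ring)
    convert h1 using 3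
    ext w
    constructor <;> intro h <;> linarith
  have hup' : 4 / 5 ≤ μ.real {w | F w ≤ m + 2 * σ} := by
    have h1 : (1 : ℝ) ≤ μ.real {w | F w ≤ m + 2 * σ} + μ.real {w | 2 * σ ≤ F w - m} := by
      rw [← probReal_univ (μ := μ)]
      refine (measureReal_mono ?_).trans (measureReal_union_le _ _)
      intro w _
      rcases le_total (F w) (m + 2 * σ) with h | h
      · exact Or.inl h
      · exact Or.inr (show 2 * σ ≤ F w - m by linarith)
    linarith
  -- interpolation
  set l : ℝ := 4 / (2 + r) with hl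
  have hl0 : 0 < l := by positivity
  have hl1 : l < 1 := by
    rw [hl, div_lt_one (by linarith)]
    linarith
  have h1 := hlc l (1 - l) (m - r * σ) (m + 2 * σ) hl0 (by linarith) (by ring)
  have h2 : l * (m - r * σ) + (1 - l) * (m + 2 * σ) = m - 2 * σ := by
    have : l * (2 + r) = 4 := by
      rw [hl]
      field_simp
    linear_combination (-σ) * this
  rw [h2] at h1
  set p : ℝ := μ.real {w | F w ≤ m - r * σ} with hp
  have hp0 : 0 ≤ p := measureReal_nonneg
  have h3 : (4 / 5 : ℝ) ≤ μ.real {w | F w ≤ m + 2 * σ} ^ (1 - l) := by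
    calc (4 / 5 : ℝ) = (4 / 5 : ℝ) ^ (1 : ℝ) := (Real.rpow_one _).symm
      _ ≤ (4 / 5 : ℝ) ^ (1 - l) :=
          Real.rpow_le_rpow_of_exponent_ge (by norm_num) (by norm_num) (by linarith)
      _ ≤ _ := Real.rpow_le_rpow (by norm_num) hup' (by linarith)
  have h4 : p ^ l ≤ 1 / 4 := by
    have h5 : p ^ l * (4 / 5) ≤ 1 / 5 :=
      (mul_le_mul_of_nonneg_left h3 (Real.rpow_nonneg hp0 _)).trans (h1.trans hlow)
    linarith
  have h5 : p ≤ (1 / 4 : ℝ) ^ l⁻¹ := by
    rw [← Real.rpow_rpow_inv hp0 hl0.ne']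
    exact Real.rpow_le_rpow (Real.rpow_nonneg hp0 _) h4 (inv_nonneg.2 hl0.le)
  refine h5.trans ?_
  have h6 : Real.log (1 / 4) = -(2 * Real.log 2) := by
    rw [one_div, Real.log_inv, show (4 : ℝ) = 2 ^ 2 by norm_num, Real.log_pow]
    push_cast
    ring
  rw [Real.rpow_def_of_pos (by norm_num), h6, hl, inv_div]
  have h7 : -(2 * Real.log 2) * ((2 + r) / 4) ≤ -(r / 3) := by
    nlinarith
  have h8 := Real.exp_le_exp.2 h7
  have h9 := Real.exp_pos (-(r / 3))
  linarith

end Vale.Agent.P146.H605
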