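import Vale.Agent.P146.H605.Var
import Vale.Agent.P146.H605.LowTail
import Vale.Agent.P146.H605.LogCc

/-!
# P146: the distribution function is log-concave; the lower tail at the scale of the standard
deviation
-/

open MeasureTheory ProbabilityTheory Filter Topology

namespace Vale.Agent.P146.H605

open Vale.Agent.P146.Ub.Cv

variable (n : ℕ) (β : ℝ)

lemma convex_freeEnergy : ConvexOn ℝ Set.univ (freeEnergy n β) := by
  refine ⟨convex_univ, fun x _ y _ a b ha hb hab => ?_⟩
  obtain ⟨z, hz⟩ : ∃ z : Pair n → ℝ, z = a • x + b • y := ⟨_, rfl⟩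
  have h1 := tangent_freeEnergy n β z (fun p => x p - z p)
  have h2 := tangent_freeEnergy n β z (fun p => y p - z p)
  have e1 : (fun p => z p + (x p - z p)) = x := by funext p; ring
  have e2 : (fun p => z p + (y p - z p)) = y := by funext p; ring
  rw [e1] at h1
  rw [e2] at h2
  rw [← hz]
  have h3 := mul_le_mul_of_nonneg_left h1 ha
  have h4 := mul_le_mul_of_nonneg_left h2 hb
  have e3 : a * ∑ p, gradF n β p z * (x p - z p) + b * ∑ p, gradF n β p z * (y p - z p) = 0 := by
    rw [Finset.mul_sum, Finset.mul_sum, ← Finset.sum_add_distrib]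
    refine Finset.sum_eq_zero fun p _ => ?_
    have e4 : z p = a * x p + b * y p := by rw [hz]; simp
    have e5 : a * (gradF n β p z * (x p - z p)) + b * (gradF n β p z * (y p - z p)) =
        gradF n β p z * (a * x p + b * y p - (a + b) * z p) := by ring
    rw [e5, hab, e4]
    ring
  simp only [smul_eq_mul]
  have e6 : a * freeEnergy n β z + b * freeEnergy n β z = freeEnergy n β z := by
    rw [← add_mul, hab, one_mul]
  linarith

/-- the distribution function of the free energy is log-concave -/
theorem free_logconcave {s t : ℝ} (hs : 0 < s) (ht : 0 < t) (hst : s + t = 1) (u v : ℝ) :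
    (disorder n).real {g | freeEnergy n β g ≤ u} ^ s *
      (disorder n).real {g | freeEnergy n β g ≤ v} ^ t ≤
      (disorder n).real {g | freeEnergy n β g ≤ s * u + t * v} :=
  cdf_logconcave (freeEnergy_dom n β).cont (convex_freeEnergy n β) hs ht hst u v

/-- the lower tail at the scale of the standard deviation -/
theorem free_lower (hV : 0 < Var[freeEnergy n β; disorder n]) {r : ℝ} (hr : 0 ≤ r) :
    (disorder n).real {g | freeEnergy n β g ≤ (∫ g, freeEnergy n β g ∂(disorder n)) -
      r * Real.sqrt (Var[freeEnergy n β; disorder n])} ≤ 2 * Real.exp (-(r / 3)) := by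
  have hd := freeEnergy_dom n β
  have hm : MemLp (freeEnergy n β) 2 (gpi (Pair n)) := by
    rw [memLp_two_iff_integrable_sq hd.cont.aestronglyMeasurable]
    exact (hd.pow 2).integrable
  exact lower_tail (μ := gpi (Pair n)) hm hV
    (fun s t u v hs ht hst => free_logconcave n β hs ht hst u v) hr

end Vale.Agent.P146.H605
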