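import Vale.Agent.P146.H605.Conv

/-!
# P146: noise sensitivity of the free energy
-/

open MeasureTheory ProbabilityTheory

namespace Vale.Agent.P146.H605

open Vale.Agent.P146.Ub.Cv

section sk

variable (n : ℕ) (β : ℝ)

lemma crossCov_QQ (t : ℝ) : crossCov n β t =
    QQ (freeEnergy n β) t - (∫ g, freeEnergy n β g ∂(gpi (Pair n))) ^ 2 := by
  rw [← QQ_iter]
  rfl

lemma crossCov_center {t : ℝ} (h0 : 0 ≤ t) (h1 : t ≤ 1) : crossCov n β t =
    QQ (fun g => freeEnergy n β g - ∫ g, freeEnergy n β g ∂(gpi (Pair n))) t := by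
  rw [crossCov_QQ, QQ_center (freeEnergy_dom n β) h0 h1]

lemma crossCov_nonneg {t : ℝ} (h0 : 0 ≤ t) (h1 : t ≤ 1) : 0 ≤ crossCov n β t := by
  rw [crossCov_center n β h0 h1]
  exact QQ_nonneg _ _

lemma prof_QQ (hn : 1 ≤ n) {t : ℝ} (h0 : 0 ≤ t) (h1 : t ≤ 1) :
    prof n β t = ∑ p : Pair n, QQ (gradF n β p) t :=
  (sum_gradF_cm n β hn h0 h1).symm

lemma prof_nonneg (hn : 1 ≤ n) {t : ℝ} (h0 : 0 ≤ t) (h1 : t ≤ 1) : 0 ≤ prof n β t := by
  rw [prof_QQ n β hn h0 h1]
  exact Finset.sum_nonneg fun p _ => QQ_nonneg _ _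

lemma reg_gradF (p : Pair n) : ∃ G H B, Reg (gradF n β p) G H B := by
  have e : gradF n β p = fun g => gav (ska n β) (fun _ => 0) (fun s => ska n β s p) g := by
    funext g
    exact (gradF_eq n β p g).symm
  rw [e]
  obtain ⟨B, hB⟩ := reg_gav (ska n β) (fun _ => 0) (fun s => ska n β s p)
  exact ⟨_, _, B, hB⟩

lemma prof_mono (hn : 1 ≤ n) {s t : ℝ} (h0 : 0 ≤ s) (hst : s ≤ t) (h1 : t ≤ 1) :
    prof n β s ≤ prof n β t := by
  rw [prof_QQ n β hn h0 (hst.trans h1), prof_QQ n β hn (h0.trans hst) h1]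
  refine Finset.sum_le_sum fun p _ => ?_
  obtain ⟨G, H, B, h⟩ := reg_gradF n β p
  exact QQ_mono h h0 hst h1

/-- **The covariance formula.** -/
theorem crossCov_formula (hn : 1 ≤ n) {t : ℝ} (ht0 : 0 ≤ t) (ht1 : t ≤ 1) :
    crossCov n β t = ∫ a in (0 : ℝ)..t, prof n β a := by
  have hr := reg_freeEnergy n β
  have hcont := phi_cont hr
  obtain ⟨φ, hφ⟩ : ∃ φ, φ = Real.arccos (Real.sqrt t) := ⟨_, rfl⟩
  have h2 : Real.sqrt t ≤ 1 := Real.sqrt_le_one.2 ht1
  have h3 : 0 ≤ Real.sqrt t := Real.sqrt_nonneg t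
  have hφ0 : 0 ≤ φ := by rw [hφ]; exact Real.arccos_nonneg _
  have hφ1 : φ ≤ Real.pi / 2 := by rw [hφ]; exact Real.arccos_le_pi_div_two.2 h3
  have hcos : Real.cos φ ^ 2 = t := by
    rw [hφ, Real.cos_arccos (by linarith) h2, Real.sq_sqrt ht0]
  have h1 : ∫ θ in φ..(Real.pi / 2), -(2 * Real.sin θ * Real.cos θ) * phi (gradF n β) θ =
      KK (freeEnergy n β) (Real.pi / 2) - KK (freeEnergy n β) φ := by
    refine intervalIntegral.integral_eq_sub_of_hasDerivAt (fun θ _ => hasDerivAt_KK hr θ) ?_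
    refine Continuous.intervalIntegrable ?_ _ _
    exact (((continuous_const.mul Real.continuous_sin).mul Real.continuous_cos).neg).mul hcont
  have h4 : ∫ θ in φ..(Real.pi / 2), -(2 * Real.sin θ * Real.cos θ) * phi (gradF n β) θ =
      ∫ θ in φ..(Real.pi / 2), (prof n β ∘ fun θ => Real.cos θ ^ 2) θ *
        (-(2 * Real.sin θ * Real.cos θ)) := by
    refine intervalIntegral.integral_congr fun θ hθ => ?_
    rw [Set.uIcc_of_le hφ1] at hθ
    simp only [Function.comp]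
    rw [phi_gradF n β hn (hφ0.trans hθ.1) hθ.2]
    ring
  have h5 : ∫ θ in φ..(Real.pi / 2), (prof n β ∘ fun θ => Real.cos θ ^ 2) θ *
        (-(2 * Real.sin θ * Real.cos θ)) =
      ∫ a in (Real.cos φ ^ 2)..(Real.cos (Real.pi / 2) ^ 2), prof n β a := by
    refine intervalIntegral.integral_comp_mul_deriv'' (f := fun θ => Real.cos θ ^ 2)
      (f' := fun θ => -(2 * Real.sin θ * Real.cos θ)) (g := prof n β)
      (by fun_prop) (fun θ _ => ?_) (by fun_prop) ?_
    · refine HasDerivAt.hasDerivWithinAt ?_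
      refine ((Real.hasDerivAt_cos θ).fun_pow 2).congr_deriv ?_
      simp
      ring
    · refine (prof_cont n β hn).mono ?_
      rintro _ ⟨θ, _, rfl⟩
      exact ⟨sq_nonneg _, Real.cos_sq_le_one θ⟩
  rw [h4, h5, hcos, Real.cos_pi_div_two, KK_pi hr.F_dom, KK_QQ hr.F_dom hφ0 hφ1, hcos] at h1
  norm_num at h1
  rw [intervalIntegral.integral_symm] at h1
  rw [crossCov_QQ]
  linarith

lemma prof_intervalIntegrable (hn : 1 ≤ n) {s t : ℝ} (h0 : 0 ≤ s) (hst : s ≤ t) (h1 : t ≤ 1) :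
    IntervalIntegrable (prof n β) volume s t := by
  refine ((prof_cont n β hn).mono ?_).intervalIntegrable_of_Icc hst
  exact Set.Icc_subset_Icc h0 h1

lemma crossCov_one (hn : 1 ≤ n) : crossCov n β 1 = Var[freeEnergy n β; disorder n] := by
  rw [crossCov_formula n β hn zero_le_one le_rfl, var_formula n β hn,
    ← intervalIntegral.integral_const_mul]
  rfl

/-- the increments of the covariance -/
lemma crossCov_sub (hn : 1 ≤ n) {s t : ℝ} (h0 : 0 ≤ s) (hst : s ≤ t) (h1 : t ≤ 1) :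
    (t - s) * prof n β s ≤ crossCov n β t - crossCov n β s := by
  rw [crossCov_formula n β hn (h0.trans hst) h1, crossCov_formula n β hn h0 (hst.trans h1)]
  have hi := prof_intervalIntegrable n β hn h0 hst h1
  rw [intervalIntegral.integral_interval_sub_left
    (prof_intervalIntegrable n β hn le_rfl (h0.trans hst) h1)
    (prof_intervalIntegrable n β hn le_rfl h0 (hst.trans h1))]
  have h2 : ∫ _a in s..t, prof n β s ≤ ∫ a in s..t, prof n β a := by
    refine intervalIntegral.integral_mono_on hst (by simp) hi fun a ha => ?_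
    exact prof_mono n β hn h0 ha.1 (ha.2.trans h1)
  simpa using h2

lemma crossCov_mono (hn : 1 ≤ n) {s t : ℝ} (h0 : 0 ≤ s) (hst : s ≤ t) (h1 : t ≤ 1) :
    crossCov n β s ≤ crossCov n β t := by
  have h2 := crossCov_sub n β hn h0 hst h1
  have h3 := mul_nonneg (sub_nonneg.2 hst) (prof_nonneg n β hn h0 (hst.trans h1))
  linarith

lemma crossCov_le_var (hn : 1 ≤ n) {t : ℝ} (h0 : 0 ≤ t) (h1 : t ≤ 1) :
    crossCov n β t ≤ Var[freeEnergy n β; disorder n] := by
  rw [← crossCov_one n β hn]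
  exact crossCov_mono n β hn h0 h1 le_rfl

/-- **Log-convexity of the covariance.** -/
theorem crossCov_sq (hn : 1 ≤ n) {t : ℝ} (h0 : 0 ≤ t) (h1 : t ≤ 1) :
    crossCov n β t ^ 2 ≤ Var[freeEnergy n β; disorder n] * crossCov n β (t ^ 2) := by
  have ht2 : t ^ 2 ≤ 1 := pow_le_one₀ h0 h1
  have hd : Dom (fun g => freeEnergy n β g - ∫ g, freeEnergy n β g ∂(gpi (Pair n))) :=
    (freeEnergy_dom n β).sub (Dom.const _)
  have h2 := QQ_sq hd h0 h1
  rw [← crossCov_center n β h0 h1, ← crossCov_center n β (sq_nonneg t) ht2] at h2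
  have h3 : ∫ x, (freeEnergy n β x - ∫ g, freeEnergy n β g ∂(gpi (Pair n))) ^ 2
      ∂(gpi (Pair n)) = Var[freeEnergy n β; disorder n] := by
    rw [variance_eq_integral (freeEnergy_dom n β).cont.aemeasurable]
    rfl
  rw [h3] at h2
  exact h2

/-- log-convexity of the profile -/
theorem prof_sq (hn : 1 ≤ n) {t : ℝ} (h0 : 0 ≤ t) (h1 : t ≤ 1) :
    prof n β t ^ 2 ≤ prof n β 1 * prof n β (t ^ 2) := by
  have ht2 : t ^ 2 ≤ 1 := pow_le_one₀ h0 h1
  rw [prof_QQ n β hn h0 h1, prof_QQ n β hn zero_le_one le_rfl, prof_QQ n β hn (sq_nonneg t) ht2]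
  have hone : ∀ p, QQ (gradF n β p) 1 = ∫ x, gradF n β p x ^ 2 ∂(gpi (Pair n)) := by
    intro p
    unfold QQ
    refine integral_congr_ae (Filter.Eventually.of_forall fun z => ?_)
    have e : ∀ y : Pair n → ℝ, mix (Real.sqrt 1) (Real.sqrt (1 - 1)) z y = z := by
      intro y
      funext i
      simp [mix]
    simp only [e]
    simp
  have h2 : ∀ p, QQ (gradF n β p) t ≤ Real.sqrt (QQ (gradF n β p) 1) *
      Real.sqrt (QQ (gradF n β p) (t ^ 2)) := by
    intro p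
    rw [← Real.sqrt_mul (QQ_nonneg _ _), hone]
    exact Real.le_sqrt_of_sq_le (QQ_sq ((reg_freeEnergy n β).G_dom p) h0 h1)
  have h3 : ∑ p, QQ (gradF n β p) t ≤ Real.sqrt (∑ p, QQ (gradF n β p) 1) *
      Real.sqrt (∑ p, QQ (gradF n β p) (t ^ 2)) :=
    (Finset.sum_le_sum fun p _ => h2 p).trans
      (Real.sum_sqrt_mul_sqrt_le _ (fun p => QQ_nonneg _ _) (fun p => QQ_nonneg _ _))
  have h4 : 0 ≤ ∑ p, QQ (gradF n β p) t := Finset.sum_nonneg fun p _ => QQ_nonneg _ _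
  have h5 := pow_le_pow_left₀ h4 h3 2
  rw [mul_pow, Real.sq_sqrt (Finset.sum_nonneg fun p _ => QQ_nonneg _ _),
    Real.sq_sqrt (Finset.sum_nonneg fun p _ => QQ_nonneg _ _)] at h5
  exact h5

lemma prof_small (hn : 1 ≤ n) (hβ : β ≠ 0) {t : ℝ} (h0 : 0 ≤ t) (h1 : t ≤ 1)
    (ht : β ^ 2 * t ≤ 1 / 8) : prof n β t ≤ β ^ 2 / 2 * 3 := by
  have h2 := small_overlap n β hn hβ h0 h1 ht
  unfold prof
  exact mul_le_mul_of_nonneg_left (by linarith) (by positivity)

/-- for small correlations the covariance is bounded -/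
theorem crossCov_small (hn : 1 ≤ n) (hβ : β ≠ 0) {t : ℝ} (h0 : 0 ≤ t) (h1 : t ≤ 1)
    (ht : β ^ 2 * t ≤ 1 / 8) : crossCov n β t ≤ 1 := by
  rw [crossCov_formula n β hn h0 h1]
  have h2 : ∫ a in (0 : ℝ)..t, prof n β a ≤ ∫ _a in (0 : ℝ)..t, β ^ 2 / 2 * 3 := by
    refine intervalIntegral.integral_mono_on h0 (prof_intervalIntegrable n β hn le_rfl h0 h1)
      (by simp) fun a ha => ?_
    refine prof_small n β hn hβ ha.1 (ha.2.trans h1) ?_
    exact (mul_le_mul_of_nonneg_left ha.2 (sq_nonneg β)).trans ht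
  refine h2.trans ?_
  simp only [intervalIntegral.integral_const, sub_zero, smul_eq_mul]
  nlinarith

/-- **Noise sensitivity**, quantitative form. -/
theorem crossCov_noise (hn : 1 ≤ n) (hβ : 1 ≤ β) {M : ℝ} (hM : 1 ≤ M)
    (hV : Var[freeEnergy n β; disorder n] ≤ M) {t : ℝ} (h0 : 0 ≤ t) (h1 : t ≤ 1) :
    crossCov n β t ≤ M * (1 / M) ^ ((1 - t) / (2 * Real.log (8 * β ^ 2))) := by
  have hβ0 : β ≠ 0 := by positivity
  have hb : 1 ≤ β ^ 2 := one_le_pow₀ hβ
  have h2 := iterate_bound (H := crossCov n β) (M := M) (K := 1) (t₀ := 1 / (8 * β ^ 2))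
    (by linarith) one_pos hM (by positivity)
    (by rw [div_le_div_iff₀ (by positivity) (by norm_num)]; linarith)
    (fun t h0 h1 => crossCov_nonneg n β h0 h1)
    (fun t h0 h1 => (crossCov_le_var n β hn h0 h1).trans hV)
    (fun t h0 h1 => (crossCov_sq n β hn h0 h1).trans (mul_le_mul_of_nonneg_right hV
      (crossCov_nonneg n β (sq_nonneg t) (pow_le_one₀ h0 h1))))
    (fun t h0 h2 => by
      have h3 : t ≤ 1 := h2.trans (by
        rw [div_le_one (by positivity)]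
        linarith)
      refine crossCov_small n β hn hβ0 h0 h3 ?_
      rw [le_div_iff₀ (by positivity)] at h2
      linarith) h0 h1
  rw [one_div_one_div] at h2
  exact h2

/-- the profile is bounded by the covariance -/
lemma prof_le_crossCov (hn : 1 ≤ n) {t : ℝ} (h0 : 0 ≤ t) (h1 : t ≤ 1) :
    (1 - t) * prof n β t ≤ 2 * crossCov n β ((1 + t) / 2) := by
  have h2 := crossCov_sub n β hn (s := t) (t := (1 + t) / 2) h0 (by linarith) (by linarith)
  have h3 := crossCov_nonneg n β h0 h1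
  have e : (1 + t) / 2 - t = (1 - t) / 2 := by ring
  rw [e] at h2
  linarith

/-- **Chaos relative to a bound of the variance.** -/
theorem prof_noise (hn : 1 ≤ n) (hβ : 1 ≤ β) {M : ℝ} (hM : 1 ≤ M)
    (hV : Var[freeEnergy n β; disorder n] ≤ M) {t : ℝ} (h0 : 0 ≤ t) (h1 : t ≤ 1) :
    (1 - t) * prof n β t ≤ 2 * M * (1 / M) ^ ((1 - t) / (4 * Real.log (8 * β ^ 2))) := by
  have h2 := prof_le_crossCov n β hn h0 h1
  have h3 := crossCov_noise n β hn hβ hM hV (t := (1 + t) / 2) (by linarith) (by linarith)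
  have e : (1 - (1 + t) / 2) / (2 * Real.log (8 * β ^ 2)) =
      (1 - t) / (4 * Real.log (8 * β ^ 2)) := by
    have : 1 - (1 + t) / 2 = (1 - t) / 2 := by ring
    rw [this, div_div]
    congr 1
    ring
  rw [e] at h3
  linarith

/-- **Disorder chaos at every `β ≥ 1`**, explicit. -/
theorem overlap_noise (hn : 1 ≤ n) (hβ : 1 ≤ β) {t : ℝ} (h0 : 0 ≤ t) (h1 : t ≤ 1) :
    crossOverlap n β t ≤ 4 * (n : ℝ) ^ (-((1 - t) / (2 * Real.log (8 * β ^ 2)))) := by
  have hβ0 : β ≠ 0 := by positivity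
  have hb : 1 ≤ β ^ 2 := one_le_pow₀ hβ
  have hn1 : (1 : ℝ) ≤ n := by exact_mod_cast hn
  have hn0 : (0 : ℝ) < n := by linarith
  obtain ⟨M, hM⟩ : ∃ M : ℝ, M = β ^ 2 / 2 * 3 * n := ⟨_, rfl⟩
  have hM0 : 0 < M := by rw [hM]; positivity
  have hp1 : ∀ t : ℝ, 0 ≤ t → t ≤ 1 → prof n β t ≤ M := by
    intro t h0 h1
    refine (prof_mono n β hn h0 h1 le_rfl).trans ?_
    have h5 : prof n β 1 ≤ β ^ 2 * n / 2 := by
      rw [prof_eq_phi n β hn zero_le_one le_rfl]
      exact phi_le (reg_freeEnergy n β).G_dom (sum_gradF_sq n β) _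
    rw [hM]
    nlinarith
  have h2 := iterate_bound (H := prof n β) (M := M) (K := β ^ 2 / 2 * 3) (t₀ := 1 / (8 * β ^ 2))
    hM0 (by positivity) (by rw [hM]; nlinarith) (by positivity)
    (by rw [div_le_div_iff₀ (by positivity) (by norm_num)]; linarith)
    (fun t h0 h1 => prof_nonneg n β hn h0 h1) hp1
    (fun t h0 h1 => (prof_sq n β hn h0 h1).trans (mul_le_mul_of_nonneg_right
      (hp1 1 zero_le_one le_rfl) (prof_nonneg n β hn (sq_nonneg t) (pow_le_one₀ h0 h1))))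
    (fun t h0 h2 => by
      have h3 : t ≤ 1 := h2.trans (by
        rw [div_le_one (by positivity)]
        linarith)
      refine prof_small n β hn hβ0 h0 h3 ?_
      rw [le_div_iff₀ (by positivity)] at h2
      linarith) h0 h1
  rw [one_div_one_div] at h2
  obtain ⟨e, he⟩ : ∃ e, e = (1 - t) / (2 * Real.log (8 * β ^ 2)) := ⟨_, rfl⟩
  rw [← he] at h2 ⊢
  have hL : 1 / 2 ≤ Real.log (8 * β ^ 2) := by
    have h3 : Real.log 2 ≤ Real.log (8 * β ^ 2) := Real.log_le_log (by norm_num) (by linarith)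
    have := Real.log_two_gt_d9
    linarith
  have he1 : e ≤ 1 := by
    rw [he, div_le_one (by linarith)]
    linarith
  have hq : β ^ 2 / 2 * 3 / M = (n : ℝ)⁻¹ := by
    rw [hM]
    field_simp
  rw [hq, Real.inv_rpow hn0.le, ← Real.rpow_neg hn0.le, hM] at h2
  obtain ⟨Y, hY⟩ : ∃ Y, Y = (n : ℝ) ^ (-e) := ⟨_, rfl⟩
  rw [← hY] at h2 ⊢
  unfold prof at h2
  have h6 : n * crossOverlap n β t - 1 ≤ 3 * n * Y := by
    have h7 : β ^ 2 / 2 * (n * crossOverlap n β t - 1) ≤ β ^ 2 / 2 * (3 * n * Y) := by linarith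
    exact le_of_mul_le_mul_left h7 (by positivity)
  have h8 : 1 ≤ n * Y := by
    have h9 : (n : ℝ) * Y = (n : ℝ) ^ (1 - e) := by
      rw [hY]
      nth_rewrite 1 [← Real.rpow_one (n : ℝ)]
      rw [← Real.rpow_add hn0]
      congr 1
    rw [h9]
    exact Real.one_le_rpow hn1 (by linarith)
  have h10 : n * crossOverlap n β t ≤ n * (4 * Y) := by linarith
  exact le_of_mul_le_mul_left h10 hn0

end sk

end Vale.Agent.P146.H605
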