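import Vale.Agent.P146.Bd5.B2
import Vale.Agent.P146.Bdl.B40
import Vale.Agent.P146.Bd3.B5

/-!
# P146: growth of the Parisi value in `β`
-/

open MeasureTheory ProbabilityTheory Filter Topology

namespace Vale.Agent.P146.H605

open Vale.Agent.P157.Par (Path Exponents spinPart)
open Vale.Agent.P146.Sk (PSK GoodPath trp)

lemma jensen_sum {K : ℕ} {m q : ℕ → ℝ} (hm : Exponents K m) :
    (∑ l ∈ Finset.range (K + 1), (m (l + 1) - m l) * q l) ^ 2 ≤
      ∑ l ∈ Finset.range (K + 1), (m (l + 1) - m l) * q l ^ 2 := by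
  have hp : ∀ l ∈ Finset.range (K + 1), 0 ≤ m (l + 1) - m l := fun l hl =>
    (sub_pos.2 (hm.2.2 l (Nat.lt_succ_iff.1 (Finset.mem_range.1 hl)))).le
  have hsum : ∑ l ∈ Finset.range (K + 1), (m (l + 1) - m l) = 1 := by
    rw [Finset.sum_range_sub, hm.2.1, hm.1, sub_zero]
  obtain ⟨s, hs⟩ : ∃ s, s = ∑ l ∈ Finset.range (K + 1), (m (l + 1) - m l) * q l := ⟨_, rfl⟩
  have h : 0 ≤ ∑ l ∈ Finset.range (K + 1), (m (l + 1) - m l) * (q l - s) ^ 2 :=
    Finset.sum_nonneg fun l hl => mul_nonneg (hp l hl) (sq_nonneg _)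
  have e : ∑ l ∈ Finset.range (K + 1), (m (l + 1) - m l) * (q l - s) ^ 2 =
      ∑ l ∈ Finset.range (K + 1), (m (l + 1) - m l) * q l ^ 2 -
        2 * s * ∑ l ∈ Finset.range (K + 1), (m (l + 1) - m l) * q l +
        s ^ 2 * ∑ l ∈ Finset.range (K + 1), (m (l + 1) - m l) := by
    rw [Finset.mul_sum, Finset.mul_sum, ← Finset.sum_sub_distrib, ← Finset.sum_add_distrib]
    exact Finset.sum_congr rfl fun l _ => by ring
  rw [e, ← hs, hsum] at h
  rw [← hs]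
  linarith

theorem parisi_incr {β β' : ℝ} (hβ : 1 < β) (hββ : β ≤ β') :
    sInf (Sx.vals β') ≤ sInf (Sx.vals β) +
      (β' ^ 2 - β ^ 2) / 4 * (1 - (β - 1) ^ 2 / β' ^ 2) := by
  have hβ0 : 0 < β := by linarith
  have hβ'0 : 0 < β' := by linarith
  have hsq : 0 ≤ β' ^ 2 - β ^ 2 := by nlinarith
  obtain ⟨C, hC, ht⟩ := Pw2.t1q hβ
  have hC0 : 0 < C := by linarith
  refine le_of_forall_pos_le_add fun η hη => ?_
  obtain ⟨y, ⟨k, μ, p, hμ, hp, hp1, rfl⟩, hy⟩ := exists_lt_of_csInf_lt (Sx.vals_nonempty β)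
    (show sInf (Sx.vals β) < sInf (Sx.vals β) + η / 2 by linarith)
  obtain ⟨N, hN⟩ := exists_nat_ge (max (C / (1 / C) ^ 27)
    (C * (1 + (β' ^ 2 - β ^ 2) / 2) / (η / 2)))
  have hNp : (0 : ℝ) < (N : ℝ) + 1 := by positivity
  have hN1 : C ≤ ((N : ℝ) + 1) * (1 / C) ^ 27 := by
    have h1 := (le_max_left _ _).trans hN
    rw [div_le_iff₀ (by positivity)] at h1
    have h2 : 0 < (1 / C) ^ 27 := by positivity
    linarith
  have hN2 : C / ((N : ℝ) + 1) * (1 + (β' ^ 2 - β ^ 2) / 2) ≤ η / 2 := by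
    have h1 := (le_max_right _ _).trans hN
    rw [div_le_iff₀ (by positivity)] at h1
    rw [div_mul_eq_mul_div, div_le_iff₀ hNp]
    linarith
  obtain ⟨q, hq, hq1, hgood, hchi, -⟩ := ht (1 / C) (by positivity) le_rfl N hN1 k μ p hμ hp hp1
  have hgm := Pw2.gm_exponents N
  obtain ⟨m, hm⟩ : ∃ m, m = Pw2.gm N := ⟨_, rfl⟩
  rw [← hm] at hgood hchi hgm
  obtain ⟨e, he⟩ : ∃ e, e = C / ((N : ℝ) + 1) := ⟨_, rfl⟩
  have he0 : 0 ≤ e := by rw [he]; positivity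
  rw [← he] at hgood hchi hN2
  obtain ⟨S1, hS1⟩ : ∃ S1, S1 = ∑ l ∈ Finset.range (N + 1), (m (l + 1) - m l) * q l := ⟨_, rfl⟩
  obtain ⟨S2, hS2⟩ : ∃ S2, S2 = ∑ l ∈ Finset.range (N + 1), (m (l + 1) - m l) * q l ^ 2 :=
    ⟨_, rfl⟩
  have hJ : S1 ^ 2 ≤ S2 := by rw [hS1, hS2]; exact jensen_sum hgm
  -- the lower bound on the second moment of the path
  have hS1b : 1 - 1 / β - e ≤ S1 := by
    unfold Sk.chi at hchi
    rw [← hS1] at hchi
    have h1 : 1 - S1 ≤ (1 + e) / β := by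
      rw [le_div_iff₀ hβ0]
      linarith
    have h2 : e / β ≤ e := div_le_self he0 hβ.le
    rw [add_div] at h1
    linarith
  have hS2b : (1 - 1 / β) ^ 2 - 2 * e ≤ S2 := by
    have h1 : 0 ≤ 1 - 1 / β := by
      rw [sub_nonneg, div_le_one hβ0]; exact hβ.le
    have h2 : 1 - 1 / β ≤ 1 := by
      have : 0 < 1 / β := by positivity
      linarith
    nlinarith [sq_nonneg (S1 - (1 - 1 / β)), mul_le_mul_of_nonneg_left hS1b h1]
  -- the functional at `β'`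
  have hpath : Path N (fun l => β ^ 2 * q l) :=
    ⟨mul_nonneg (sq_nonneg _) hq.1, fun l hl => mul_le_mul_of_nonneg_left (hq.2 l hl) (sq_nonneg _)⟩
  have hg := hgood _ hpath
  rw [Pw2.t1f_trp, ← hS2] at hg
  have e1 : ∑ l ∈ Finset.range (N + 1), (m (l + 1) - m l) * (β ^ 2 * q l) * q l = β ^ 2 * S2 := by
    rw [hS2, Finset.mul_sum]
    exact Finset.sum_congr rfl fun l _ => by ring
  rw [e1] at hg
  have hpath' : Path N (fun l => β ^ 2 / β' ^ 2 * q l) :=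
    ⟨mul_nonneg (by positivity) hq.1,
      fun l hl => mul_le_mul_of_nonneg_left (hq.2 l hl) (by positivity)⟩
  have hle1 : β ^ 2 / β' ^ 2 ≤ 1 := by
    rw [div_le_one (by positivity)]; linarith
  have hq0 : 0 ≤ q N := by
    have : ∀ l ≤ N, 0 ≤ q l := by
      intro l
      induction l with
      | zero => intro _; exact hq.1
      | succ l ih => intro hl; exact (ih (by omega)).trans (hq.2 l (by omega))
    exact this N le_rfl
  have hq1' : (fun l => β ^ 2 / β' ^ 2 * q l) N ≤ 1 := by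
    simp only
    exact (mul_le_mul hle1 hq1 hq0 zero_le_one).trans (by norm_num)
  have hmem : PSK β' N m (fun l => β ^ 2 / β' ^ 2 * q l) ∈ Sx.vals β' :=
    ⟨N, m, _, hgm, hpath', hq1', rfl⟩
  have h1 := csInf_le (Ld.cor_bdd (by linarith : 1 ≤ β')) hmem
  have e2 : PSK β' N m (fun l => β ^ 2 / β' ^ 2 * q l) =
      β' ^ 2 / 4 + β ^ 4 / (4 * β' ^ 2) * S2 + spinPart N m (fun l => β ^ 2 * q l) := by
    unfold Sk.PSK
    have e3 : (fun l => β' ^ 2 * (β ^ 2 / β' ^ 2 * q l)) = fun l => β ^ 2 * q l := by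
      funext l
      field_simp
    have e4 : ∑ i ∈ Finset.range (N + 1), (m (i + 1) - m i) * (β ^ 2 / β' ^ 2 * q i) ^ 2 =
        (β ^ 2 / β' ^ 2) ^ 2 * S2 := by
      rw [hS2, Finset.mul_sum]
      exact Finset.sum_congr rfl fun l _ => by ring
    simp only at *
    rw [e3, e4]
    field_simp
  rw [e2] at h1
  have h2 : (β' ^ 2 - β ^ 2) / 4 * (1 - S2 * (β ^ 2 / β' ^ 2)) ≤
      (β' ^ 2 - β ^ 2) / 4 * (1 - (β - 1) ^ 2 / β' ^ 2) + e * ((β' ^ 2 - β ^ 2) / 2) := by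
    have h3 : (β - 1) ^ 2 / β' ^ 2 - 2 * e ≤ S2 * (β ^ 2 / β' ^ 2) := by
      have h4 := mul_le_mul_of_nonneg_right hS2b (by positivity : 0 ≤ β ^ 2 / β' ^ 2)
      have h5 : (1 - 1 / β) ^ 2 * (β ^ 2 / β' ^ 2) = (β - 1) ^ 2 / β' ^ 2 := by
        field_simp
      have h6 : e * (β ^ 2 / β' ^ 2) ≤ e := mul_le_of_le_one_right he0 hle1
      rw [sub_mul, h5] at h4
      linarith
    have h7 := mul_le_mul_of_nonneg_left h3 (by positivity : 0 ≤ (β' ^ 2 - β ^ 2) / 4)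
    nlinarith
  have e5 : β' ^ 2 / 4 + β ^ 4 / (4 * β' ^ 2) * S2 - β ^ 2 / 4 * (1 + S2) =
      (β' ^ 2 - β ^ 2) / 4 * (1 - S2 * (β ^ 2 / β' ^ 2)) := by
    field_simp
    ring
  nlinarith

end Vale.Agent.P146.H605
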