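import Vale.Agent.P146.H605.Var
import Vale.Agent.P146.H605.Par

/-!
# P146: the overlap at the same disorder does not vanish; the chaos profile grows
-/

open MeasureTheory ProbabilityTheory Filter Topology

namespace Vale.Agent.P146.H605

lemma order_alg {β δ : ℝ} (hβ : 1 < β) (hδ : 0 < δ) :
    ((β + δ) ^ 2 - β ^ 2) / 4 * (1 - (β - 1) ^ 2 / (β + δ) ^ 2) ≤
      δ * β / 2 * (1 - (1 - 1 / β) ^ 2 + 4 * δ) := by
  have hβ0 : 0 < β := by linarith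
  have hs : 0 < β + δ := by linarith
  obtain ⟨Q, hQ⟩ : ∃ Q, Q = (β - 1) ^ 2 / (β + δ) ^ 2 := ⟨_, rfl⟩
  have hQ0 : 0 ≤ Q := by rw [hQ]; positivity
  have hQ1 : (1 - 1 / β) ^ 2 - 2 * δ ≤ Q := by
    have e1 : (1 - 1 / β) ^ 2 = (β - 1) ^ 2 / β ^ 2 := by field_simp
    have e2 : (β - 1) ^ 2 / β ^ 2 - Q =
        (β - 1) ^ 2 / β ^ 2 * ((2 * β * δ + δ ^ 2) / (β + δ) ^ 2) := by
      rw [hQ]
      field_simp
      ring
    have h1 : (β - 1) ^ 2 / β ^ 2 ≤ 1 := by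
      rw [div_le_one (by positivity)]
      nlinarith
    have h2 : (2 * β * δ + δ ^ 2) / (β + δ) ^ 2 ≤ 2 * δ := by
      rw [div_le_iff₀ (by positivity)]
      nlinarith [mul_pos hβ0 hδ, mul_pos hδ hδ, mul_pos (mul_pos hβ0 hδ) hδ,
        mul_pos (mul_pos hδ hδ) hδ, mul_nonneg (mul_pos hβ0 hδ).le (sub_nonneg.2 hβ.le)]
    have h3 : 0 ≤ (2 * β * δ + δ ^ 2) / (β + δ) ^ 2 := by positivity
    have h4 : (β - 1) ^ 2 / β ^ 2 * ((2 * β * δ + δ ^ 2) / (β + δ) ^ 2) ≤ 2 * δ := by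
      calc (β - 1) ^ 2 / β ^ 2 * ((2 * β * δ + δ ^ 2) / (β + δ) ^ 2) ≤
          1 * ((2 * β * δ + δ ^ 2) / (β + δ) ^ 2) := mul_le_mul_of_nonneg_right h1 h3
        _ ≤ 2 * δ := by rw [one_mul]; exact h2
    rw [e1]
    linarith
  rw [← hQ]
  have e3 : ((β + δ) ^ 2 - β ^ 2) / 4 * (1 - Q) =
      δ * β / 2 * (1 - Q) + δ ^ 2 / 4 * (1 - Q) := by ring
  rw [e3]
  have h5 : δ * β / 2 * (1 - Q) ≤ δ * β / 2 * (1 - (1 - 1 / β) ^ 2 + 2 * δ) :=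
    mul_le_mul_of_nonneg_left (by linarith) (by positivity)
  have h6 : δ ^ 2 / 4 * (1 - Q) ≤ δ * β / 2 * (2 * δ) := by
    have h7 : δ ^ 2 / 4 * (1 - Q) ≤ δ ^ 2 / 4 * 1 :=
      mul_le_mul_of_nonneg_left (by linarith) (by positivity)
    have h8 : δ ^ 2 * 1 ≤ δ ^ 2 * β := mul_le_mul_of_nonneg_left hβ.le (by positivity)
    nlinarith
  nlinarith

/-- **Order.**  The mean square overlap of two configurations with the same disorder. -/
theorem order_rate {β : ℝ} (hβ : 1 < β) : ∃ C : ℝ, 1 ≤ C ∧ ∀ n : ℕ, 1 ≤ n →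
    (1 - 1 / β) ^ 2 - C * (n : ℝ) ^ (-(1 / 14) : ℝ) * (1 + Real.log n) ^ 2 ≤
      crossOverlap n β 1 := by
  obtain ⟨C₂, hC₂, hlo⟩ := Sx.rt_low hβ.le
  refine ⟨4 + 2 * C₂, by linarith, fun n hn => ?_⟩
  have hβ0 : 0 < β := by linarith
  have hn1 : (1 : ℝ) ≤ n := by exact_mod_cast hn
  have hn0 : (0 : ℝ) < n := by linarith
  have hl0 : 0 ≤ Real.log n := Real.log_nonneg hn1
  obtain ⟨L, hL⟩ : ∃ L, L = 1 + Real.log n := ⟨_, rfl⟩
  have hL1 : 1 ≤ L := by linarith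
  have hLsq : 1 ≤ L ^ 2 := one_le_pow₀ hL1
  obtain ⟨δ, hδ⟩ : ∃ δ, δ = (n : ℝ) ^ (-(1 / 14) : ℝ) := ⟨_, rfl⟩
  have hδ0 : 0 < δ := by rw [hδ]; positivity
  have hδ1 : δ ≤ 1 := by
    rw [hδ]; exact Real.rpow_le_one_of_one_le_of_nonpos hn1 (by norm_num)
  have hδn : (n : ℝ) ^ (6 / 7 : ℝ) = n * δ ^ 2 := by
    rw [hδ, ← Real.rpow_natCast, ← Real.rpow_mul hn0.le]
    nth_rewrite 2 [← Real.rpow_one (n : ℝ)]
    rw [← Real.rpow_add hn0]
    norm_num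
  obtain ⟨-, -, -, hup, -⟩ := Sx.rt_moment (show 1 ≤ β + δ by linarith)
  have h1 := mean_tangent n β hn hβ0 (β + δ)
  have h2 := hup n hn
  have h3 := hlo n hn
  have h4 := parisi_incr hβ (show β ≤ β + δ by linarith)
  have h5 := order_alg hβ hδ0
  have h6 : Sx.pv (β + δ) ≤ Sx.pv β + δ * β / 2 * (1 - (1 - 1 / β) ^ 2 + 4 * δ) := by
    unfold Sx.pv
    linarith
  have h7 := mul_le_mul_of_nonneg_left h6 hn0.le
  rw [← hL, hδn] at h3
  obtain ⟨R, hR⟩ : ∃ R, R = crossOverlap n β 1 := ⟨_, rfl⟩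
  rw [← hL, ← hδ, ← hR]
  rw [← hR] at h1
  have h8 : (n * δ * β / 2) * (1 - R) ≤
      (n * δ * β / 2) * (1 - (1 - 1 / β) ^ 2 + 4 * δ + 2 * C₂ * δ * L ^ 2) := by
    have h9 : C₂ * (n * δ ^ 2) * L ^ 2 ≤ (n * δ * β / 2) * (2 * C₂ * δ * L ^ 2) := by
      have h10 : 0 ≤ n * δ * (C₂ * δ * L ^ 2) := by positivity
      have e : (n * δ * β / 2) * (2 * C₂ * δ * L ^ 2) = β * (n * δ * (C₂ * δ * L ^ 2)) := by ring
      have e' : C₂ * (n * δ ^ 2) * L ^ 2 = 1 * (n * δ * (C₂ * δ * L ^ 2)) := by ring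
      rw [e, e']
      exact mul_le_mul_of_nonneg_right hβ.le h10
    have e1 : (β + δ - β) * (β * n / 2) * (1 - R) = (n * δ * β / 2) * (1 - R) := by ring
    rw [e1] at h1
    have e2 : (n : ℝ) * (Sx.pv β + δ * β / 2 * (1 - (1 - 1 / β) ^ 2 + 4 * δ)) =
        n * Sx.pv β + (n * δ * β / 2) * (1 - (1 - 1 / β) ^ 2 + 4 * δ) := by ring
    rw [e2] at h7
    have e3 : (n * δ * β / 2) * (1 - (1 - 1 / β) ^ 2 + 4 * δ + 2 * C₂ * δ * L ^ 2) =
        (n * δ * β / 2) * (1 - (1 - 1 / β) ^ 2 + 4 * δ) +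
          (n * δ * β / 2) * (2 * C₂ * δ * L ^ 2) := by ring
    rw [e3]
    linarith
  have h11 := le_of_mul_le_mul_left h8 (by positivity)
  have h12 : 4 * δ * 1 ≤ 4 * δ * L ^ 2 := mul_le_mul_of_nonneg_left hLsq (by positivity)
  have e4 : (4 + 2 * C₂) * δ * L ^ 2 = 4 * δ * L ^ 2 + 2 * C₂ * δ * L ^ 2 := by ring
  rw [e4]
  linarith

/-- the chaos profile is at least a power of `n` -/
theorem prof_large {β c : ℝ} (hc : 0 < c)
    (hvar : ∀ᶠ n : ℕ in atTop, (n : ℝ) ^ c ≤ Var[freeEnergy n β; disorder n]) :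
    ∀ᶠ n : ℕ in atTop, ∃ t : ℝ, 0 ≤ t ∧ t < 1 ∧
      (n : ℝ) ^ (c / 2) ≤ n * (1 - t) * crossOverlap n β t := by
  have hlog : ∀ᶠ n : ℕ in atTop, Real.log n ≤ (1 / (β ^ 2 + 1)) * (n : ℝ) ^ (c / 2) := by
    have h := (isLittleO_log_rpow_atTop (by positivity : 0 < c / 2)).bound
      (by positivity : 0 < 1 / (β ^ 2 + 1))
    have h' := (tendsto_natCast_atTop_atTop (R := ℝ)).eventually h
    filter_upwards [h', eventually_ge_atTop 1] with n hn hn1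
    rw [Real.norm_eq_abs, Real.norm_eq_abs, abs_of_nonneg (by positivity : 0 ≤ (n : ℝ) ^ (c / 2))]
      at hn
    exact (le_abs_self _).trans hn
  have hbig : ∀ᶠ n : ℕ in atTop, β ^ 2 + 1 ≤ (n : ℝ) ^ (c / 2) := by
    have h := (tendsto_rpow_atTop (by positivity : 0 < c / 2)).comp
      (tendsto_natCast_atTop_atTop (R := ℝ))
    exact h.eventually_ge_atTop _
  filter_upwards [hvar, hlog, hbig, eventually_ge_atTop 1] with n h1 h2 h3 hn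
  have hn1 : (1 : ℝ) ≤ n := by exact_mod_cast hn
  have hn0 : (0 : ℝ) < n := by linarith
  have hl0 : 0 ≤ Real.log n := Real.log_nonneg hn1
  by_contra hcon
  push Not at hcon
  obtain ⟨X, hX⟩ : ∃ X, X = (n : ℝ) ^ (c / 2) := ⟨_, rfl⟩
  have hXX : (n : ℝ) ^ c = X * X := by
    rw [hX, ← Real.rpow_add hn0]
    congr 1
    ring
  rw [← hX] at h2 h3
  have hb : 0 ≤ β ^ 2 := sq_nonneg β
  have hX1 : 1 ≤ X := by linarith
  have h4 := var_le_of_prof n β hn (A := β ^ 2 / 2 * X) (fun a ha ha1 => by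
    have h5 := hcon a ha ha1
    rw [← hX] at h5
    have e : (1 - a) * (β ^ 2 / 2 * (n * crossOverlap n β a - 1)) =
        β ^ 2 / 2 * (n * (1 - a) * crossOverlap n β a - (1 - a)) := by ring
    rw [e]
    refine mul_le_mul_of_nonneg_left ?_ (by positivity)
    linarith)
  have h6 := h1.trans h4
  rw [hXX] at h6
  have h7 : β ^ 2 / 2 * X * Real.log n ≤ β ^ 2 / 2 * X * (1 / (β ^ 2 + 1) * X) :=
    mul_le_mul_of_nonneg_left h2 (by positivity)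
  have h8 : β ^ 2 / 2 * X * (1 / (β ^ 2 + 1) * X) ≤ X * X / 2 := by
    have h9 : β ^ 2 / (β ^ 2 + 1) ≤ 1 := by
      rw [div_le_one (by positivity)]; linarith
    have e : β ^ 2 / 2 * X * (1 / (β ^ 2 + 1) * X) = β ^ 2 / (β ^ 2 + 1) * (X * X / 2) := by
      ring
    rw [e]
    exact mul_le_of_le_one_left (by positivity) h9
  nlinarith

end Vale.Agent.P146.H605
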