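import Vale.Agent.P146.H605.Var

/-!
# P146: Gibbs averages as functions of the disorder, and two-copy functionals of them
-/

open MeasureTheory ProbabilityTheory

namespace Vale.Agent.P146.H605

open Vale.Agent.P146.Ub.Cv

section reg

variable {ι S : Type*} [Fintype ι] [Fintype S] [Nonempty S] [DecidableEq ι]
  (a : S → ι → ℝ) (c : S → ℝ)

/-- gradient of a Gibbs average -/
noncomputable def gG (f : S → ℝ) (i : ι) (g : ι → ℝ) : ℝ :=
  gav a c (fun s => f s * a s i) g - gav a c f g * gav a c (fun s => a s i) g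

/-- diagonal of the Hessian of a Gibbs average -/
noncomputable def gH (f : S → ℝ) (i : ι) (g : ι → ℝ) : ℝ :=
  (gav a c (fun s => f s * a s i * a s i) g -
    gav a c (fun s => f s * a s i) g * gav a c (fun s => a s i) g) -
  ((gav a c (fun s => f s * a s i) g - gav a c f g * gav a c (fun s => a s i) g) *
      gav a c (fun s => a s i) g +
    gav a c f g * (gav a c (fun s => a s i * a s i) g -
      gav a c (fun s => a s i) g * gav a c (fun s => a s i) g))

omit [DecidableEq ι] in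
lemma gav_fderiv (f : S → ℝ) (g : ι → ℝ) :
    HasFDerivAt (fun g => gav a c f g)
      (∑ i, gG a c f i g • ContinuousLinearMap.proj (R := ℝ) (φ := fun _ : ι => ℝ) i) g := by
  have h1 : ∀ s, HasFDerivAt (fun g : ι → ℝ => ∑ i, a s i * g i + c s)
      (∑ i, a s i • ContinuousLinearMap.proj (R := ℝ) (φ := fun _ : ι => ℝ) i) g := by
    intro s
    refine (HasFDerivAt.fun_sum fun i _ => ?_).add_const (c s)
    exact (ContinuousLinearMap.proj (R := ℝ) (φ := fun _ : ι => ℝ) i).hasFDerivAt.const_mul (a s i)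
  have h2 : HasFDerivAt (fun g : ι → ℝ => zz a c g)
      (∑ s, wt a c g s •
        ∑ i, a s i • ContinuousLinearMap.proj (R := ℝ) (φ := fun _ : ι => ℝ) i) g := by
    unfold zz
    exact HasFDerivAt.fun_sum fun s _ => (h1 s).exp
  have h3 : HasFDerivAt (fun g : ι → ℝ => ∑ s, f s * wt a c g s)
      (∑ s, f s • (wt a c g s •
        ∑ i, a s i • ContinuousLinearMap.proj (R := ℝ) (φ := fun _ : ι => ℝ) i)) g :=
    HasFDerivAt.fun_sum fun s _ => (h1 s).exp.const_mul (f s)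
  have hz := (zz_pos a c g).ne'
  have h4 : HasFDerivAt (fun g : ι → ℝ => (zz a c g)⁻¹) _ g :=
    (hasDerivAt_inv hz).comp_hasFDerivAt g h2
  have h5 := h3.mul h4
  refine (h5.congr_fderiv ?_)
  ext v
  simp only [_root_.add_apply, _root_.smul_apply, _root_.sum_apply,
    ContinuousLinearMap.proj_apply, smul_eq_mul]
  have e1 : ∑ s, f s * (wt a c g s * ∑ i, a s i * v i) =
      ∑ i, (∑ s, f s * a s i * wt a c g s) * v i := by
    simp_rw [Finset.mul_sum, Finset.sum_mul]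
    rw [Finset.sum_comm]
    exact Finset.sum_congr rfl fun i _ => Finset.sum_congr rfl fun s _ => by ring
  have e2 : ∑ s, wt a c g s * ∑ i, a s i * v i =
      ∑ i, (∑ s, a s i * wt a c g s) * v i := by
    simp_rw [Finset.mul_sum, Finset.sum_mul]
    rw [Finset.sum_comm]
    exact Finset.sum_congr rfl fun i _ => Finset.sum_congr rfl fun s _ => by ring
  rw [e1, e2, Finset.mul_sum, Finset.mul_sum, Finset.mul_sum, ← Finset.sum_add_distrib]
  refine Finset.sum_congr rfl fun i _ => ?_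
  unfold gG gav
  field_simp
  ring

lemma reg_gav (f : S → ℝ) : ∃ B, Reg (fun g => gav a c f g) (gG a c f) (gH a c f) B := by
  obtain ⟨A, hA⟩ : ∃ A, A = ∑ s, |f s| := ⟨_, rfl⟩
  obtain ⟨M, hM⟩ : ∃ M, M = ∑ s, ∑ i, |a s i| := ⟨_, rfl⟩
  have hA0 : 0 ≤ A := by rw [hA]; exact Finset.sum_nonneg fun _ _ => abs_nonneg _
  have hf : ∀ s, |f s| ≤ A := fun s => by
    rw [hA]
    exact Finset.single_le_sum (f := fun s => |f s|) (fun i _ => abs_nonneg _) (Finset.mem_univ s)
  have ha : ∀ s i, |a s i| ≤ M := fun s i => by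
    rw [hM]
    calc |a s i| ≤ ∑ i, |a s i| := Finset.single_le_sum (f := fun i => |a s i|)
          (fun i _ => abs_nonneg _) (Finset.mem_univ i)
      _ ≤ ∑ s, ∑ i, |a s i| := Finset.single_le_sum (f := fun s => ∑ i, |a s i|)
          (fun i _ => Finset.sum_nonneg fun _ _ => abs_nonneg _) (Finset.mem_univ s)
  refine ⟨A * M + A * M, ?_⟩
  exact {
    F_dom := gav_dom a c f
    G_dom := fun i => (gav_dom a c _).sub ((gav_dom a c f).mul (gav_dom a c _))
    H_dom := fun i => ((gav_dom a c _).sub ((gav_dom a c _).mul (gav_dom a c _))).sub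
      ((((gav_dom a c _).sub ((gav_dom a c f).mul (gav_dom a c _))).mul (gav_dom a c _)).add
        ((gav_dom a c f).mul ((gav_dom a c _).sub ((gav_dom a c _).mul (gav_dom a c _)))))
    G_bd := fun i g => by
      have h1 : |gav a c (fun s => f s * a s i) g| ≤ A * M := abs_gav_le a c (fun s => by
        rw [abs_mul]
        exact mul_le_mul (hf s) (ha s i) (abs_nonneg _) hA0) g
      have h2 : |gav a c f g| ≤ A := abs_gav_le a c hf g
      have h3 : |gav a c (fun s => a s i) g| ≤ M := abs_gav_le a c (fun s => ha s i) g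
      have h4 : |gav a c f g * gav a c (fun s => a s i) g| ≤ A * M := by
        rw [abs_mul]
        exact mul_le_mul h2 h3 (abs_nonneg _) hA0
      unfold gG
      exact (abs_sub _ _).trans (add_le_add h1 h4)
    F_diff := fun g => gav_fderiv a c f g
    G_diff := fun i g t => by
      have h1 := hasDerivAt_gav a c (fun s => f s * a s i) g i t
      have h2 := hasDerivAt_gav a c f g i t
      have h3 := hasDerivAt_gav a c (fun s => a s i) g i t
      exact h1.sub (h2.mul h3) }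

end reg

section bil

variable {ι : Type*} [Fintype ι] [DecidableEq ι] {F₁ F₂ : (ι → ℝ) → ℝ}
  {G₁ H₁ G₂ H₂ : ι → (ι → ℝ) → ℝ} {B₁ B₂ : ℝ}

/-- `E F₁(a) F₂(b)` for two copies which share the first block -/
noncomputable def KB (F₁ F₂ : (ι → ℝ) → ℝ) (θ : ℝ) : ℝ :=
  ∫ g : J3 ι → ℝ, F₁ (mix (Real.cos θ) (Real.sin θ) (pu g) (pv g)) *
    F₂ (mix (Real.cos θ) (Real.sin θ) (pu g) (pw g)) ∂(gpi (J3 ι))

/-- `E ∇F₁(a)·∇F₂(b)` -/
noncomputable def PB (G₁ G₂ : ι → (ι → ℝ) → ℝ) (θ : ℝ) : ℝ :=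
  ∫ g : J3 ι → ℝ, ∑ i, G₁ i (mix (Real.cos θ) (Real.sin θ) (pu g) (pv g)) *
    G₂ i (mix (Real.cos θ) (Real.sin θ) (pu g) (pw g)) ∂(gpi (J3 ι))

lemma reg_add (h₁ : Reg F₁ G₁ H₁ B₁) (h₂ : Reg F₂ G₂ H₂ B₂) :
    Reg (fun g => F₁ g + F₂ g) (fun i g => G₁ i g + G₂ i g) (fun i g => H₁ i g + H₂ i g)
      (B₁ + B₂) where
  F_dom := h₁.F_dom.add h₂.F_dom
  G_dom i := (h₁.G_dom i).add (h₂.G_dom i)
  H_dom i := (h₁.H_dom i).add (h₂.H_dom i)
  G_bd i g := (abs_add_le _ _).trans (add_le_add (h₁.G_bd i g) (h₂.G_bd i g))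
  F_diff g := by
    refine ((h₁.F_diff g).add (h₂.F_diff g)).congr_fderiv ?_
    rw [← Finset.sum_add_distrib]
    exact Finset.sum_congr rfl fun i _ => (add_smul _ _ _).symm
  G_diff i g t := (h₁.G_diff i g t).add (h₂.G_diff i g t)

lemma KK_add (h₁ : Reg F₁ G₁ H₁ B₁) (h₂ : Reg F₂ G₂ H₂ B₂) (θ : ℝ) :
    KK (fun g => F₁ g + F₂ g) θ = KK F₁ θ + KK F₂ θ + (KB F₁ F₂ θ + KB F₂ F₁ θ) := by
  have hc := Real.abs_cos_le_one θ
  have hs := Real.abs_sin_le_one θ
  have a1 := dom_uv h₁.F_dom hc hs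
  have a2 := dom_uv h₂.F_dom hc hs
  have b1 := dom_uw h₁.F_dom hc hs
  have b2 := dom_uw h₂.F_dom hc hs
  unfold KK KB
  rw [← int_add (a1.mul b1) (a2.mul b2), ← int_add (a1.mul b2) (a2.mul b1),
    ← int_add ((a1.mul b1).add (a2.mul b2)) ((a1.mul b2).add (a2.mul b1))]
  exact integral_congr_ae (Filter.Eventually.of_forall fun g => by ring)

lemma phi_add (h₁ : Reg F₁ G₁ H₁ B₁) (h₂ : Reg F₂ G₂ H₂ B₂) (θ : ℝ) :
    phi (fun i g => G₁ i g + G₂ i g) θ = phi G₁ θ + phi G₂ θ + (PB G₁ G₂ θ + PB G₂ G₁ θ) := by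
  have hc := Real.abs_cos_le_one θ
  have hs := Real.abs_sin_le_one θ
  have a1 := fun i => dom_uv (h₁.G_dom i) hc hs
  have a2 := fun i => dom_uv (h₂.G_dom i) hc hs
  have b1 := fun i => dom_uw (h₁.G_dom i) hc hs
  have b2 := fun i => dom_uw (h₂.G_dom i) hc hs
  have s11 := Dom.sum Finset.univ fun i _ => (a1 i).mul (b1 i)
  have s22 := Dom.sum Finset.univ fun i _ => (a2 i).mul (b2 i)
  have s12 := Dom.sum Finset.univ fun i _ => (a1 i).mul (b2 i)
  have s21 := Dom.sum Finset.univ fun i _ => (a2 i).mul (b1 i)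
  unfold phi PB
  rw [← int_add s11 s22, ← int_add s12 s21, ← int_add (s11.add s22) (s12.add s21)]
  refine integral_congr_ae (Filter.Eventually.of_forall fun g => ?_)
  simp only
  rw [← Finset.sum_add_distrib, ← Finset.sum_add_distrib, ← Finset.sum_add_distrib]
  exact Finset.sum_congr rfl fun i _ => by ring

/-- derivative of the symmetrised bilinear functional -/
lemma hasDerivAt_KB (h₁ : Reg F₁ G₁ H₁ B₁) (h₂ : Reg F₂ G₂ H₂ B₂) (θ : ℝ) :
    HasDerivAt (fun θ => KB F₁ F₂ θ + KB F₂ F₁ θ)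
      (-(2 * Real.sin θ * Real.cos θ) * (PB G₁ G₂ θ + PB G₂ G₁ θ)) θ := by
  have h := ((hasDerivAt_KK (reg_add h₁ h₂) θ).sub (hasDerivAt_KK h₁ θ)).sub (hasDerivAt_KK h₂ θ)
  have e : (fun θ => KB F₁ F₂ θ + KB F₂ F₁ θ) =
      fun θ => KK (fun g => F₁ g + F₂ g) θ - KK F₁ θ - KK F₂ θ := by
    funext θ
    rw [KK_add h₁ h₂]
    ring
  rw [e]
  refine h.congr_deriv ?_
  rw [phi_add h₁ h₂]
  ring

end bil

end Vale.Agent.P146.H605
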