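import Vale.Agent.P146.H605.Trans
import Vale.Agent.P146.H605.Gauge

/-!
# P146: two copies of small correlation have overlap of order `1 / n` in mean square
-/

open MeasureTheory ProbabilityTheory

namespace Vale.Agent.P146.H605

open Vale.Agent.P146.Ub.Cv

lemma KB_pi {ι : Type*} [Fintype ι] {F₁ F₂ : (ι → ℝ) → ℝ} (h₁ : Dom F₁) (h₂ : Dom F₂) :
    KB F₁ F₂ (Real.pi / 2) = (∫ g, F₁ g ∂(gpi ι)) * ∫ g, F₂ g ∂(gpi ι) := by
  unfold KB
  have e : ∀ x y : ι → ℝ, mix (Real.cos (Real.pi / 2)) (Real.sin (Real.pi / 2)) x y = y := by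
    intro x y
    funext i
    simp [mix]
  simp_rw [e]
  have h3 := mp_vw (ι := ι)
  have h2 : ∫ g : J3 ι → ℝ, F₁ (pv g) * F₂ (pw g) ∂(gpi (J3 ι)) =
      ∫ q : (ι → ℝ) × (ι → ℝ), F₁ q.1 * F₂ q.2 ∂((gpi ι).prod (gpi ι)) := by
    rw [← h3.map_eq, integral_map h3.measurable.aemeasurable]
    exact ((h₁.cont.comp continuous_fst).mul (h₂.cont.comp continuous_snd)).aestronglyMeasurable
  rw [h2, integral_prod_mul]

section sk

variable (n : ℕ) (β : ℝ)

/-- `n R²` -/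
noncomputable def ww (σ τ : Fin n → ℤˣ) : ℝ := n * overlap n σ τ ^ 2

lemma pr_gibbs (σ : Fin n → ℤˣ) (g : Pair n → ℝ) :
    pr (ska n β) (fun _ => 0) σ g = gibbs n β g σ := by
  have h := gibbs_sum n β g (Pi.single σ 1)
  unfold pr
  unfold avf at h
  rw [← h, Finset.sum_eq_single σ]
  · simp
  · intro x _ hx
    simp [Pi.single_eq_of_ne hx]
  · intro h
    exact absurd (Finset.mem_univ σ) h

lemma ww_nonneg (σ τ : Fin n → ℤˣ) : 0 ≤ ww n σ τ := by
  unfold ww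
  positivity

lemma ww_comm (σ τ : Fin n → ℤˣ) : ww n σ τ = ww n τ σ := by
  unfold ww overlap
  congr 3
  exact Finset.sum_congr rfl fun i _ => mul_comm _ _

lemma ska_inner (hn : 1 ≤ n) (σ τ : Fin n → ℤˣ) :
    ∑ p, ska n β σ p * ska n β τ p = β ^ 2 / 2 * (ww n σ τ - 1) := by
  have hn0 : (0 : ℝ) < n := by exact_mod_cast hn
  unfold ww
  rw [overlap_sq n hn]
  have h1 : ∑ p : Pair n, ska n β σ p * ska n β τ p =
      β ^ 2 / n * ∑ p : Pair n, chi (ps p) σ * chi (ps p) τ := by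
    rw [Finset.mul_sum]
    refine Finset.sum_congr rfl fun p _ => ?_
    unfold ska
    have h2 : β / Real.sqrt n * (β / Real.sqrt n) = β ^ 2 / n := by
      rw [div_mul_div_comm, Real.mul_self_sqrt hn0.le, sq]
    rw [← h2]
    ring
  rw [h1]
  field_simp
  ring

/-- the mean of the overlap, in terms of `KB` -/
lemma sum_KB (hn : 1 ≤ n) (hβ : β ≠ 0) {θ : ℝ} (h0 : 0 ≤ θ) (h1 : θ ≤ Real.pi / 2) (r : ℝ) :
    ∑ σ, ∑ τ, (1 + r * ww n σ τ) *
      KB (pr (ska n β) (fun _ => 0) σ) (pr (ska n β) (fun _ => 0) τ) θ =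
      1 + r * (n * crossOverlap n β (Real.cos θ ^ 2)) := by
  have hn0 : (0 : ℝ) < n := by exact_mod_cast hn
  have hc := Real.abs_cos_le_one θ
  have hs := Real.abs_sin_le_one θ
  have dA : ∀ σ, Dom (fun g : J3 (Pair n) → ℝ =>
      pr (ska n β) (fun _ => 0) σ (mix (Real.cos θ) (Real.sin θ) (pu g) (pv g))) :=
    fun s => dom_uv (gav_dom _ _ (Pi.single s 1)) hc hs
  have dB : ∀ σ, Dom (fun g : J3 (Pair n) → ℝ =>
      pr (ska n β) (fun _ => 0) σ (mix (Real.cos θ) (Real.sin θ) (pu g) (pw g))) :=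
    fun s => dom_uw (gav_dom _ _ (Pi.single s 1)) hc hs
  have vA : ∀ p : Pair n, Dom (fun g : J3 (Pair n) → ℝ =>
      av n β (ps p) (mix (Real.cos θ) (Real.sin θ) (pu g) (pv g))) :=
    fun p => dom_uv (av_dom n β _) hc hs
  have vB : ∀ p : Pair n, Dom (fun g : J3 (Pair n) → ℝ =>
      av n β (ps p) (mix (Real.cos θ) (Real.sin θ) (pu g) (pw g))) :=
    fun p => dom_uw (av_dom n β _) hc hs
  have e1 : ∑ σ, ∑ τ, (1 + r * ww n σ τ) *
      KB (pr (ska n β) (fun _ => 0) σ) (pr (ska n β) (fun _ => 0) τ) θ =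
      ∫ g : J3 (Pair n) → ℝ, ∑ σ, ∑ τ, (1 + r * ww n σ τ) *
        (pr (ska n β) (fun _ => 0) σ (mix (Real.cos θ) (Real.sin θ) (pu g) (pv g)) *
          pr (ska n β) (fun _ => 0) τ (mix (Real.cos θ) (Real.sin θ) (pu g) (pw g)))
        ∂(gpi (J3 (Pair n))) := by
    rw [int_sum _ fun s _ => Dom.sum _ fun t _ => ((dA s).mul (dB t)).const_mul _]
    refine Finset.sum_congr rfl fun s _ => ?_
    rw [int_sum _ fun t _ => ((dA s).mul (dB t)).const_mul _]
    refine Finset.sum_congr rfl fun t _ => ?_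
    rw [integral_const_mul]
    rfl
  have e2 : ∀ A B : Pair n → ℝ, ∑ σ, ∑ τ, (1 + r * ww n σ τ) *
        (pr (ska n β) (fun _ => 0) σ A * pr (ska n β) (fun _ => 0) τ B) =
      1 + r + 2 * r / n * ∑ p : Pair n, av n β (ps p) A * av n β (ps p) B := by
    intro A B
    have q := pair_overlap n β hn A B
    have q1 : ∀ σ τ, (1 + r * ww n σ τ) *
        (pr (ska n β) (fun _ => 0) σ A * pr (ska n β) (fun _ => 0) τ B) =
        gibbs n β A σ * gibbs n β B τ +
          r * n * (overlap n σ τ ^ 2 * gibbs n β A σ * gibbs n β B τ) := by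
      intro σ τ
      rw [pr_gibbs, pr_gibbs]
      unfold ww
      ring
    simp_rw [q1, Finset.sum_add_distrib, ← Finset.mul_sum]
    rw [q, gibbs_one n β B]
    simp only [mul_one, gibbs_one]
    field_simp
    ring
  rw [e1]
  simp_rw [e2]
  have d1 : Dom (fun g : J3 (Pair n) → ℝ => ∑ p : Pair n,
      av n β (ps p) (mix (Real.cos θ) (Real.sin θ) (pu g) (pv g)) *
        av n β (ps p) (mix (Real.cos θ) (Real.sin θ) (pu g) (pw g))) :=
    Dom.sum _ fun p _ => (vA p).mul (vB p)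
  rw [int_add (Dom.const _) (d1.const_mul _), integral_const_mul]
  have e3 : phi (gradF n β) θ = β ^ 2 / n * ∫ g : J3 (Pair n) → ℝ, ∑ p : Pair n,
      av n β (ps p) (mix (Real.cos θ) (Real.sin θ) (pu g) (pv g)) *
        av n β (ps p) (mix (Real.cos θ) (Real.sin θ) (pu g) (pw g)) ∂(gpi (J3 (Pair n))) := by
    rw [← integral_const_mul]
    unfold phi
    refine integral_congr_ae (Filter.Eventually.of_forall fun g => ?_)
    simp only
    rw [Finset.mul_sum]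
    refine Finset.sum_congr rfl fun p _ => ?_
    unfold gradF
    have h2 : β / Real.sqrt n * (β / Real.sqrt n) = β ^ 2 / n := by
      rw [div_mul_div_comm, Real.mul_self_sqrt hn0.le, sq]
    rw [← h2]
    ring
  rw [phi_gradF n β hn h0 h1] at e3
  unfold prof at e3
  obtain ⟨I, hI⟩ : ∃ I, I = ∫ g : J3 (Pair n) → ℝ, ∑ p : Pair n,
      av n β (ps p) (mix (Real.cos θ) (Real.sin θ) (pu g) (pv g)) *
        av n β (ps p) (mix (Real.cos θ) (Real.sin θ) (pu g) (pw g)) ∂(gpi (J3 (Pair n))) :=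
    ⟨_, rfl⟩
  rw [← hI] at e3 ⊢
  have hb : β ^ 2 ≠ 0 := pow_ne_zero 2 hβ
  have e4 : 2 / n * I = n * crossOverlap n β (Real.cos θ ^ 2) - 1 := by
    have h5 : β ^ 2 * (2 / n * I) = β ^ 2 * (n * crossOverlap n β (Real.cos θ ^ 2) - 1) := by
      have h6 : β ^ 2 * (2 / n * I) = 2 * (β ^ 2 / n * I) := by ring
      rw [h6, ← e3]
      ring
    exact mul_left_cancel₀ hb h5
  have e5 : 2 * r / n * I = r * (2 / n * I) := by ring
  rw [e5, e4]
  simp
  ring

/-- **Small correlations.**  For `t ≤ 1 / (8 β²)` the overlap has mean square at most `4 / n`. -/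
theorem small_overlap (hn : 1 ≤ n) (hβ : β ≠ 0) {t : ℝ} (h0 : 0 ≤ t) (h1 : t ≤ 1)
    (ht : β ^ 2 * t ≤ 1 / 8) : n * crossOverlap n β t ≤ 4 := by
  obtain ⟨θ, hθ⟩ : ∃ θ, θ = Real.arccos (Real.sqrt t) := ⟨_, rfl⟩
  have hs1 : Real.sqrt t ≤ 1 := Real.sqrt_le_one.2 h1
  have hs0 : 0 ≤ Real.sqrt t := Real.sqrt_nonneg t
  have hθ0 : 0 ≤ θ := by rw [hθ]; exact Real.arccos_nonneg _
  have hθ1 : θ ≤ Real.pi / 2 := by rw [hθ]; exact Real.arccos_le_pi_div_two.2 hs0
  have hcos : Real.cos θ ^ 2 = t := by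
    rw [hθ, Real.cos_arccos (by linarith) hs1, Real.sq_sqrt h0]
  have hm := DD_mono (ska n β) (fun _ => 0) (ww n) (sq_nonneg β) (ww_nonneg n) (ww_comm n)
    (ska_inner n β hn) (l₀ := 1 / 4) hθ0 hθ1 (by rw [hcos]; linarith)
  rw [hcos] at hm
  have hup : DD (ska n β) (fun _ => 0) (ww n) (1 / 4) (Real.pi / 2) ≤ Real.sqrt 2 := by
    unfold DD
    have e : ∀ σ τ : Fin n → ℤˣ, KB (pr (ska n β) (fun _ => 0) σ) (pr (ska n β) (fun _ => 0) τ)
        (Real.pi / 2) = 1 / 4 ^ n := by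
      intro σ τ
      have hd : ∀ σ : Fin n → ℤˣ, ∫ g, pr (ska n β) (fun _ => 0) σ g ∂(gpi (Pair n)) =
          1 / 2 ^ n := by
        intro σ
        rw [← gauge_mean n β σ]
        exact integral_congr_ae (Filter.Eventually.of_forall fun g => pr_gibbs n β σ g)
      have hdom : ∀ σ : Fin n → ℤˣ, Dom (pr (ska n β) (fun _ => 0) σ) :=
        fun σ => gav_dom _ _ (Pi.single σ 1)
      rw [KB_pi (hdom σ) (hdom τ), hd, hd, div_mul_div_comm, one_mul, ← mul_pow]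
      norm_num
    simp_rw [e, ← Finset.sum_mul]
    have h4 := rad_sq n hn
    have h5 : (0 : ℝ) < 4 ^ n := by positivity
    rw [mul_one_div, div_le_iff₀ h5]
    exact h4
  have hlow : 1 + 1 / 8 * (n * crossOverlap n β t) ≤
      DD (ska n β) (fun _ => 0) (ww n) (1 / 4 - β ^ 2 * t) θ := by
    rw [← hcos, ← sum_KB n β hn hβ hθ0 hθ1 (1 / 8), hcos]
    unfold DD
    refine Finset.sum_le_sum fun σ _ => Finset.sum_le_sum fun τ _ => ?_
    refine mul_le_mul_of_nonneg_right ?_ ?_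
    · have h2 : 1 / 8 * ww n σ τ ≤ (1 / 4 - β ^ 2 * t) * ww n σ τ :=
        mul_le_mul_of_nonneg_right (by linarith) (ww_nonneg n σ τ)
      have h3 := Real.add_one_le_exp ((1 / 4 - β ^ 2 * t) * ww n σ τ)
      linarith
    · unfold KB
      exact integral_nonneg fun g => mul_nonneg (pr_nonneg _ _ _ _) (pr_nonneg _ _ _ _)
  have h2 : Real.sqrt 2 ≤ 3 / 2 := by
    rw [Real.sqrt_le_left (by norm_num)]
    norm_num
  linarith

end sk

end Vale.Agent.P146.H605
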