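import Vale.Agent.P146.H605.Chaos
import Vale.Agent.P146.Bdl.B2

/-!
# P146: stability of the overlap under small changes of the disorder, and the energy
-/

open MeasureTheory ProbabilityTheory

namespace Vale.Agent.P146.H605

open Vale.Agent.P146.Ub.Cv

section sk

variable (n : ℕ) (β : ℝ)

lemma cov_le (A B : Finset (Fin n)) (g : Pair n → ℝ) :
    |av n β (symmDiff A B) g - av n β A g * av n β B g| ≤ 1 := by
  have hA := abs_le.1 (abs_av_le n β A g)
  have hB := abs_le.1 (abs_av_le n β B g)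
  have pm : ∀ (C : Finset (Fin n)) (σ : Fin n → ℤˣ), chi C σ ≤ 1 ∧ -1 ≤ chi C σ := by
    intro C σ
    have := abs_le.1 (abs_chi C σ).le
    exact ⟨this.2, this.1⟩
  have key : ∀ a b : ℝ, (a = 1 ∨ a = -1) → (b = 1 ∨ b = -1) →
      0 ≤ 1 + a * av n β A g + b * av n β B g + a * b * av n β (symmDiff A B) g := by
    intro a b ha hb
    have h1 : 1 + a * av n β A g + b * av n β B g + a * b * av n β (symmDiff A B) g =
        gav (ska n β) (fun _ => 0) (fun σ => (1 + a * chi A σ) + (b * chi B σ +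
          a * b * chi (symmDiff A B) σ)) g := by
      rw [gav_add, gav_add, gav_add, gav_const_mul, gav_const_mul, gav_const_mul, gav_const]
      unfold av avf
      ring
    rw [h1]
    refine gav_nonneg _ _ (fun σ => ?_) g
    rw [chi_symmDiff]
    have h2 : (1 + a * chi A σ) + (b * chi B σ + a * b * (chi A σ * chi B σ)) =
        (1 + a * chi A σ) * (1 + b * chi B σ) := by ring
    rw [h2]
    obtain ⟨p1, p2⟩ := pm A σ
    obtain ⟨p3, p4⟩ := pm B σ
    refine mul_nonneg ?_ ?_
    · rcases ha with rfl | rfl <;> linarith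
    · rcases hb with rfl | rfl <;> linarith
  have k1 := key 1 1 (Or.inl rfl) (Or.inl rfl)
  have k2 := key (-1) (-1) (Or.inr rfl) (Or.inr rfl)
  have k3 := key 1 (-1) (Or.inl rfl) (Or.inr rfl)
  have k4 := key (-1) 1 (Or.inr rfl) (Or.inl rfl)
  rw [abs_le]
  constructor
  · rcases le_total 0 (av n β A g) with h | h <;> rcases le_total 0 (av n β B g) with h' | h' <;>
      nlinarith
  · rcases le_total 0 (av n β A g) with h | h <;> rcases le_total 0 (av n β B g) with h' | h' <;>
      nlinarith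

/-- conditional Poincare inequality for a Gibbs average -/
lemma cond_poincare (hn : 1 ≤ n) {a : ℝ} (ha : 0 ≤ a) (ha1 : a ≤ 1) (p : Pair n) (z : Pair n → ℝ) :
    ∫ y, av n β (ps p) (mixed n a z y) ^ 2 ∂(gpi (Pair n)) ≤
      cm n β a p z ^ 2 + (1 - a) * (β ^ 2 * n / 2) := by
  have hn0 : (0 : ℝ) < n := by exact_mod_cast hn
  have hc := sqrt_abs_le ha1
  have hs := sqrt_abs_le (a := 1 - a) (by linarith)
  have lA : Lin (fun y => av n β (ps p) (mixed n a z y)) := (lin_av n β (ps p)).fix hc hs z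
  have dcov : ∀ q : Pair n, Continuous (fun y : Pair n → ℝ => Real.sqrt (1 - a) *
      ((β / Real.sqrt n) * (av n β (symmDiff (ps p) (ps q)) (mixed n a z y) -
        av n β (ps p) (mixed n a z y) * av n β (ps q) (mixed n a z y)))) := by
    intro q
    have c1 : ∀ A : Finset (Fin n), Continuous (fun y => av n β A (mixed n a z y)) :=
      fun A => ((lin_av n β A).fix hc hs z).cont
    exact ((((c1 _).sub ((c1 _).mul (c1 _))).const_mul _).const_mul _)
  have bcov : ∀ (q : Pair n) (y : Pair n → ℝ), |Real.sqrt (1 - a) *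
      ((β / Real.sqrt n) * (av n β (symmDiff (ps p) (ps q)) (mixed n a z y) -
        av n β (ps p) (mixed n a z y) * av n β (ps q) (mixed n a z y)))| ≤
      Real.sqrt (1 - a) * (|β| / Real.sqrt n) := by
    intro q y
    rw [abs_mul, abs_mul, abs_of_nonneg (Real.sqrt_nonneg _), abs_div,
      abs_of_nonneg (Real.sqrt_nonneg (n : ℝ))]
    refine mul_le_mul_of_nonneg_left ?_ (Real.sqrt_nonneg _)
    exact mul_le_of_le_one_right (by positivity) (cov_le n β _ _ _)
  have h := Vale.Agent.P157.Lv.cc_var_le_one (ι := Pair n)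
    (F := fun y => av n β (ps p) (mixed n a z y))
    (F' := fun q y => Real.sqrt (1 - a) * ((β / Real.sqrt n) *
      (av n β (symmDiff (ps p) (ps q)) (mixed n a z y) -
        av n β (ps p) (mixed n a z y) * av n β (ps q) (mixed n a z y))))
    ⟨lA.cont.measurable, 1, 0, zero_le_one, le_rfl, fun y => by
      simpa using abs_av_le n β (ps p) (mixed n a z y)⟩
    (fun q y x => by
      have e : ∀ t, mixed n a z (Function.update y q t) = Function.update (mixed n a z y) q
          (Real.sqrt a * z q + Real.sqrt (1 - a) * t) := by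
        intro t
        exact mix_upd_right q t (Real.sqrt a) (Real.sqrt (1 - a)) z y
      simp only [e]
      have d2 := comp_upd (f := av n β (ps p)) (f' := fun g => (β / Real.sqrt n) *
        (av n β (symmDiff (ps p) (ps q)) g - av n β (ps p) g * av n β (ps q) g)) (i := q)
        (z := mixed n a z y) (fun t => hasDerivAt_av n β (ps p) _ q t)
        (lin_deriv' (Real.sqrt (1 - a)) (Real.sqrt a * z q) x)
      refine d2.congr_deriv ?_
      ring)
    (fun q => ⟨(dcov q).measurable, Real.sqrt (1 - a) * (|β| / Real.sqrt n), 0, by positivity,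
      le_rfl, fun y => by simpa using bcov q y⟩)
  have h2 : ∑ q : Pair n, ∫ y, (Real.sqrt (1 - a) * ((β / Real.sqrt n) *
      (av n β (symmDiff (ps p) (ps q)) (mixed n a z y) -
        av n β (ps p) (mixed n a z y) * av n β (ps q) (mixed n a z y)))) ^ 2 ∂(gpi (Pair n)) ≤
      ∑ q : Pair n, (1 - a) * (β ^ 2 / n) := by
    refine Finset.sum_le_sum fun q _ => ?_
    have h3 : ∫ y, (Real.sqrt (1 - a) * ((β / Real.sqrt n) *
      (av n β (symmDiff (ps p) (ps q)) (mixed n a z y) -
        av n β (ps p) (mixed n a z y) * av n β (ps q) (mixed n a z y)))) ^ 2 ∂(gpi (Pair n)) ≤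
        ∫ _y : Pair n → ℝ, (1 - a) * (β ^ 2 / n) ∂(gpi (Pair n)) := by
      refine int_mono ((Dom.of_bounded (dcov q) _ (bcov q)).pow 2) (Dom.const _) fun y => ?_
      have h4 := pow_le_pow_left₀ (abs_nonneg _) (bcov q y) 2
      have e4 : (Real.sqrt (1 - a) * (|β| / Real.sqrt n)) ^ 2 = (1 - a) * (β ^ 2 / n) := by
        rw [mul_pow, div_pow, sq_abs, Real.sq_sqrt (by linarith), Real.sq_sqrt hn0.le]
      rw [e4, sq_abs] at h4
      exact h4
    simpa using h3
  have h5 : ∑ q : Pair n, (1 - a) * (β ^ 2 / n) ≤ (1 - a) * (β ^ 2 * n / 2) := by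
    rw [Finset.sum_const, nsmul_eq_mul, Finset.card_univ]
    have h6 := card_pair_le n
    have h7 : 0 ≤ (1 - a) * (β ^ 2 / n) := mul_nonneg (by linarith) (by positivity)
    refine (mul_le_mul_of_nonneg_right h6 h7).trans (le_of_eq ?_)
    field_simp
  have h8 : ∫ y, (av n β (ps p) (mixed n a z y) - cm n β a p z) ^ 2 ∂(gpi (Pair n)) =
      ∫ y, av n β (ps p) (mixed n a z y) ^ 2 ∂(gpi (Pair n)) - cm n β a p z ^ 2 := by
    have e : ∀ y : Pair n → ℝ, (av n β (ps p) (mixed n a z y) - cm n β a p z) ^ 2 =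
        av n β (ps p) (mixed n a z y) ^ 2 +
          ((-2 * cm n β a p z) * av n β (ps p) (mixed n a z y) + cm n β a p z ^ 2) :=
      fun y => by ring
    simp_rw [e]
    rw [int_add (lA.dom.pow 2) ((lA.dom.const_mul _).add (Dom.const _)),
      int_add (lA.dom.const_mul _) (Dom.const _), integral_const_mul]
    have e2 : ∫ y, av n β (ps p) (mixed n a z y) ∂(gpi (Pair n)) = cm n β a p z := rfl
    rw [e2]
    simp
    ring
  have h9 := h.trans (h2.trans h5)
  have e3 : ∫ y, (av n β (ps p) (mixed n a z y) - ∫ w, av n β (ps p) (mixed n a z w)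
      ∂(gpi (Pair n))) ^ 2 ∂(gpi (Pair n)) =
      ∫ y, (av n β (ps p) (mixed n a z y) - cm n β a p z) ^ 2 ∂(gpi (Pair n)) := rfl
  have h10 : ∫ y, (av n β (ps p) (mixed n a z y) - cm n β a p z) ^ 2 ∂(gpi (Pair n)) ≤
      (1 - a) * (β ^ 2 * n / 2) := h9
  rw [h8] at h10
  linarith

lemma cm_one (p : Pair n) (z : Pair n → ℝ) : cm n β 1 p z = av n β (ps p) z := by
  unfold cm
  have e : ∀ y : Pair n → ℝ, mixed n 1 z y = z := by
    intro y
    funext q
    simp [mixed]
  simp_rw [e, disorder_eq]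
  simp

/-- **Stability.** -/
theorem crossOverlap_stable (hn : 1 ≤ n) {a : ℝ} (ha : 0 ≤ a) (ha1 : a ≤ 1) :
    crossOverlap n β 1 - crossOverlap n β a ≤ (1 - a) * (β ^ 2 * n / 2) := by
  have hn0 : (0 : ℝ) < n := by exact_mod_cast hn
  rw [crossOverlap_eq n β hn zero_le_one le_rfl, crossOverlap_eq n β hn ha ha1]
  have hcs := sqrt_sq_add ha ha1
  have h1 : ∀ p : Pair n, ∫ z, cm n β 1 p z ^ 2 ∂(disorder n) ≤
      ∫ z, cm n β a p z ^ 2 ∂(disorder n) + (1 - a) * (β ^ 2 * n / 2) := by
    intro p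
    simp_rw [cm_one, disorder_eq]
    have m2 : Integrable (fun q : (Pair n → ℝ) × (Pair n → ℝ) =>
        av n β (ps p) (mix (Real.sqrt a) (Real.sqrt (1 - a)) q.1 q.2) ^ 2)
        ((gpi (Pair n)).prod (gpi (Pair n))) :=
      (mp_mix hcs).integrable_comp_of_integrable (g := fun z => av n β (ps p) z ^ 2)
        ((lin_av n β (ps p)).dom.pow 2).integrable
    have e1 : ∫ z, (∫ y, av n β (ps p) (mixed n a z y) ^ 2 ∂(gpi (Pair n))) ∂(gpi (Pair n)) =
        ∫ g, av n β (ps p) g ^ 2 ∂(gpi (Pair n)) := by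
      have h := int_mix (ι := Pair n) hcs (f := fun g => av n β (ps p) g ^ 2)
        ((lin_av n β (ps p)).cont.pow 2)
      rw [integral_prod _ m2] at h
      exact h
    rw [← e1]
    have i1 : Integrable (fun z => ∫ y, av n β (ps p) (mixed n a z y) ^ 2 ∂(gpi (Pair n)))
        (gpi (Pair n)) := m2.integral_prod_left
    have i2 : Integrable (fun z => cm n β a p z ^ 2) (gpi (Pair n)) := int_cm_sq n β ha ha1 p
    have h2 := integral_mono i1 (i2.add (integrable_const ((1 - a) * (β ^ 2 * n / 2))))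
      (fun z => cond_poincare n β hn ha ha1 p z)
    simp only [Pi.add_apply] at h2
    rw [integral_add i2 (integrable_const _)] at h2
    simpa using h2
  have h2 : ∑ p : Pair n, ∫ z, cm n β 1 p z ^ 2 ∂(disorder n) ≤
      ∑ p : Pair n, ∫ z, cm n β a p z ^ 2 ∂(disorder n) +
        (n : ℝ) ^ 2 / 2 * ((1 - a) * (β ^ 2 * n / 2)) := by
    refine (Finset.sum_le_sum fun p _ => h1 p).trans ?_
    rw [Finset.sum_add_distrib, Finset.sum_const, nsmul_eq_mul, Finset.card_univ]
    have h7 : 0 ≤ (1 - a) * (β ^ 2 * n / 2) := mul_nonneg (by linarith) (by positivity)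
    have := mul_le_mul_of_nonneg_right (card_pair_le n) h7
    linarith
  have h3 := mul_le_mul_of_nonneg_left h2 (by positivity : 0 ≤ 2 / (n : ℝ) ^ 2)
  have e : 2 / (n : ℝ) ^ 2 * (∑ p : Pair n, ∫ z, cm n β a p z ^ 2 ∂(disorder n) +
        (n : ℝ) ^ 2 / 2 * ((1 - a) * (β ^ 2 * n / 2))) =
      2 / (n : ℝ) ^ 2 * ∑ p : Pair n, ∫ z, cm n β a p z ^ 2 ∂(disorder n) +
        (1 - a) * (β ^ 2 * n / 2) := by
    field_simp
  rw [e] at h3
  linarith

/-- Stein's identity for the energy and the tangent inequality in `β` -/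
theorem mean_tangent (hn : 1 ≤ n) (hβ : 0 < β) (β' : ℝ) :
    ∫ g, freeEnergy n β g ∂(disorder n) +
        (β' - β) * (β * n / 2) * (1 - crossOverlap n β 1) ≤
      ∫ g, freeEnergy n β' g ∂(disorder n) := by
  have hn0 : (0 : ℝ) < n := by exact_mod_cast hn
  have hr := reg_freeEnergy n β
  have h1 : ∀ p : Pair n, ∫ g, g p * gradF n β p g ∂(gpi (Pair n)) =
      β ^ 2 / n * (1 - ∫ g, av n β (ps p) g ^ 2 ∂(gpi (Pair n))) := by
    intro p
    rw [ibp p (hr.G_dom p) (hr.H_dom p) (fun g t => hr.G_diff p g t)]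
    have e : ∀ g, hessF n β p g = β ^ 2 / n + (-(β ^ 2 / n)) * (av n β (ps p) g ^ 2) := by
      intro g
      unfold hessF
      have e1 : symmDiff (ps p) (ps p) = ∅ := symmDiff_self _
      rw [e1, av_empty]
      have e2 : (β / Real.sqrt n) * ((β / Real.sqrt n) * (1 - av n β (ps p) g * av n β (ps p) g)) =
        (β / Real.sqrt n) ^ 2 * (1 - av n β (ps p) g ^ 2) := by ring
      rw [e2, div_pow, Real.sq_sqrt hn0.le]
      ring
    simp_rw [e]
    rw [int_add (Dom.const _) (((av_dom n β (ps p)).pow 2).const_mul _), integral_const_mul]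
    simp
    ring
  have h2 : ∀ g : Pair n → ℝ, freeEnergy n β g + ∑ p, (β' / β - 1) * (g p * gradF n β p g) ≤
      freeEnergy n β' g := by
    intro g
    have h3 := tangent_freeEnergy n β g (fun p => (β' / β - 1) * g p)
    have e1 : freeEnergy n β (fun p => g p + (β' / β - 1) * g p) = freeEnergy n β' g := by
      unfold freeEnergy partitionFn
      congr 1
      refine Finset.sum_congr rfl fun σ _ => ?_
      congr 1
      unfold hamiltonian
      rw [← mul_assoc, ← mul_assoc, Finset.mul_sum, Finset.mul_sum]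
      refine Finset.sum_congr rfl fun p _ => ?_
      field_simp
      ring
    rw [e1] at h3
    refine le_trans (le_of_eq ?_) h3
    congr 1
    exact Finset.sum_congr rfl fun p _ => by ring
  have dG : ∀ p : Pair n, Dom (fun g : Pair n → ℝ => (β' / β - 1) * (g p * gradF n β p g)) :=
    fun p => ((Dom.coord p).mul (hr.G_dom p)).const_mul _
  have h3 := int_mono ((freeEnergy_dom n β).add (Dom.sum Finset.univ fun p _ => dG p))
    (freeEnergy_dom n β') h2
  rw [int_add (freeEnergy_dom n β) (Dom.sum Finset.univ fun p _ => dG p),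
    int_sum _ fun p _ => dG p] at h3
  simp_rw [integral_const_mul, h1] at h3
  rw [← Finset.mul_sum, ← Finset.mul_sum, Finset.sum_sub_distrib] at h3
  have e4 : ∑ _p : Pair n, (1 : ℝ) = ((n : ℝ) ^ 2 - n) / 2 := by
    have h := Vale.Agent.P146.Ub.rc_pair_sq (n := n) (fun _ => 1)
    simpa using h
  have e5 : crossOverlap n β 1 = 1 / n + 2 / (n : ℝ) ^ 2 *
      ∑ p : Pair n, ∫ g, av n β (ps p) g ^ 2 ∂(gpi (Pair n)) := by
    rw [crossOverlap_eq n β hn zero_le_one le_rfl]
    simp_rw [cm_one, disorder_eq]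
  rw [e4] at h3
  rw [e5, disorder_eq]
  refine le_trans (le_of_eq ?_) h3
  congr 1
  field_simp
  ring

end sk

end Vale.Agent.P146.H605
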