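import Vale.Agent.P146.H605.RegA

/-!
# P146: the exponential moment of the overlap of correlated copies is monotone along a curve
-/

open MeasureTheory ProbabilityTheory

namespace Vale.Agent.P146.H605

open Vale.Agent.P146.Ub.Cv

section point

variable {ι S : Type*} [Fintype ι] [Fintype S]

/-- the pointwise inequality -/
lemma point_ineq (a : S → ι → ℝ) (w : S → S → ℝ) {b : ℝ} (hb : 0 ≤ b)
    (hw0 : ∀ s t, 0 ≤ w s t) (hw : ∀ s t, ∑ i, a s i * a t i = b / 2 * (w s t - 1))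
    {l : ℝ} (hl : 0 ≤ l) (μ ν : S → ℝ) (hμ : ∀ s, 0 ≤ μ s) (hν : ∀ s, 0 ≤ ν s)
    (hμ1 : ∑ s, μ s = 1) (hν1 : ∑ s, ν s = 1) :
    ∑ s, ∑ t, Real.exp (l * w s t) * (∑ i, (μ s * (a s i - ∑ x, μ x * a x i)) *
        (ν t * (a t i - ∑ y, ν y * a y i))) ≤
      ∑ s, ∑ t, Real.exp (l * w s t) * (b * w s t * (μ s * ν t)) := by
  obtain ⟨W, hW⟩ : ∃ W, W = ∑ x, ∑ y, μ x * ν y * w x y := ⟨_, rfl⟩
  have p1 : ∀ s, ∑ y, ν y * (∑ i, a s i * a y i) = b / 2 * (∑ y, ν y * w s y - 1) := by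
    intro s
    simp_rw [hw]
    have : ∀ y, ν y * (b / 2 * (w s y - 1)) = b / 2 * (ν y * w s y - ν y) := fun y => by ring
    simp_rw [this]
    rw [← Finset.mul_sum, Finset.sum_sub_distrib, hν1]
  have p2 : ∀ t, ∑ x, μ x * (∑ i, a x i * a t i) = b / 2 * (∑ x, μ x * w x t - 1) := by
    intro t
    simp_rw [hw]
    have : ∀ x, μ x * (b / 2 * (w x t - 1)) = b / 2 * (μ x * w x t - μ x) := fun y => by ring
    simp_rw [this]
    rw [← Finset.mul_sum, Finset.sum_sub_distrib, hμ1]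
  have p3 : ∑ x, ∑ y, μ x * ν y * (∑ i, a x i * a y i) = b / 2 * (W - 1) := by
    have h1 : ∀ x, ∑ y, μ x * ν y * (∑ i, a x i * a y i) =
        b / 2 * (∑ y, μ x * ν y * w x y - μ x) := by
      intro x
      have h2 : ∑ y, μ x * ν y * (∑ i, a x i * a y i) =
          μ x * ∑ y, ν y * (∑ i, a x i * a y i) := by
        rw [Finset.mul_sum]
        exact Finset.sum_congr rfl fun y _ => by ring
      have h3 : ∑ y, μ x * ν y * w x y = μ x * ∑ y, ν y * w x y := by
        rw [Finset.mul_sum]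
        exact Finset.sum_congr rfl fun y _ => by ring
      rw [h2, p1, h3]
      ring
    simp_rw [h1]
    rw [← Finset.mul_sum, Finset.sum_sub_distrib, hμ1, hW]
  have e1 : ∀ s t, ∑ i, (a s i - ∑ x, μ x * a x i) * (a t i - ∑ y, ν y * a y i) =
      b / 2 * (w s t - ∑ y, ν y * w s y - ∑ x, μ x * w x t + W) := by
    intro s t
    have q : ∀ i, (a s i - ∑ x, μ x * a x i) * (a t i - ∑ y, ν y * a y i) =
        a s i * a t i - a s i * (∑ y, ν y * a y i) - (∑ x, μ x * a x i) * a t i +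
          (∑ x, μ x * a x i) * (∑ y, ν y * a y i) := fun i => by ring
    simp_rw [q]
    rw [Finset.sum_add_distrib, Finset.sum_sub_distrib, Finset.sum_sub_distrib, hw]
    have q1 : ∑ i, a s i * (∑ y, ν y * a y i) = ∑ y, ν y * (∑ i, a s i * a y i) := by
      simp_rw [Finset.mul_sum]
      rw [Finset.sum_comm]
      exact Finset.sum_congr rfl fun y _ => Finset.sum_congr rfl fun i _ => by ring
    have q2 : ∑ i, (∑ x, μ x * a x i) * a t i = ∑ x, μ x * (∑ i, a x i * a t i) := by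
      simp_rw [Finset.mul_sum, Finset.sum_mul]
      rw [Finset.sum_comm]
      exact Finset.sum_congr rfl fun y _ => Finset.sum_congr rfl fun i _ => by ring
    have q3 : ∑ i, (∑ x, μ x * a x i) * (∑ y, ν y * a y i) =
        ∑ x, ∑ y, μ x * ν y * (∑ i, a x i * a y i) := by
      simp_rw [Finset.sum_mul_sum, Finset.mul_sum]
      rw [Finset.sum_comm]
      refine Finset.sum_congr rfl fun x _ => ?_
      rw [Finset.sum_comm]
      exact Finset.sum_congr rfl fun y _ => Finset.sum_congr rfl fun i _ => by ring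
    rw [q1, q2, q3, p1, p2, p3]
    ring
  have e2 : ∀ s t, ∑ i, (μ s * (a s i - ∑ x, μ x * a x i)) *
      (ν t * (a t i - ∑ y, ν y * a y i)) =
      μ s * ν t * (b / 2 * (w s t - ∑ y, ν y * w s y - ∑ x, μ x * w x t + W)) := by
    intro s t
    rw [← e1, Finset.mul_sum]
    exact Finset.sum_congr rfl fun i _ => by ring
  simp_rw [e2]
  -- first step
  have s1 : ∑ s, ∑ t, Real.exp (l * w s t) * (μ s * ν t *
      (b / 2 * (w s t - ∑ y, ν y * w s y - ∑ x, μ x * w x t + W))) ≤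
      ∑ s, ∑ t, Real.exp (l * w s t) * (μ s * ν t * (b / 2 * (w s t + W))) := by
    refine Finset.sum_le_sum fun s _ => Finset.sum_le_sum fun t _ => ?_
    refine mul_le_mul_of_nonneg_left ?_ (Real.exp_pos _).le
    refine mul_le_mul_of_nonneg_left ?_ (mul_nonneg (hμ s) (hν t))
    refine mul_le_mul_of_nonneg_left ?_ (by linarith)
    have h1 : 0 ≤ ∑ y, ν y * w s y := Finset.sum_nonneg fun y _ => mul_nonneg (hν y) (hw0 _ _)
    have h2 : 0 ≤ ∑ x, μ x * w x t := Finset.sum_nonneg fun y _ => mul_nonneg (hμ y) (hw0 _ _)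
    linarith
  -- Chebyshev
  have s2 : 0 ≤ ∑ s, ∑ t, μ s * ν t * (Real.exp (l * w s t) * (w s t - W)) := by
    have h1 : ∑ s, ∑ t, μ s * ν t * (Real.exp (l * W) * (w s t - W)) ≤
        ∑ s, ∑ t, μ s * ν t * (Real.exp (l * w s t) * (w s t - W)) := by
      refine Finset.sum_le_sum fun s _ => Finset.sum_le_sum fun t _ => ?_
      refine mul_le_mul_of_nonneg_left ?_ (mul_nonneg (hμ s) (hν t))
      rcases le_total W (w s t) with h | h
      · exact mul_le_mul_of_nonneg_right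
          (Real.exp_le_exp.2 (mul_le_mul_of_nonneg_left h hl)) (by linarith)
      · exact mul_le_mul_of_nonpos_right
          (Real.exp_le_exp.2 (mul_le_mul_of_nonneg_left h hl)) (by linarith)
    have h2 : ∑ s, ∑ t, μ s * ν t * (Real.exp (l * W) * (w s t - W)) = 0 := by
      have h3 : ∀ s t, μ s * ν t * (Real.exp (l * W) * (w s t - W)) =
          Real.exp (l * W) * (μ s * ν t * w s t) - Real.exp (l * W) * W * (μ s * ν t) :=
        fun s t => by ring
      simp_rw [h3, Finset.sum_sub_distrib, ← Finset.mul_sum]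
      rw [← hW]
      simp_rw [hν1, mul_one, hμ1]
      ring
    linarith
  have s3 : ∑ s, ∑ t, Real.exp (l * w s t) * (b * w s t * (μ s * ν t)) -
      ∑ s, ∑ t, Real.exp (l * w s t) * (μ s * ν t * (b / 2 * (w s t + W))) =
      b / 2 * ∑ s, ∑ t, μ s * ν t * (Real.exp (l * w s t) * (w s t - W)) := by
    rw [← Finset.sum_sub_distrib, Finset.mul_sum]
    refine Finset.sum_congr rfl fun s _ => ?_
    rw [← Finset.sum_sub_distrib, Finset.mul_sum]
    exact Finset.sum_congr rfl fun t _ => by ring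
  have s4 := mul_nonneg (show 0 ≤ b / 2 by linarith) s2
  linarith

end point

section trans

variable {ι S : Type*} [Fintype ι] [Fintype S] [Nonempty S] [DecidableEq ι] [DecidableEq S]
  (a : S → ι → ℝ) (c : S → ℝ)

/-- Gibbs probability of a configuration -/
noncomputable def pr (s : S) (g : ι → ℝ) : ℝ := gav a c (Pi.single s 1) g

omit [Nonempty S] [DecidableEq ι] in
lemma pr_eq (s : S) (g : ι → ℝ) : pr a c s g = wt a c g s / zz a c g := by
  unfold pr gav
  congr 1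
  rw [Finset.sum_eq_single s]
  · simp
  · intro x _ hx
    simp [Pi.single_eq_of_ne hx]
  · intro h
    exact absurd (Finset.mem_univ s) h

omit [DecidableEq ι] in
lemma pr_nonneg (s : S) (g : ι → ℝ) : 0 ≤ pr a c s g := by
  rw [pr_eq]
  exact div_nonneg (wt_pos a c g s).le (zz_pos a c g).le

omit [Nonempty S] [DecidableEq ι] in
lemma sum_pr (f : S → ℝ) (g : ι → ℝ) : ∑ s, pr a c s g * f s = gav a c f g := by
  unfold gav
  rw [Finset.sum_div]
  refine Finset.sum_congr rfl fun s _ => ?_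
  rw [pr_eq]
  ring

omit [DecidableEq ι] in
lemma sum_pr_one (g : ι → ℝ) : ∑ s, pr a c s g = 1 := by
  have h := sum_pr a c (fun _ => 1) g
  simp only [mul_one] at h
  rw [h]
  exact gav_const a c 1 g

omit [Nonempty S] [DecidableEq ι] in
lemma gG_single (s : S) (i : ι) (g : ι → ℝ) :
    gG a c (Pi.single s 1) i g = pr a c s g * (a s i - ∑ x, pr a c x g * a x i) := by
  unfold gG
  rw [sum_pr a c (fun x => a x i) g, mul_sub]
  congr 1
  rw [← sum_pr a c (fun x => (Pi.single s (1 : ℝ) : S → ℝ) x * a x i) g, Finset.sum_eq_single s]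
  · simp
  · intro x _ hx
    simp [Pi.single_eq_of_ne hx]
  · intro h
    exact absurd (Finset.mem_univ s) h

/-- `E ⟨exp (l w)⟩` for two correlated copies -/
noncomputable def DD (w : S → S → ℝ) (l : ℝ) (θ : ℝ) : ℝ :=
  ∑ s, ∑ t, Real.exp (l * w s t) * KB (pr a c s) (pr a c t) θ

lemma reg_pr (s : S) : ∃ B, Reg (pr a c s) (gG a c (Pi.single s 1)) (gH a c (Pi.single s 1)) B :=
  reg_gav a c (Pi.single s 1)

omit [Nonempty S] [DecidableEq ι] in
lemma DD_sym (w : S → S → ℝ) (hsym : ∀ s t, w s t = w t s) (l θ : ℝ) :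
    DD a c w l θ = 1 / 2 * ∑ s, ∑ t, Real.exp (l * w s t) *
      (KB (pr a c s) (pr a c t) θ + KB (pr a c t) (pr a c s) θ) := by
  have h : ∑ s, ∑ t, Real.exp (l * w s t) * KB (pr a c t) (pr a c s) θ = DD a c w l θ := by
    rw [Finset.sum_comm]
    unfold DD
    exact Finset.sum_congr rfl fun s _ => Finset.sum_congr rfl fun t _ => by rw [hsym]
  simp_rw [mul_add, Finset.sum_add_distrib]
  rw [h]
  unfold DD
  ring

lemma T_nonneg (w : S → S → ℝ) {b : ℝ} (hb : 0 ≤ b) (hw0 : ∀ s t, 0 ≤ w s t)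
    (hw : ∀ s t, ∑ i, a s i * a t i = b / 2 * (w s t - 1)) {l : ℝ} (hl : 0 ≤ l) (θ : ℝ) :
    0 ≤ ∑ s, ∑ t, Real.exp (l * w s t) * (b * w s t * KB (pr a c s) (pr a c t) θ -
      PB (gG a c (Pi.single s 1)) (gG a c (Pi.single t 1)) θ) := by
  have hc := Real.abs_cos_le_one θ
  have hs := Real.abs_sin_le_one θ
  have dA : ∀ s : S, Dom (fun g : J3 ι → ℝ =>
      pr a c s (mix (Real.cos θ) (Real.sin θ) (pu g) (pv g))) :=
    fun s => dom_uv (gav_dom a c (Pi.single s 1)) hc hs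
  have dB : ∀ s : S, Dom (fun g : J3 ι → ℝ =>
      pr a c s (mix (Real.cos θ) (Real.sin θ) (pu g) (pw g))) :=
    fun s => dom_uw (gav_dom a c (Pi.single s 1)) hc hs
  have dG : ∀ (s : S) (i : ι), Dom (gG a c (Pi.single s 1) i) := fun s i => by
    obtain ⟨B, hB⟩ := reg_pr a c s
    exact hB.G_dom i
  have dGA : ∀ (s : S) (i : ι), Dom (fun g : J3 ι → ℝ =>
      gG a c (Pi.single s 1) i (mix (Real.cos θ) (Real.sin θ) (pu g) (pv g))) :=
    fun s i => dom_uv (dG s i) hc hs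
  have dGB : ∀ (s : S) (i : ι), Dom (fun g : J3 ι → ℝ =>
      gG a c (Pi.single s 1) i (mix (Real.cos θ) (Real.sin θ) (pu g) (pw g))) :=
    fun s i => dom_uw (dG s i) hc hs
  have e : ∑ s, ∑ t, Real.exp (l * w s t) * (b * w s t * KB (pr a c s) (pr a c t) θ -
      PB (gG a c (Pi.single s 1)) (gG a c (Pi.single t 1)) θ) =
      ∫ g : J3 ι → ℝ, ∑ s, ∑ t, Real.exp (l * w s t) * (b * w s t *
        (pr a c s (mix (Real.cos θ) (Real.sin θ) (pu g) (pv g)) *
          pr a c t (mix (Real.cos θ) (Real.sin θ) (pu g) (pw g))) -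
        ∑ i, gG a c (Pi.single s 1) i (mix (Real.cos θ) (Real.sin θ) (pu g) (pv g)) *
          gG a c (Pi.single t 1) i (mix (Real.cos θ) (Real.sin θ) (pu g) (pw g)))
        ∂(gpi (J3 ι)) := by
    have d1 : ∀ s t : S, Dom (fun g : J3 ι → ℝ => Real.exp (l * w s t) * (b * w s t *
        (pr a c s (mix (Real.cos θ) (Real.sin θ) (pu g) (pv g)) *
          pr a c t (mix (Real.cos θ) (Real.sin θ) (pu g) (pw g))) -
        ∑ i, gG a c (Pi.single s 1) i (mix (Real.cos θ) (Real.sin θ) (pu g) (pv g)) *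
          gG a c (Pi.single t 1) i (mix (Real.cos θ) (Real.sin θ) (pu g) (pw g)))) := fun s t =>
      ((((dA s).mul (dB t)).const_mul _).sub
        (Dom.sum _ fun i _ => (dGA s i).mul (dGB t i))).const_mul _
    rw [int_sum _ fun s _ => Dom.sum _ fun t _ => d1 s t]
    refine Finset.sum_congr rfl fun s _ => ?_
    rw [int_sum _ fun t _ => d1 s t]
    refine Finset.sum_congr rfl fun t _ => ?_
    rw [integral_const_mul, int_sub (((dA s).mul (dB t)).const_mul _)
      (Dom.sum _ fun i _ => (dGA s i).mul (dGB t i)), integral_const_mul]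
    rfl
  rw [e]
  refine integral_nonneg fun g => ?_
  obtain ⟨A, hA⟩ : ∃ A, A = mix (Real.cos θ) (Real.sin θ) (pu g) (pv g) := ⟨_, rfl⟩
  obtain ⟨B, hB⟩ : ∃ B, B = mix (Real.cos θ) (Real.sin θ) (pu g) (pw g) := ⟨_, rfl⟩
  have h := point_ineq a w hb hw0 hw hl (fun s => pr a c s A) (fun s => pr a c s B)
    (fun s => pr_nonneg a c s A) (fun s => pr_nonneg a c s B) (sum_pr_one a c A)
    (sum_pr_one a c B)
  simp only [← hA, ← hB, gG_single, Pi.zero_apply]
  simp_rw [mul_sub, Finset.sum_sub_distrib]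
  simp_rw [mul_sub, Finset.sum_sub_distrib] at h
  linarith

/-- **Monotonicity.**  `θ ↦ E ⟨exp ((l₀ - b cos² θ) w)⟩` is monotone where the exponent is
nonnegative. -/
theorem DD_mono (w : S → S → ℝ) {b : ℝ} (hb : 0 ≤ b) (hw0 : ∀ s t, 0 ≤ w s t)
    (hsym : ∀ s t, w s t = w t s)
    (hw : ∀ s t, ∑ i, a s i * a t i = b / 2 * (w s t - 1)) {l₀ θ₁ : ℝ} (h0 : 0 ≤ θ₁)
    (h1 : θ₁ ≤ Real.pi / 2) (hl : 0 ≤ l₀ - b * Real.cos θ₁ ^ 2) :
    DD a c w (l₀ - b * Real.cos θ₁ ^ 2) θ₁ ≤ DD a c w l₀ (Real.pi / 2) := by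
  obtain ⟨L, hL⟩ : ∃ L : ℝ → ℝ, L = fun θ => l₀ - b * Real.cos θ ^ 2 := ⟨_, rfl⟩
  have dL : ∀ θ, HasDerivAt L (b * (2 * Real.sin θ * Real.cos θ)) θ := by
    intro θ
    rw [hL]
    refine ((((Real.hasDerivAt_cos θ).fun_pow 2).const_mul b).const_sub l₀).congr_deriv ?_
    rw [Nat.cast_ofNat, show (2 - 1 : ℕ) = 1 from rfl, pow_one]
    ring
  have dD : ∀ θ, HasDerivAt (fun θ => DD a c w (L θ) θ)
      (1 / 2 * ∑ s, ∑ t, (Real.exp (L θ * w s t) * (b * (2 * Real.sin θ * Real.cos θ) * w s t) *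
        (KB (pr a c s) (pr a c t) θ + KB (pr a c t) (pr a c s) θ) +
        Real.exp (L θ * w s t) * (-(2 * Real.sin θ * Real.cos θ) *
          (PB (gG a c (Pi.single s 1)) (gG a c (Pi.single t 1)) θ +
            PB (gG a c (Pi.single t 1)) (gG a c (Pi.single s 1)) θ)))) θ := by
    intro θ
    have e : (fun θ => DD a c w (L θ) θ) = fun θ => 1 / 2 * ∑ s, ∑ t, Real.exp (L θ * w s t) *
      (KB (pr a c s) (pr a c t) θ + KB (pr a c t) (pr a c s) θ) := by
      funext θ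
      exact DD_sym a c w hsym (L θ) θ
    rw [e]
    refine HasDerivAt.const_mul _ (HasDerivAt.fun_sum fun s _ => HasDerivAt.fun_sum fun t _ => ?_)
    obtain ⟨B₁, r₁⟩ := reg_pr a c s
    obtain ⟨B₂, r₂⟩ := reg_pr a c t
    exact (((dL θ).mul_const (w s t)).exp).mul (hasDerivAt_KB r₁ r₂ θ)
  have val : ∀ θ, (1 / 2 * ∑ s, ∑ t, (Real.exp (L θ * w s t) *
        (b * (2 * Real.sin θ * Real.cos θ) * w s t) *
        (KB (pr a c s) (pr a c t) θ + KB (pr a c t) (pr a c s) θ) +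
        Real.exp (L θ * w s t) * (-(2 * Real.sin θ * Real.cos θ) *
          (PB (gG a c (Pi.single s 1)) (gG a c (Pi.single t 1)) θ +
            PB (gG a c (Pi.single t 1)) (gG a c (Pi.single s 1)) θ)))) =
      (2 * Real.sin θ * Real.cos θ) *
        ∑ s, ∑ t, Real.exp (L θ * w s t) * (b * w s t * KB (pr a c s) (pr a c t) θ -
      PB (gG a c (Pi.single s 1)) (gG a c (Pi.single t 1)) θ) := by
    intro θ
    obtain ⟨T, hT⟩ : ∃ T, T = ∑ s, ∑ t, Real.exp (L θ * w s t) *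
      (b * w s t * KB (pr a c s) (pr a c t) θ -
      PB (gG a c (Pi.single s 1)) (gG a c (Pi.single t 1)) θ) := ⟨_, rfl⟩
    have hT' : T = ∑ s, ∑ t, Real.exp (L θ * w s t) *
      (b * w s t * KB (pr a c t) (pr a c s) θ -
      PB (gG a c (Pi.single t 1)) (gG a c (Pi.single s 1)) θ) := by
      rw [hT, Finset.sum_comm]
      exact Finset.sum_congr rfl fun s _ => Finset.sum_congr rfl fun t _ => by rw [hsym]
    rw [← hT]
    have h2 : (2 * Real.sin θ * Real.cos θ) * T = 1 / 2 * ((2 * Real.sin θ * Real.cos θ) * T +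
      (2 * Real.sin θ * Real.cos θ) * T) := by ring
    rw [h2]
    congr 1
    nth_rewrite 1 [hT]
    rw [hT', Finset.mul_sum, Finset.mul_sum, ← Finset.sum_add_distrib]
    refine Finset.sum_congr rfl fun s _ => ?_
    rw [Finset.mul_sum, Finset.mul_sum, ← Finset.sum_add_distrib]
    refine Finset.sum_congr rfl fun t _ => ?_
    ring
  have hLnn : ∀ θ ∈ Set.Icc θ₁ (Real.pi / 2), 0 ≤ L θ := by
    intro θ hθ
    rw [hL]
    simp only
    have hc1 : Real.cos θ ≤ Real.cos θ₁ :=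
      Real.cos_le_cos_of_nonneg_of_le_pi h0 (by linarith [hθ.2, Real.pi_pos]) hθ.1
    have hc0 : 0 ≤ Real.cos θ :=
      Real.cos_nonneg_of_neg_pi_div_two_le_of_le (by linarith [hθ.1, Real.pi_pos]) hθ.2
    have h3 : b * Real.cos θ ^ 2 ≤ b * Real.cos θ₁ ^ 2 :=
      mul_le_mul_of_nonneg_left (pow_le_pow_left₀ hc0 hc1 2) hb
    linarith
  have mono : MonotoneOn (fun θ => DD a c w (L θ) θ) (Set.Icc θ₁ (Real.pi / 2)) := by
    refine monotoneOn_of_deriv_nonneg (convex_Icc _ _)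
      (fun θ _ => (dD θ).continuousAt.continuousWithinAt)
      (fun θ _ => (dD θ).differentiableAt.differentiableWithinAt) fun θ hθ => ?_
    have hθ' := interior_subset hθ
    rw [(dD θ).deriv, val θ]
    have s0 : 0 ≤ Real.sin θ :=
      Real.sin_nonneg_of_nonneg_of_le_pi (h0.trans hθ'.1) (by linarith [hθ'.2, Real.pi_pos])
    have c0 : 0 ≤ Real.cos θ :=
      Real.cos_nonneg_of_neg_pi_div_two_le_of_le (by linarith [hθ'.1, Real.pi_pos]) hθ'.2
    exact mul_nonneg (by positivity) (T_nonneg a c w hb hw0 hw (hLnn θ hθ') θ)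
  have h2 := mono (Set.left_mem_Icc.2 h1) (Set.right_mem_Icc.2 h1) h1
  simp only [hL] at h2
  rw [Real.cos_pi_div_two] at h2
  norm_num at h2
  exact h2

end trans

end Vale.Agent.P146.H605
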