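import Vale.Agent.P146.H605.Stab
import Vale.Agent.P146.Bd5.B2

/-!
# P146: the variance formula, its converse, and the rate of disorder chaos
-/

open MeasureTheory ProbabilityTheory

namespace Vale.Agent.P146.H605

open Vale.Agent.P146.Ub.Cv

section gen

variable {ι : Type*} [Fintype ι] [DecidableEq ι] {F : (ι → ℝ) → ℝ} {G H : ι → (ι → ℝ) → ℝ}
  {B : ℝ}

lemma phi_cont (h : Reg F G H B) : Continuous (phi G) := by
  unfold phi
  refine continuous_of_dominated (bound := fun _ => ∑ _i : ι, |B| * |B|) (fun θ => ?_)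
    (fun θ => Filter.Eventually.of_forall fun g => ?_) (integrable_const _)
    (Filter.Eventually.of_forall fun g => ?_)
  · exact (Dom.sum Finset.univ fun i _ => (dom_uv (h.G_dom i) (Real.abs_cos_le_one θ)
      (Real.abs_sin_le_one θ)).mul (dom_uw (h.G_dom i) (Real.abs_cos_le_one θ)
      (Real.abs_sin_le_one θ))).cont.aestronglyMeasurable
  · rw [Real.norm_eq_abs]
    refine (Finset.abs_sum_le_sum_abs _ _).trans (Finset.sum_le_sum fun i _ => ?_)
    rw [abs_mul]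
    exact mul_le_mul ((h.G_bd i _).trans (le_abs_self B)) ((h.G_bd i _).trans (le_abs_self B))
      (abs_nonneg _) (abs_nonneg _)
  · refine continuous_finsetSum _ fun i _ => ?_
    exact ((h.G_dom i).cont.comp (cont_mix Real.continuous_cos Real.continuous_sin
      continuous_const continuous_const)).mul
      ((h.G_dom i).cont.comp (cont_mix Real.continuous_cos Real.continuous_sin
      continuous_const continuous_const))

/-- the second half of the proof of `var_le_of_exp_moment` -/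
lemma var_le_of_phi (h : Reg F G H B) {M A : ℝ} (b2 : ∀ θ, phi G θ ≤ M)
    (b1 : ∀ θ, 0 < θ → θ ≤ Real.pi / 2 → Real.sin θ ^ 2 * phi G θ ≤ A) {u : ℝ} (hu : 0 < u) (hu1 : u ≤ 1) :
    ∫ g, F g ^ 2 ∂(gpi ι) - (∫ g, F g ∂(gpi ι)) ^ 2 ≤ M * u + A * (-Real.log u) := by
  have dsq : ∀ θ, HasDerivAt (fun θ => Real.sin θ ^ 2) (2 * Real.sin θ * Real.cos θ) θ := by
    intro θ
    refine ((Real.hasDerivAt_sin θ).fun_pow 2).congr_deriv ?_
    simp
  have sc : ∀ θ, 0 ≤ θ → θ ≤ Real.pi / 2 → 0 ≤ Real.sin θ ∧ 0 ≤ Real.cos θ := fun θ h0 h1 =>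
    ⟨Real.sin_nonneg_of_nonneg_of_le_pi h0 (by linarith [Real.pi_pos]),
      Real.cos_nonneg_of_neg_pi_div_two_le_of_le (by linarith [Real.pi_pos]) h1⟩
  set t := Real.arcsin (√u) with ht
  have hsu : 0 < √u := Real.sqrt_pos.2 hu
  have hsu1 : √u ≤ 1 := by
    rw [Real.sqrt_le_iff]; constructor <;> linarith
  have hst : Real.sin t = √u := Real.sin_arcsin (by linarith) hsu1
  have hst2 : Real.sin t ^ 2 = u := by rw [hst, Real.sq_sqrt hu.le]
  have ht0 : 0 < t := Real.arcsin_pos.2 hsu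
  have ht1 : t ≤ Real.pi / 2 := Real.arcsin_le_pi_div_two _
  have p1 : KK F 0 ≤ KK F t + M * u := by
    set D : ℝ → ℝ := fun θ => KK F θ + M * Real.sin θ ^ 2 with hD
    have dD : ∀ θ, HasDerivAt D (-(2 * Real.sin θ * Real.cos θ) * phi G θ +
        M * (2 * Real.sin θ * Real.cos θ)) θ := fun θ =>
      (hasDerivAt_KK h θ).add ((dsq θ).const_mul M)
    have mono : MonotoneOn D (Set.Icc 0 t) := by
      refine monotoneOn_of_deriv_nonneg (convex_Icc _ _)
        (fun θ _ => (dD θ).continuousAt.continuousWithinAt)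
        (fun θ _ => (dD θ).differentiableAt.differentiableWithinAt) fun θ hθ => ?_
      rw [interior_Icc] at hθ
      rw [(dD θ).deriv]
      obtain ⟨s0, c0⟩ := sc θ hθ.1.le (hθ.2.le.trans ht1)
      have h5 : -(2 * Real.sin θ * Real.cos θ) * phi G θ +
          M * (2 * Real.sin θ * Real.cos θ) =
          (2 * Real.sin θ * Real.cos θ) * (M - phi G θ) := by ring
      rw [h5]
      exact mul_nonneg (by (clear * - s0 c0; positivity)) (by linarith [b2 θ])
    have h6 := mono (Set.left_mem_Icc.2 ht0.le) (Set.right_mem_Icc.2 ht0.le) ht0.le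
    simp only [hD] at h6
    rw [hst2, Real.sin_zero] at h6
    linarith
  have p2 : KK F t ≤ KK F (Real.pi / 2) + A * (-Real.log u) := by
    set D : ℝ → ℝ := fun θ => KK F θ + A * Real.log (Real.sin θ ^ 2) with hD
    have spos : ∀ θ ∈ Set.Icc t (Real.pi / 2), 0 < Real.sin θ := fun θ hθ =>
      Real.sin_pos_of_pos_of_lt_pi (ht0.trans_le hθ.1) (by linarith [hθ.2, Real.pi_pos])
    have dD : ∀ θ ∈ Set.Icc t (Real.pi / 2), HasDerivAt D
        (-(2 * Real.sin θ * Real.cos θ) * phi G θ +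
        A * ((2 * Real.sin θ * Real.cos θ) / Real.sin θ ^ 2)) θ := fun θ hθ =>
      (hasDerivAt_KK h θ).add (((dsq θ).log (pow_pos (spos θ hθ) 2).ne').const_mul A)
    have mono : MonotoneOn D (Set.Icc t (Real.pi / 2)) := by
      refine monotoneOn_of_deriv_nonneg (convex_Icc _ _)
        (fun θ hθ => (dD θ hθ).continuousAt.continuousWithinAt)
        (fun θ hθ => (dD θ (interior_subset hθ)).differentiableAt.differentiableWithinAt)
        fun θ hθ => ?_
      have hθ' := interior_subset hθ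
      rw [(dD θ hθ').deriv]
      obtain ⟨s0, c0⟩ := sc θ (ht0.le.trans hθ'.1) hθ'.2
      have s1 := spos θ hθ'
      have h4 : phi G θ ≤ A / Real.sin θ ^ 2 := by
        rw [le_div_iff₀ (pow_pos s1 2)]
        linarith [b1 θ (ht0.trans_le hθ'.1) hθ'.2]
      have h5 : -(2 * Real.sin θ * Real.cos θ) * phi G θ +
          A * ((2 * Real.sin θ * Real.cos θ) / Real.sin θ ^ 2) =
          (2 * Real.sin θ * Real.cos θ) * (A / Real.sin θ ^ 2 - phi G θ) := by
        field_simp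
        ring
      rw [h5]
      exact mul_nonneg (by (clear * - s1 c0; positivity)) (by linarith only [h4])
    have h6 := mono (Set.left_mem_Icc.2 ht1) (Set.right_mem_Icc.2 ht1) ht1
    simp only [hD] at h6
    rw [hst2, Real.sin_pi_div_two] at h6
    norm_num at h6
    linarith only [h6]
  rw [KK_zero h.F_dom] at p1
  rw [KK_pi h.F_dom] at p2
  linarith

end gen

section sk

variable (n : ℕ) (β : ℝ)

/-- the derivative of the covariance of two correlated copies of the free energy -/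
noncomputable def prof (a : ℝ) : ℝ := β ^ 2 / 2 * (n * crossOverlap n β a - 1)

lemma sum_gradF_cm (hn : 1 ≤ n) {a : ℝ} (ha : 0 ≤ a) (ha1 : a ≤ 1) :
    ∑ p : Pair n, ∫ z, (∫ y, gradF n β p (mix (Real.sqrt a) (Real.sqrt (1 - a)) z y)
      ∂(gpi (Pair n))) ^ 2 ∂(gpi (Pair n)) = prof n β a := by
  have hn0 : (0 : ℝ) < n := by exact_mod_cast hn
  have e2 : ∀ p : Pair n, ∫ z, (∫ y, gradF n β p (mix (Real.sqrt a) (Real.sqrt (1 - a)) z y)
      ∂(gpi (Pair n))) ^ 2 ∂(gpi (Pair n)) = β ^ 2 / n * ∫ z, cm n β a p z ^ 2 ∂(disorder n) := by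
    intro p
    rw [← integral_const_mul]
    refine integral_congr_ae (Filter.Eventually.of_forall fun z => ?_)
    simp only
    unfold gradF
    rw [integral_const_mul, mul_pow, div_pow, Real.sq_sqrt hn0.le]
    rfl
  simp_rw [e2]
  rw [← Finset.mul_sum]
  unfold prof
  rw [crossOverlap_eq n β hn ha ha1]
  field_simp
  ring

lemma phi_gradF (hn : 1 ≤ n) {θ : ℝ} (h0 : 0 ≤ θ) (h1 : θ ≤ Real.pi / 2) :
    phi (gradF n β) θ = prof n β (Real.cos θ ^ 2) := by
  have hs : 0 ≤ Real.sin θ := Real.sin_nonneg_of_nonneg_of_le_pi h0 (by linarith [Real.pi_pos])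
  have hc : 0 ≤ Real.cos θ :=
    Real.cos_nonneg_of_neg_pi_div_two_le_of_le (by linarith [Real.pi_pos]) h1
  have e1 : Real.sqrt (Real.cos θ ^ 2) = Real.cos θ := Real.sqrt_sq hc
  have e2 : Real.sqrt (1 - Real.cos θ ^ 2) = Real.sin θ := by
    rw [← Real.sin_sq, Real.sqrt_sq hs]
  rw [phi_eq (reg_freeEnergy n β).G_dom,
    ← sum_gradF_cm n β hn (sq_nonneg (Real.cos θ)) (Real.cos_sq_le_one θ), e1, e2]

lemma prof_eq_phi (hn : 1 ≤ n) {a : ℝ} (ha : 0 ≤ a) (ha1 : a ≤ 1) :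
    prof n β a = phi (gradF n β) (Real.arccos (Real.sqrt a)) := by
  have h1 : Real.sqrt a ≤ 1 := Real.sqrt_le_one.2 ha1
  have h0 : 0 ≤ Real.sqrt a := Real.sqrt_nonneg a
  rw [phi_gradF n β hn (Real.arccos_nonneg _) (Real.arccos_le_pi_div_two.2 h0),
    Real.cos_arccos (by linarith) h1, Real.sq_sqrt ha]

lemma prof_cont (hn : 1 ≤ n) : ContinuousOn (prof n β) (Set.Icc 0 1) := by
  have h1 : ContinuousOn (fun a => phi (gradF n β) (Real.arccos (Real.sqrt a))) (Set.Icc 0 1) :=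
    ((phi_cont (reg_freeEnergy n β)).comp
      (Real.continuous_arccos.comp Real.continuous_sqrt)).continuousOn
  exact h1.congr fun a ha => prof_eq_phi n β hn ha.1 ha.2

lemma var_eq : Var[freeEnergy n β; disorder n] =
    ∫ g, freeEnergy n β g ^ 2 ∂(gpi (Pair n)) - (∫ g, freeEnergy n β g ∂(gpi (Pair n))) ^ 2 := by
  have hd := freeEnergy_dom n β
  have hm : MemLp (freeEnergy n β) 2 (gpi (Pair n)) := by
    rw [memLp_two_iff_integrable_sq hd.cont.aestronglyMeasurable]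
    exact (hd.pow 2).integrable
  exact variance_eq_sub (μ := gpi (Pair n)) hm

/-- **The variance formula.** -/
theorem var_formula (hn : 1 ≤ n) : Var[freeEnergy n β; disorder n] =
    β ^ 2 / 2 * ∫ a in (0 : ℝ)..1, (n * crossOverlap n β a - 1) := by
  have hr := reg_freeEnergy n β
  have hpi : (0 : ℝ) ≤ Real.pi / 2 := by positivity
  have hcont := phi_cont hr
  have h1 : ∫ θ in (0 : ℝ)..(Real.pi / 2), -(2 * Real.sin θ * Real.cos θ) * phi (gradF n β) θ =
      KK (freeEnergy n β) (Real.pi / 2) - KK (freeEnergy n β) 0 := by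
    refine intervalIntegral.integral_eq_sub_of_hasDerivAt (fun θ _ => hasDerivAt_KK hr θ) ?_
    refine Continuous.intervalIntegrable ?_ _ _
    exact (((continuous_const.mul Real.continuous_sin).mul Real.continuous_cos).neg).mul hcont
  have h2 : ∫ θ in (0 : ℝ)..(Real.pi / 2), -(2 * Real.sin θ * Real.cos θ) * phi (gradF n β) θ =
      ∫ θ in (0 : ℝ)..(Real.pi / 2), (prof n β ∘ fun θ => Real.cos θ ^ 2) θ *
        (-(2 * Real.sin θ * Real.cos θ)) := by
    refine intervalIntegral.integral_congr fun θ hθ => ?_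
    rw [Set.uIcc_of_le hpi] at hθ
    simp only [Function.comp]
    rw [phi_gradF n β hn hθ.1 hθ.2]
    ring
  have h3 : ∫ θ in (0 : ℝ)..(Real.pi / 2), (prof n β ∘ fun θ => Real.cos θ ^ 2) θ *
        (-(2 * Real.sin θ * Real.cos θ)) =
      ∫ a in (Real.cos 0 ^ 2)..(Real.cos (Real.pi / 2) ^ 2), prof n β a := by
    refine intervalIntegral.integral_comp_mul_deriv'' (f := fun θ => Real.cos θ ^ 2)
      (f' := fun θ => -(2 * Real.sin θ * Real.cos θ)) (g := prof n β)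
      (by fun_prop) (fun θ _ => ?_) (by fun_prop) ?_
    · refine HasDerivAt.hasDerivWithinAt ?_
      refine ((Real.hasDerivAt_cos θ).fun_pow 2).congr_deriv ?_
      simp
      ring
    · refine (prof_cont n β hn).mono ?_
      rintro _ ⟨θ, _, rfl⟩
      exact ⟨sq_nonneg _, Real.cos_sq_le_one θ⟩
  rw [h2, h3, Real.cos_zero, Real.cos_pi_div_two, KK_zero hr.F_dom, KK_pi hr.F_dom] at h1
  norm_num at h1
  rw [intervalIntegral.integral_symm] at h1
  rw [var_eq]
  have h4 : ∫ a in (0 : ℝ)..1, prof n β a =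
      β ^ 2 / 2 * ∫ a in (0 : ℝ)..1, (n * crossOverlap n β a - 1) := by
    rw [← intervalIntegral.integral_const_mul]
    rfl
  rw [← h4]
  linarith

/-- **Converse.** -/
theorem var_le_of_prof (hn : 1 ≤ n) {A : ℝ}
    (hA : ∀ a : ℝ, 0 ≤ a → a < 1 → (1 - a) * (β ^ 2 / 2 * (n * crossOverlap n β a - 1)) ≤ A) :
    Var[freeEnergy n β; disorder n] ≤ A * Real.log n + β ^ 2 / 2 := by
  have hn1 : (1 : ℝ) ≤ n := by exact_mod_cast hn
  have hn0 : (0 : ℝ) < n := by linarith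
  have hr := reg_freeEnergy n β
  have h := var_le_of_phi hr (phi_le hr.G_dom (sum_gradF_sq n β)) (A := A) (fun θ h0 h1 => by
    rw [phi_gradF n β hn h0.le h1, Real.sin_sq]
    refine hA _ (sq_nonneg _) ?_
    have hs : 0 < Real.sin θ := Real.sin_pos_of_pos_of_lt_pi h0 (by linarith [Real.pi_pos])
    have h2 := Real.sin_sq_add_cos_sq θ
    nlinarith) (u := 1 / (n : ℝ)) (by positivity) (by rw [div_le_one hn0]; exact hn1)
  rw [var_eq]
  have h1 : β ^ 2 * n / 2 * (1 / n) = β ^ 2 / 2 := by field_simp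
  have h2 : -Real.log (1 / (n : ℝ)) = Real.log n := by rw [one_div, Real.log_inv, neg_neg]
  rw [h1, h2] at h
  linarith

/-- the rate of the profile -/
theorem phi_rate {β : ℝ} (hβ : 1 ≤ β) : ∃ C : ℝ, 1 ≤ C ∧ ∀ n : ℕ, 1 ≤ n → ∀ θ : ℝ,
    Real.sin θ ^ 2 * phi (gradF n β) θ ≤ C * (n : ℝ) ^ (31 / 35 : ℝ) * (1 + Real.log n) ^ 2 := by
  obtain ⟨C₁, hC₁, hmom, -, -⟩ := Sx.moment hβ
  obtain ⟨C₂, hC₂, hlo⟩ := Sx.rt_low hβ
  set C : ℝ := max C₁ C₂ with hC
  have hC0 : 1 ≤ C := hC₁.trans (le_max_left _ _)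
  refine ⟨4 * C, by linarith, fun n hn θ => ?_⟩
  have hn1 : (1 : ℝ) ≤ n := by exact_mod_cast hn
  have hn0 : (0 : ℝ) < n := by linarith
  have hl0 : 0 ≤ Real.log n := Real.log_nonneg hn1
  set L : ℝ := 1 + Real.log n with hL
  have hL1 : 1 ≤ L := by linarith
  have hLsq : 1 ≤ L ^ 2 := one_le_pow₀ hL1
  set y : ℝ := (n : ℝ) ^ (1 / 35 : ℝ) with hy
  have hy1 : 1 ≤ y := Real.one_le_rpow hn1 (by norm_num)
  have hy0 : 0 < y := by linarith
  set Y : ℝ := (n : ℝ) ^ (31 / 35 : ℝ) with hY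
  have hY1 : 1 ≤ Y := Real.one_le_rpow hn1 (by norm_num)
  have hYy : Y * y ^ 4 = n := by
    rw [hY, hy, ← Real.rpow_natCast, ← Real.rpow_mul hn0.le, ← Real.rpow_add hn0]
    norm_num
  have hy2 : (n : ℝ) ^ (6 / 7 : ℝ) = Y / y := by
    rw [hY, hy, ← Real.rpow_sub hn0]
    norm_num
  set x : ℝ := 1 / y with hx
  have hx0 : 0 < x := by positivity
  have hx1 : x ≤ 1 := by rw [hx, div_le_one hy0]; exact hy1
  have hexp : ∫ g, Real.exp (x * freeEnergy n β g) ∂(disorder n) ≤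
      Real.exp (x * (∫ g, freeEnergy n β g ∂(disorder n)) + x ^ 2 * (4 * C * Y * L ^ 2) / 2) := by
    rcases le_or_gt (∫ g, Real.exp (x * freeEnergy n β g) ∂(disorder n)) 0 with h0 | h0
    · exact h0.trans (Real.exp_pos _).le
    rw [← Real.log_le_iff_le_exp h0]
    refine (hmom n hn x hx0 hx1).trans ?_
    have h1 := mul_le_mul_of_nonneg_left (hlo n hn) hx0.le
    have h2 : x * (C₂ * (n : ℝ) ^ (6 / 7 : ℝ) * L ^ 2) = x ^ 2 * (C₂ * Y * L ^ 2) := by
      rw [hy2, hx]; field_simp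
    have h3 : C₁ * n * x ^ 6 = x ^ 2 * (C₁ * Y) := by
      rw [← hYy, hx]; field_simp
    rw [mul_add, h2] at h1
    rw [h3]
    have h4 : x ^ 2 * (C₂ * Y * L ^ 2) ≤ x ^ 2 * (C * Y * L ^ 2) := by
      gcongr
      exact le_max_right _ _
    have h5 : x ^ 2 * (C₁ * Y) ≤ x ^ 2 * (C * Y * L ^ 2) := by
      have h6 : C₁ * Y ≤ C * Y := mul_le_mul_of_nonneg_right (le_max_left _ _) (by linarith)
      have h7 : C * Y * 1 ≤ C * Y * L ^ 2 := mul_le_mul_of_nonneg_left hLsq (by positivity)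
      exact mul_le_mul_of_nonneg_left (by linarith) (by positivity)
    linarith
  have hr := reg_freeEnergy n β
  have h1 := total_ineq (lin_freeEnergy n β)
    (fun p => Lin.of_bounded (hr.G_dom p).cont _ (hr.G_bd p)) hr.G_bd (tangent_freeEnergy n β)
    (c := Real.cos θ) (s := Real.sin θ)
    (by rw [add_comm]; exact Real.sin_sq_add_cos_sq θ) hx0.le
  rw [← phi_eq hr.G_dom] at h1
  have h2 := Real.exp_le_exp.1 (h1.trans hexp)
  have h3 : x ^ 2 / 2 * (Real.sin θ ^ 2 * phi (gradF n β) θ) ≤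
      x ^ 2 / 2 * (4 * C * Y * L ^ 2) := by
    have e : x ^ 2 * Real.sin θ ^ 2 / 2 * phi (gradF n β) θ =
      x ^ 2 / 2 * (Real.sin θ ^ 2 * phi (gradF n β) θ) := by ring
    rw [e] at h2
    have e2 : x * (∫ g, freeEnergy n β g ∂(gpi (Pair n))) =
      x * (∫ g, freeEnergy n β g ∂(disorder n)) := rfl
    linarith only [h2, e2]
  exact le_of_mul_le_mul_left h3 (by positivity)

/-- **Disorder chaos with a rate, and the variance.** -/
theorem chaos_rate {β : ℝ} (hβ : 1 ≤ β) : ∃ C : ℝ, 1 ≤ C ∧ ∀ n : ℕ, 1 ≤ n →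
    (∀ a : ℝ, 0 ≤ a → a < 1 →
      crossOverlap n β a ≤ C * (n : ℝ) ^ (-(4 / 35) : ℝ) * (1 + Real.log n) ^ 2 / (1 - a)) ∧
    Var[freeEnergy n β; disorder n] ≤ C * (n : ℝ) ^ (31 / 35 : ℝ) * (1 + Real.log n) ^ 3 := by
  obtain ⟨C, hC, hrate⟩ := phi_rate hβ
  have hb : 1 ≤ β ^ 2 := one_le_pow₀ hβ
  refine ⟨1 + 2 * C + β ^ 2, by linarith, fun n hn => ?_⟩
  have hn1 : (1 : ℝ) ≤ n := by exact_mod_cast hn
  have hn0 : (0 : ℝ) < n := by linarith
  have hl0 : 0 ≤ Real.log n := Real.log_nonneg hn1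
  obtain ⟨L, hL⟩ : ∃ L, L = 1 + Real.log n := ⟨_, rfl⟩
  have hL1 : 1 ≤ L := by linarith
  have hLsq : 1 ≤ L ^ 2 := one_le_pow₀ hL1
  obtain ⟨Y, hY⟩ : ∃ Y, Y = (n : ℝ) ^ (31 / 35 : ℝ) := ⟨_, rfl⟩
  have hY1 : 1 ≤ Y := by rw [hY]; exact Real.one_le_rpow hn1 (by norm_num)
  obtain ⟨Z, hZ⟩ : ∃ Z, Z = (n : ℝ) ^ (-(4 / 35) : ℝ) := ⟨_, rfl⟩
  have hZY : Z * n = Y := by
    rw [hZ, hY]
    nth_rewrite 2 [← Real.rpow_one (n : ℝ)]
    rw [← Real.rpow_add hn0]
    norm_num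
  have hprof : ∀ a : ℝ, 0 ≤ a → a < 1 →
      (1 - a) * (β ^ 2 / 2 * (n * crossOverlap n β a - 1)) ≤ C * Y * L ^ 2 := by
    intro a ha ha1
    have h1 := hrate n hn (Real.arccos (Real.sqrt a))
    rw [← prof_eq_phi n β hn ha ha1.le, Real.sin_sq, Real.cos_arccos
      (by linarith [Real.sqrt_nonneg a]) (Real.sqrt_le_one.2 ha1.le), Real.sq_sqrt ha,
      ← hY, ← hL] at h1
    exact h1
  rw [← hL, ← hY, ← hZ]
  constructor
  · intro a ha ha1
    have h1 := hprof a ha ha1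
    have ha' : 0 < 1 - a := by linarith
    rw [le_div_iff₀ ha']
    -- multiply by `β² n / 2`
    have h2 : (1 - a) * (n * crossOverlap n β a - 1) ≤ 2 * C * Y * L ^ 2 := by
      have h3 : 0 ≤ C * Y * L ^ 2 := by positivity
      have h4 : β ^ 2 * ((1 - a) * (n * crossOverlap n β a - 1)) ≤ β ^ 2 * (2 * C * Y * L ^ 2) := by
        nlinarith
      exact le_of_mul_le_mul_left h4 (by linarith)
    have h5 : n * (crossOverlap n β a * (1 - a)) ≤ n * ((1 + 2 * C + β ^ 2) * Z * L ^ 2) := by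
      have e1 : n * ((1 + 2 * C + β ^ 2) * Z * L ^ 2) = (1 + 2 * C + β ^ 2) * (Z * n) * L ^ 2 := by
        ring
      rw [e1, hZY]
      have h6 : 1 ≤ Y * L ^ 2 := by nlinarith
      have h7 : (1 + 2 * C) * (Y * L ^ 2) ≤ (1 + 2 * C + β ^ 2) * (Y * L ^ 2) :=
        mul_le_mul_of_nonneg_right (by linarith) (by linarith)
      nlinarith
    exact le_of_mul_le_mul_left h5 hn0
  · have h1 := var_le_of_prof n β hn hprof
    have hYL : 1 ≤ Y * L ^ 3 := by
      have := one_le_pow₀ hL1 (n := 3)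
      nlinarith
    have h2 : C * Y * L ^ 2 * Real.log n ≤ C * Y * L ^ 2 * L :=
      mul_le_mul_of_nonneg_left (by linarith) (by positivity)
    have e : C * Y * L ^ 2 * L = C * (Y * L ^ 3) := by ring
    have h3 : β ^ 2 / 2 ≤ β ^ 2 * (Y * L ^ 3) := by nlinarith
    have h4 : C * (Y * L ^ 3) ≤ (1 + 2 * C) * (Y * L ^ 3) :=
      mul_le_mul_of_nonneg_right (by linarith) (by linarith)
    have e2 : (1 + 2 * C + β ^ 2) * Y * L ^ 3 = (1 + 2 * C) * (Y * L ^ 3) + β ^ 2 * (Y * L ^ 3) := by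
      ring
    rw [e2]
    linarith

end sk

end Vale.Agent.P146.H605
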